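import Vale.Agent.P166.High.Basic

/-!
# P166 high temperature: the mean of log cosh
-/

namespace Vale.Agent.P166.High

open MeasureTheory ProbabilityTheory

noncomputable section

/-- `log cosh (t g)`. -/
def lcosh (t g : ℝ) : ℝ := Real.log (Real.cosh (t * g))

/-- `E log cosh (t g)` for a standard Gaussian `g`. -/
def ell (t : ℝ) : ℝ := ∫ g, lcosh t g ∂gaussianReal 0 1

/-- `sinh / cosh`. -/
def ell_th (y : ℝ) : ℝ := Real.sinh y / Real.cosh y

lemma ell_th_lt (y : ℝ) : |ell_th y| < 1 := by
  have h0 := Real.cosh_pos y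
  rw [ell_th, abs_div, abs_of_pos h0, div_lt_one h0, abs_lt, Real.sinh_eq, Real.cosh_eq]
  constructor <;> linarith [Real.exp_pos y, Real.exp_pos (-y)]

lemma ell_th_continuous : Continuous ell_th :=
  Real.continuous_sinh.div Real.continuous_cosh fun y => (Real.cosh_pos y).ne'

lemma hasDerivAt_ell_th (y : ℝ) : HasDerivAt ell_th (1 - ell_th y ^ 2) y := by
  have hy := (Real.cosh_pos y).ne'
  refine ((Real.hasDerivAt_sinh y).div (Real.hasDerivAt_cosh y) hy).congr_deriv ?_
  rw [ell_th]
  field_simp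

lemma hasDerivAt_lcosh (t g : ℝ) :
    HasDerivAt (fun s => lcosh s g) (g * ell_th (t * g)) t := by
  refine (((hasDerivAt_id' t).mul_const g).cosh.log (Real.cosh_pos _).ne').congr_deriv ?_
  rw [ell_th, one_mul]
  ring

lemma cosh_le_exp_mul (u v : ℝ) : Real.cosh u ≤ Real.exp |u - v| * Real.cosh v := by
  rw [Real.cosh_eq, Real.cosh_eq, ← mul_div_assoc, mul_add, ← Real.exp_add, ← Real.exp_add]
  refine div_le_div_of_nonneg_right (add_le_add (Real.exp_le_exp.2 ?_) (Real.exp_le_exp.2 ?_))
    two_pos.le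
  · linarith [le_abs_self (u - v)]
  · linarith [neg_abs_le (u - v)]

lemma lcosh_sub_le (u v : ℝ) :
    Real.log (Real.cosh u) - Real.log (Real.cosh v) ≤ |u - v| := by
  have h := Real.log_le_log (Real.cosh_pos u) (cosh_le_exp_mul u v)
  rw [Real.log_mul (Real.exp_ne_zero _) (Real.cosh_pos v).ne', Real.log_exp] at h
  linarith

lemma lcosh_abs_sub_le (u v : ℝ) :
    |Real.log (Real.cosh u) - Real.log (Real.cosh v)| ≤ |u - v| :=
  abs_sub_le_iff.2 ⟨lcosh_sub_le u v, abs_sub_comm u v ▸ lcosh_sub_le v u⟩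

theorem lcosh_lip (t x y : ℝ) : |lcosh t x - lcosh t y| ≤ |t| * |x - y| := by
  rw [← abs_mul, mul_sub]
  exact lcosh_abs_sub_le _ _

theorem lcosh_mono {s t : ℝ} (h : |s| ≤ |t|) (x : ℝ) : lcosh s x ≤ lcosh t x := by
  refine Real.log_le_log (Real.cosh_pos _) (Real.cosh_le_cosh.2 ?_)
  rw [abs_mul, abs_mul]
  exact mul_le_mul_of_nonneg_right h (abs_nonneg x)

lemma lcosh_abs_le (t g : ℝ) : |lcosh t g| ≤ |t| * |g| := by
  simpa [lcosh] using lcosh_lip t g 0

lemma ell_integrable_sq : Integrable (fun g : ℝ => g ^ 2) (gaussianReal 0 1) :=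
  (memLp_id_gaussianReal' 2 (by norm_num)).integrable_sq

lemma ell_integrable_abs : Integrable (fun g : ℝ => |g|) (gaussianReal 0 1) :=
  ((memLp_id_gaussianReal' 1 (by norm_num)).integrable le_rfl).abs

lemma ell_integrable_lcosh (t : ℝ) : Integrable (lcosh t) (gaussianReal 0 1) := by
  refine (ell_integrable_abs.const_mul |t|).mono' ?_ (ae_of_all _ fun g => lcosh_abs_le t g)
  exact ((Real.continuous_cosh.comp (continuous_const.mul continuous_id)).log
    fun g => (Real.cosh_pos _).ne').aestronglyMeasurable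

lemma ell_second_moment : ∫ g, g ^ 2 ∂gaussianReal 0 1 = 1 := by
  have h : Var[fun x ↦ x; gaussianReal 0 1] = ((1 : NNReal) : ℝ) := variance_fun_id_gaussianReal
  rw [variance_eq_integral measurable_id'.aemeasurable] at h
  simpa [integral_id_gaussianReal] using h

theorem ell_le (t : ℝ) : ell t ≤ |t| * ∫ g, |g| ∂gaussianReal 0 1 := by
  rw [ell, ← integral_const_mul]
  exact integral_mono (ell_integrable_lcosh t) (ell_integrable_abs.const_mul _)
    fun g => (le_abs_self _).trans (lcosh_abs_le t g)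

lemma ell_nullFinite {s : Set ℝ} (hs : s.Finite) : gaussianReal 0 1 s = 0 :=
  gaussianReal_absolutelyContinuous 0 one_ne_zero (hs.measure_zero volume)

/-- A strict Cauchy-Schwarz: a square mean is positive when the function vanishes on a null set. -/
lemma ell_pos_of_null {f : ℝ → ℝ} (hi : Integrable (fun g => f g ^ 2) (gaussianReal 0 1))
    (hs : gaussianReal 0 1 {g | f g = 0} = 0) : 0 < ∫ g, f g ^ 2 ∂gaussianReal 0 1 := by
  rw [integral_pos_iff_support_of_nonneg (fun g => sq_nonneg (f g)) hi]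
  have : Function.support (fun g => f g ^ 2) = {g | f g = 0}ᶜ := by
    ext g
    simp
  rw [this, pos_iff_ne_zero]
  intro h
  have := measure_union_le (μ := gaussianReal 0 1) {g | f g = 0} {g | f g = 0}ᶜ
  rw [Set.union_compl_self, measure_univ, hs, h] at this
  simp at this

theorem abs_mean_lt : ∫ g, |g| ∂gaussianReal 0 1 < 1 := by
  set m := ∫ g, |g| ∂gaussianReal 0 1 with hm
  have e : ∀ g : ℝ, (|g| - m) ^ 2 = g ^ 2 - 2 * m * |g| + m ^ 2 := fun g => by
    rw [sub_sq, sq_abs]; ring
  have i1 : Integrable (fun g : ℝ => g ^ 2 - 2 * m * |g|) (gaussianReal 0 1) :=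
    ell_integrable_sq.sub (ell_integrable_abs.const_mul _)
  have hpos : 0 < ∫ g, (|g| - m) ^ 2 ∂gaussianReal 0 1 := by
    refine ell_pos_of_null ?_ (measure_mono_null (fun g (hg : |g| - m = 0) => ?_)
      (ell_nullFinite ((Set.finite_singleton m).insert (-m))))
    · simp only [e]; exact i1.add (integrable_const _)
    · rw [sub_eq_zero] at hg
      rcases abs_choice g with h | h <;> rw [h] at hg
      · exact .inr hg
      · exact .inl (by linarith)
  simp only [e] at hpos
  rw [integral_add i1 (integrable_const _),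
    integral_sub ell_integrable_sq (ell_integrable_abs.const_mul _), integral_const_mul,
    ell_second_moment, ← hm] at hpos
  simp only [integral_const, probReal_univ, one_smul] at hpos
  nlinarith [sq_nonneg (m - 1), sq_nonneg (m + 1)]

lemma ell_sub_abs_le (s t : ℝ) :
    |ell s - ell t| ≤ |s - t| * ∫ g, |g| ∂gaussianReal 0 1 := by
  rw [ell, ell, ← integral_sub (ell_integrable_lcosh s) (ell_integrable_lcosh t),
    ← integral_const_mul]
  refine (abs_integral_le_integral_abs).trans (integral_mono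
    ((ell_integrable_lcosh s).sub (ell_integrable_lcosh t)).abs
    (ell_integrable_abs.const_mul _) fun g => ?_)
  rw [← abs_mul, sub_mul]
  exact lcosh_abs_sub_le _ _

theorem ell_continuous : Continuous ell := by
  refine (LipschitzWith.of_dist_le_mul (K := 1) fun s t => ?_).continuous
  rw [Real.dist_eq, Real.dist_eq, NNReal.coe_one, one_mul]
  exact (ell_sub_abs_le s t).trans
    (mul_le_of_le_one_right (abs_nonneg _) abs_mean_lt.le)

/-- `A = E g tanh (l g)`. -/
def ell_A (l : ℝ) : ℝ := ∫ g, g * ell_th (l * g) ∂gaussianReal 0 1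

lemma ell_integrable_A (l : ℝ) :
    Integrable (fun g => g * ell_th (l * g)) (gaussianReal 0 1) := by
  refine ell_integrable_abs.mono' (continuous_id.mul
    (ell_th_continuous.comp (continuous_const.mul continuous_id))).aestronglyMeasurable
    (ae_of_all _ fun g => ?_)
  rw [Real.norm_eq_abs, abs_mul]
  exact mul_le_of_le_one_right (abs_nonneg _) (ell_th_lt _).le

lemma hasDerivAt_ell (l : ℝ) : HasDerivAt ell (ell_A l) l :=
  (hasDerivAt_integral_of_dominated_loc_of_deriv_le (F := lcosh)
    (F' := fun s g => g * ell_th (s * g)) (bound := fun g => |g|) (s := Set.univ) Filter.univ_mem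
    (Filter.Eventually.of_forall fun s => (ell_integrable_lcosh s).1) (ell_integrable_lcosh l)
    (ell_integrable_A l).1
    (ae_of_all _ fun g s _ => by
      rw [Real.norm_eq_abs, abs_mul]
      exact mul_le_of_le_one_right (abs_nonneg _) (ell_th_lt _).le)
    ell_integrable_abs (ae_of_all _ fun g s _ => hasDerivAt_lcosh s g)).2

/-- The standard normal density. -/
def ell_pdf (x : ℝ) : ℝ := gaussianPDFReal 0 1 x

lemma ell_pdf_hasDeriv (x : ℝ) : HasDerivAt ell_pdf (-x * ell_pdf x) x := by
  have e : ell_pdf = fun x => (Real.sqrt (2 * Real.pi))⁻¹ * Real.exp (-x ^ 2 / 2) := by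
    funext y
    simp [ell_pdf, gaussianPDFReal]
  rw [e]
  refine (((hasDerivAt_pow 2 x).neg.div_const 2).exp.const_mul _).congr_deriv ?_
  simp
  ring

lemma ell_vol_integrable {f : ℝ → ℝ} (h : Integrable f (gaussianReal 0 1)) :
    Integrable (fun x => ell_pdf x * f x) := by
  rw [gaussianReal_of_var_ne_zero 0 one_ne_zero, integrable_withDensity_iff_integrable_smul'
    (measurable_gaussianPDF 0 1) (ae_of_all _ fun _ => gaussianPDF_lt_top)] at h
  simpa [ell_pdf, toReal_gaussianPDF] using h

/-- Gaussian integration by parts. -/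
lemma ell_ibp (l : ℝ) :
    ell_A l = l * (1 - ∫ g, ell_th (l * g) ^ 2 ∂gaussianReal 0 1) := by
  set u := fun x : ℝ => ell_th (l * x)
  have hu : ∀ x, HasDerivAt u (l * (1 - u x ^ 2)) x := fun x => by
    refine ((hasDerivAt_ell_th (l * x)).comp x ((hasDerivAt_id' x).const_mul l)).congr_deriv ?_
    simp only [u]
    ring
  have hsq : Integrable (fun g => u g ^ 2) (gaussianReal 0 1) := by
    refine (integrable_const (1 : ℝ)).mono'
      ((ell_th_continuous.comp (continuous_const.mul continuous_id)).pow 2).aestronglyMeasurable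
      (ae_of_all _ fun g => ?_)
    rw [Real.norm_eq_abs, abs_pow]
    exact pow_le_one₀ (abs_nonneg _) (ell_th_lt _).le
  have hui : Integrable (fun g => u g) (gaussianReal 0 1) :=
    (integrable_const (1 : ℝ)).mono'
      (ell_th_continuous.comp (continuous_const.mul continuous_id)).aestronglyMeasurable
      (ae_of_all _ fun g => (ell_th_lt _).le)
  have huv' : Integrable (u * fun x => -x * ell_pdf x) := by
    refine (ell_vol_integrable (ell_integrable_A l)).neg.congr (ae_of_all _ fun x => ?_)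
    simp only [Pi.neg_apply, Pi.mul_apply, u]
    ring
  have hu'v : Integrable ((fun x => l * (1 - u x ^ 2)) * ell_pdf) := by
    refine (ell_vol_integrable (((integrable_const (1 : ℝ)).sub hsq).const_mul l)).congr
      (ae_of_all _ fun x => ?_)
    simp only [Pi.mul_apply, Pi.sub_apply]
    ring
  have huv : Integrable (u * ell_pdf) := by
    refine (ell_vol_integrable hui).congr (ae_of_all _ fun x => ?_)
    simp only [Pi.mul_apply]
    ring
  have h := integral_mul_deriv_eq_deriv_mul_of_integrable (fun x _ => hu x)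
    (fun x _ => ell_pdf_hasDeriv x) huv' hu'v huv
  have e1 : ∫ x, u x * (-x * ell_pdf x) = -ell_A l := by
    rw [ell_A, integral_gaussianReal_eq_integral_smul one_ne_zero, ← integral_neg]
    refine integral_congr_ae (ae_of_all _ fun x => ?_)
    simp only [ell_pdf, smul_eq_mul, u]
    ring
  have e2 : ∫ x, (l * (1 - u x ^ 2)) * ell_pdf x =
      l * (1 - ∫ g, u g ^ 2 ∂gaussianReal 0 1) := by
    have e : ∫ g, l * (1 - u g ^ 2) ∂gaussianReal 0 1 =
        l * (1 - ∫ g, u g ^ 2 ∂gaussianReal 0 1) := by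
      rw [integral_const_mul, integral_sub (integrable_const _) hsq]
      simp
    rw [← e, integral_gaussianReal_eq_integral_smul one_ne_zero]
    refine integral_congr_ae (ae_of_all _ fun x => ?_)
    simp only [ell_pdf, smul_eq_mul]
    ring
  linarith [e1 ▸ e2 ▸ h]

lemma ell_A_nonneg {l : ℝ} (hl : 0 ≤ l) : 0 ≤ ell_A l := by
  refine integral_nonneg fun g => ?_
  show 0 ≤ g * (Real.sinh (l * g) / Real.cosh (l * g))
  rw [← mul_div_assoc]
  refine div_nonneg ?_ (Real.cosh_pos _).le
  rcases le_total 0 g with h | h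
  · exact mul_nonneg h (Real.sinh_nonneg_iff.2 (mul_nonneg hl h))
  · exact mul_nonneg_of_nonpos_of_nonpos h
      (Real.sinh_nonpos_iff.2 (mul_nonpos_of_nonneg_of_nonpos hl h))

/-- Strict Cauchy-Schwarz against a bounded function. -/
lemma ell_A_sq_lt {l : ℝ} (hl : 0 < l) :
    ell_A l ^ 2 < ∫ g, ell_th (l * g) ^ 2 ∂gaussianReal 0 1 := by
  set A := ell_A l with hA
  set u := fun g => ell_th (l * g)
  set B := ∫ g, u g ^ 2 ∂gaussianReal 0 1 with hB
  have hu : Continuous u := ell_th_continuous.comp (continuous_const.mul continuous_id)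
  have hsq : Integrable (fun g => u g ^ 2) (gaussianReal 0 1) :=
    (integrable_const (1 : ℝ)).mono' (hu.pow 2).aestronglyMeasurable (ae_of_all _ fun g => by
      rw [Real.norm_eq_abs, abs_pow]
      exact pow_le_one₀ (abs_nonneg _) (ell_th_lt _).le)
  have hibp := ell_ibp l
  rw [← hA] at hibp
  rcases eq_or_ne A 0 with h0 | h0
  · rw [h0] at hibp ⊢
    rw [zero_pow two_ne_zero]
    rcases mul_eq_zero.1 hibp.symm with h | h
    · linarith
    · linarith
  have e : ∀ g : ℝ, (u g - A * g) ^ 2 = u g ^ 2 - 2 * A * (g * u g) + A ^ 2 * g ^ 2 :=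
    fun g => by ring
  have i1 : Integrable (fun g => u g ^ 2 - 2 * A * (g * u g)) (gaussianReal 0 1) :=
    hsq.sub ((ell_integrable_A l).const_mul _)
  have hi : Integrable (fun g => (u g - A * g) ^ 2) (gaussianReal 0 1) := by
    simp only [e]; exact i1.add (ell_integrable_sq.const_mul _)
  have hpos : 0 < ∫ g, (u g - A * g) ^ 2 ∂gaussianReal 0 1 := by
    rw [integral_pos_iff_support_of_nonneg (fun g => sq_nonneg (u g - A * g)) hi]
    have hsub : Set.Ioi (1 / |A|) ⊆ Function.support fun g => (u g - A * g) ^ 2 := by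
      intro g hg
      simp only [Function.mem_support, ne_eq, sq_eq_zero_iff, sub_eq_zero]
      intro h
      have h1 : |A| * g < 1 := by
        have hg0 : 0 < g := lt_trans (by positivity) hg
        calc |A| * g = |A * g| := by rw [abs_mul, abs_of_pos hg0]
          _ = |u g| := by rw [h]
          _ < 1 := ell_th_lt _
      rw [Set.mem_Ioi, div_lt_iff₀ (abs_pos.2 h0)] at hg
      linarith
    refine lt_of_lt_of_le ?_ (measure_mono hsub)
    rw [pos_iff_ne_zero]
    intro h
    have := gaussianReal_absolutelyContinuous' 0 (one_ne_zero (α := NNReal)) h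
    simp [Real.volume_Ioi] at this
  simp only [e] at hpos
  rw [integral_add i1 (ell_integrable_sq.const_mul _),
    integral_sub hsq ((ell_integrable_A l).const_mul _), integral_const_mul, integral_const_mul,
    ell_second_moment, ← hB] at hpos
  have hAu : ∫ g, g * u g ∂gaussianReal 0 1 = A := rfl
  rw [hAu] at hpos
  linarith [hpos]

lemma ell_A_lt {t : ℝ} (ht : 0 < t) (ht1 : t < 1) : ell_A (t / (1 - t ^ 2)) < t := by
  have h1 : 0 < 1 - t ^ 2 := by nlinarith
  set l := t / (1 - t ^ 2) with hl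
  have hl0 : 0 < l := div_pos ht h1
  have ha := ell_ibp l
  have hb := ell_A_sq_lt hl0
  have h0 := ell_A_nonneg hl0.le
  have hlt : l * (1 - t ^ 2) = t := div_mul_cancel₀ _ h1.ne'
  by_contra hh
  rw [not_lt] at hh
  nlinarith [mul_le_mul hh hh ht.le h0, mul_lt_mul_of_pos_left hb hl0]

/-- Strict separation from the spherical rate function. -/
theorem ell_lt {t : ℝ} (ht : 0 < t) (ht1 : t < 1) :
    ell (t / (1 - t ^ 2)) < t * (t / (1 - t ^ 2)) + Real.log (1 - t ^ 2) / 2 := by
  set F := fun s : ℝ => s * (s / (1 - s ^ 2)) + Real.log (1 - s ^ 2) / 2 - ell (s / (1 - s ^ 2))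
  have hd : ∀ s ∈ Set.Ioo (-1 : ℝ) 1, HasDerivAt F
      ((1 + s ^ 2) / (1 - s ^ 2) ^ 2 * (s - ell_A (s / (1 - s ^ 2)))) s := by
    intro s hs
    have h1 : 0 < 1 - s ^ 2 := by nlinarith [hs.1, hs.2]
    have hq : HasDerivAt (fun s : ℝ => 1 - s ^ 2) (-(2 * s)) s :=
      ((hasDerivAt_pow 2 s).const_sub 1).congr_deriv (by simp)
    have hl : HasDerivAt (fun s : ℝ => s / (1 - s ^ 2)) ((1 + s ^ 2) / (1 - s ^ 2) ^ 2) s :=
      ((hasDerivAt_id' s).div hq h1.ne').congr_deriv (by ring)
    have := ((((hasDerivAt_id' s).mul hl).add ((hq.log h1.ne').div_const 2)).sub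
      ((hasDerivAt_ell _).comp s hl))
    refine this.congr_deriv ?_
    field_simp
    ring
  have hmono : StrictMonoOn F (Set.Icc 0 t) := by
    refine strictMonoOn_of_hasDerivWithinAt_pos (convex_Icc 0 t)
      (fun s hs => (hd s ⟨by linarith [hs.1], by linarith [hs.2]⟩).continuousAt.continuousWithinAt)
      (fun s hs => ?_) (fun s hs => ?_) (f' := fun s =>
        (1 + s ^ 2) / (1 - s ^ 2) ^ 2 * (s - ell_A (s / (1 - s ^ 2))))
    all_goals rw [interior_Icc] at hs
    · exact (hd s ⟨by linarith [hs.1], by linarith [hs.2]⟩).hasDerivWithinAt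
    · have h1 : 0 < 1 - s ^ 2 := by nlinarith [hs.1, hs.2]
      exact mul_pos (by positivity) (sub_pos.2 (ell_A_lt hs.1 (by linarith [hs.2])))
  have h := hmono (Set.left_mem_Icc.2 ht.le) (Set.right_mem_Icc.2 ht.le) ht
  have h0 : F 0 = 0 := by simp [F, ell, lcosh]
  simp only [F] at h h0
  linarith

end

end Vale.Agent.P166.High
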