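import Vale.Agent.P166.High.Basic

/-!
# P166 high temperature: a grid in the unit ball of a coordinate subspace
-/

namespace Vale.Agent.P166.High

open Matrix Finset

noncomputable section

/-- Rounding to an integer towards zero. -/
def net_trunc (x : ℝ) : ℤ := if 0 ≤ x then ⌊x⌋ else ⌈x⌉

lemma net_trunc_spec (x : ℝ) : |(net_trunc x : ℝ)| ≤ |x| ∧ |x - net_trunc x| ≤ 1 := by
  unfold net_trunc
  split_ifs with h
  · have h1 := Int.floor_le x
    have h2 := Int.lt_floor_add_one x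
    have h3 : (0 : ℝ) ≤ (⌊x⌋ : ℝ) := by exact_mod_cast Int.floor_nonneg.2 h
    rw [abs_of_nonneg h, abs_of_nonneg h3, abs_le]
    exact ⟨h1, by linarith, by linarith⟩
  · rw [not_le] at h
    have h1 := Int.le_ceil x
    have h2 := Int.ceil_lt_add_one x
    have h3 : (⌈x⌉ : ℝ) ≤ 0 := by
      exact_mod_cast Int.ceil_le.2 (by rw [Int.cast_zero]; exact h.le)
    rw [abs_of_neg h, abs_of_nonpos h3, abs_le]
    exact ⟨by linarith, by linarith, by linarith⟩

lemma net_sum_geom (B : ℕ) :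
    ∑ n ∈ Finset.Icc (-(B : ℤ)) B, ((1 : ℝ) / 2) ^ n.natAbs ≤ 4 := by
  have hmaps : ∀ n ∈ Finset.Icc (-(B : ℤ)) B, n.natAbs ∈ range (B + 1) := fun n hn => by
    rw [Finset.mem_Icc] at hn
    rw [Finset.mem_range]
    omega
  rw [← sum_fiberwise_of_maps_to hmaps]
  refine (sum_le_sum (g := fun j => 2 * ((1 : ℝ) / 2) ^ j) fun j _ => ?_).trans ?_
  · rw [sum_congr rfl (g := fun _ => ((1 : ℝ) / 2) ^ j) fun n hn => by rw [(mem_filter.1 hn).2],
      sum_const, nsmul_eq_mul]
    refine mul_le_mul_of_nonneg_right ?_ (by positivity)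
    refine le_trans (Nat.cast_le.2 (card_le_card (t := ({(j : ℤ), -(j : ℤ)} : Finset ℤ)) ?_)) ?_
    · intro n hn
      have := (mem_filter.1 hn).2
      simp only [Finset.mem_insert, Finset.mem_singleton]
      omega
    · exact_mod_cast card_le_two
  · rw [← mul_sum]
    have h := sum_geometric_two_le (B + 1)
    linarith

theorem exists_net (δ : ℝ) (hδ : 0 < δ) :
    ∃ C : ℝ, 0 ≤ C ∧ ∀ (N : ℕ) (W : Finset (Fin N)), ∃ T : Finset (Fin N → ℝ),
      (T.card : ℝ) ≤ Real.exp (C * W.card) ∧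
      (∀ v ∈ T, (∀ i ∈ Wᶜ, v i = 0) ∧ sq v ≤ 1) ∧
      ∀ w : Fin N → ℝ, (∀ i ∈ Wᶜ, w i = 0) → ∃ v ∈ T, (1 - δ) * Real.sqrt (sq w) ≤ v ⬝ᵥ w := by
  classical
  set L := ⌈1 / δ ^ 2⌉₊ with hL
  refine ⟨L * Real.log 2 + Real.log 4, by positivity, fun N W => ?_⟩
  set k := W.card with hk
  set box := Fintype.piFinset fun i : Fin N =>
    if i ∈ W then Finset.Icc (-((L * k : ℕ) : ℤ)) (L * k : ℕ) else {0}
  set P := box.filter fun n => ∑ i, ((n i : ℝ)) ^ 2 ≤ k / δ ^ 2
  set c := δ / Real.sqrt k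
  refine ⟨P.image fun n i => c * n i, ?_, ?_, ?_⟩
  · refine (Nat.cast_le.2 card_image_le).trans ?_
    have hterm : ∀ n ∈ P, (1 : ℝ) ≤ 2 ^ (L * k) * ∏ i, ((1 : ℝ) / 2) ^ (n i).natAbs := by
      intro n hn
      rw [prod_pow_eq_pow_sum, one_div, inv_pow, ← div_eq_mul_inv, le_div_iff₀ (by positivity),
        one_mul]
      refine pow_le_pow_right₀ one_le_two ?_
      have h1 : ((∑ i, (n i).natAbs : ℕ) : ℝ) ≤ ∑ i, ((n i : ℝ)) ^ 2 := by
        push_cast
        refine sum_le_sum fun i _ => ?_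
        rw [Nat.cast_natAbs, Int.cast_abs, ← sq_abs ((n i : ℝ))]
        rcases eq_or_ne (n i) 0 with h | h
        · simp [h]
        · have h1 : (1 : ℝ) ≤ |(n i : ℝ)| := by exact_mod_cast Int.one_le_abs h
          nlinarith
      have h2 : ((∑ i, (n i).natAbs : ℕ) : ℝ) ≤ ((L * k : ℕ) : ℝ) := by
        refine h1.trans ((mem_filter.1 hn).2.trans ?_)
        rw [Nat.cast_mul, div_eq_mul_one_div, mul_comm (L : ℝ)]
        exact mul_le_mul_of_nonneg_left (Nat.le_ceil _) (Nat.cast_nonneg k)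
      exact_mod_cast h2
    have hprod : ∑ n ∈ box, ∏ i, ((1 : ℝ) / 2) ^ (n i).natAbs ≤ (4 : ℝ) ^ k := by
      rw [← prod_univ_sum (fun i : Fin N =>
        if i ∈ W then Finset.Icc (-((L * k : ℕ) : ℤ)) (L * k : ℕ) else {0})
        fun _ x => ((1 : ℝ) / 2) ^ x.natAbs]
      refine (prod_le_prod (fun i _ => sum_nonneg fun x _ => by positivity)
        (g := fun i => if i ∈ W then (4 : ℝ) else 1) fun i _ => ?_).trans (le_of_eq ?_)
      · by_cases hi : i ∈ W
        · rw [if_pos hi, if_pos hi]; exact net_sum_geom _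
        · rw [if_neg hi, if_neg hi]; simp
      · rw [← prod_filter, prod_const]
        congr 1
        rw [hk]
        congr 1
        ext i
        simp
    calc (P.card : ℝ) = ∑ _n ∈ P, (1 : ℝ) := by simp
      _ ≤ ∑ n ∈ P, 2 ^ (L * k) * ∏ i, ((1 : ℝ) / 2) ^ (n i).natAbs := sum_le_sum hterm
      _ ≤ 2 ^ (L * k) * 4 ^ k := by
          rw [← mul_sum]
          refine mul_le_mul_of_nonneg_left (le_trans ?_ hprod) (by positivity)
          exact sum_le_sum_of_subset_of_nonneg (filter_subset _ _) fun n _ _ => by positivity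
      _ = Real.exp ((L * Real.log 2 + Real.log 4) * k) := by
          rw [add_mul, Real.exp_add, mul_comm (Real.log 4), Real.exp_nat_mul,
            Real.exp_log (by norm_num : (0 : ℝ) < 4),
            show (L : ℝ) * Real.log 2 * k = ((L * k : ℕ) : ℝ) * Real.log 2 by push_cast; ring,
            Real.exp_nat_mul, Real.exp_log two_pos]
  · intro v hv
    obtain ⟨n, hn, rfl⟩ := mem_image.1 hv
    obtain ⟨hbox, hsum⟩ := mem_filter.1 hn
    refine ⟨fun i hi => ?_, ?_⟩
    · have := Fintype.mem_piFinset.1 hbox i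
      rw [if_neg (Finset.mem_compl.1 hi), Finset.mem_singleton] at this
      simp [this]
    · have e : sq (fun i => c * (n i : ℝ)) = δ ^ 2 / k * ∑ i, ((n i : ℝ)) ^ 2 := by
        rw [sq, mul_sum]
        refine sum_congr rfl fun i _ => ?_
        rw [mul_pow, div_pow, Real.sq_sqrt (Nat.cast_nonneg k)]
      rw [e]
      rcases Nat.eq_zero_or_pos k with h0 | h0
      · simp [h0]
      · have hk0 : (0 : ℝ) < k := by exact_mod_cast h0
        rw [le_div_iff₀ (by positivity)] at hsum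
        rw [div_mul_eq_mul_div, div_le_one hk0, mul_comm]
        exact hsum
  intro w hw
  rcases eq_or_ne (sq w) 0 with hw0 | hw0
  · refine ⟨fun _ => 0, mem_image.2 ⟨fun _ => 0, mem_filter.2 ⟨Fintype.mem_piFinset.2 fun i => ?_,
      by simp only [Int.cast_zero, ne_eq, OfNat.ofNat_ne_zero, not_false_eq_true, zero_pow,
        sum_const_zero]; positivity⟩, by simp⟩, ?_⟩
    · split_ifs
      · simp only [Finset.mem_Icc]; omega
      · simp
    · simp [hw0, dotProduct]
  have hs : 0 < sq w := lt_of_le_of_ne (sum_nonneg fun i _ => sq_nonneg _) hw0.symm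
  set r := Real.sqrt (sq w)
  have hr : 0 < r := Real.sqrt_pos.2 hs
  have hk0 : 0 < k := by
    refine card_pos.2 (nonempty_of_ne_empty fun h => hw0 (sum_eq_zero fun i _ => ?_))
    rw [hw i (by simp [h]), zero_pow two_ne_zero]
  have hk' : (0 : ℝ) < Real.sqrt k := Real.sqrt_pos.2 (by exact_mod_cast hk0)
  have hc : 0 < c := div_pos hδ hk'
  set n : Fin N → ℤ := fun i => net_trunc (w i / (c * r)) with hn
  have hn2 : ∑ i, ((n i : ℝ)) ^ 2 ≤ k / δ ^ 2 := by
    refine (sum_le_sum fun i _ => sq_le_sq.2 (net_trunc_spec (w i / (c * r))).1).trans (le_of_eq ?_)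
    rw [sum_congr rfl fun i _ => div_pow (w i) (c * r) 2, ← sum_div, mul_pow, Real.sq_sqrt hs.le,
      div_pow, Real.sq_sqrt (Nat.cast_nonneg k), show ∑ i, w i ^ 2 = sq w from rfl]
    field_simp
  refine ⟨fun i => c * n i, mem_image.2 ⟨n, mem_filter.2 ⟨Fintype.mem_piFinset.2 fun i => ?_, hn2⟩,
    rfl⟩, ?_⟩
  · split_ifs with hi
    · have h1 : ((n i).natAbs : ℝ) ≤ ((L * k : ℕ) : ℝ) := by
        have hsq : ((n i).natAbs : ℝ) ≤ (n i : ℝ) ^ 2 := by
          rw [Nat.cast_natAbs, Int.cast_abs, ← sq_abs ((n i : ℝ))]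
          rcases eq_or_ne (n i) 0 with h | h
          · simp [h]
          · have h1 : (1 : ℝ) ≤ |(n i : ℝ)| := by exact_mod_cast Int.one_le_abs h
            nlinarith
        refine hsq.trans ((single_le_sum (fun j _ => sq_nonneg ((n j : ℝ))) (mem_univ i)).trans
          (hn2.trans ?_))
        rw [Nat.cast_mul, div_eq_mul_one_div, mul_comm (L : ℝ)]
        exact mul_le_mul_of_nonneg_left (Nat.le_ceil _) (Nat.cast_nonneg k)
      have h2 : (n i).natAbs ≤ L * k := by exact_mod_cast h1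
      simp only [Finset.mem_Icc]
      omega
    · simp [hn, net_trunc, hw i (Finset.mem_compl.2 hi)]
  have habs : ∑ i, |w i| ≤ Real.sqrt k * r := by
    have h := sq_sum_le_card_mul_sum_sq (s := W) (f := fun i => |w i|)
    have e : ∑ i, |w i| = ∑ i ∈ W, |w i| :=
      (sum_subset (subset_univ W) fun i _ hi => by simp [hw i (Finset.mem_compl.2 hi)]).symm
    rw [e, ← Real.sqrt_mul (Nat.cast_nonneg k)]
    refine Real.le_sqrt_of_sq_le (h.trans (mul_le_mul_of_nonneg_left ?_ (Nat.cast_nonneg _)))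
    simp only [sq_abs]
    exact sum_le_sum_of_subset_of_nonneg (subset_univ W) fun i _ _ => sq_nonneg _
  have key : ∑ i, w i * (w i / r) - c * ∑ i, |w i| ≤ (fun i => c * (n i : ℝ)) ⬝ᵥ w := by
    rw [dotProduct, mul_sum, ← sum_sub_distrib]
    refine sum_le_sum fun i _ => ?_
    have h2 := (net_trunc_spec (w i / (c * r))).2
    have h3 : |w i * (w i / (c * r) - n i)| ≤ |w i| := by
      rw [abs_mul]
      exact mul_le_of_le_one_right (abs_nonneg _) h2
    have h4 := mul_le_mul_of_nonneg_left (abs_le.1 h3).2 hc.le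
    have e : c * (w i * (w i / (c * r) - n i)) = w i * (w i / r) - c * n i * w i := by
      field_simp
    linarith
  refine le_trans ?_ key
  have e1 : ∑ i, w i * (w i / r) = r := by
    rw [sum_congr rfl (g := fun i => w i ^ 2 / r) fun i _ => by ring, ← sum_div,
      show ∑ i, w i ^ 2 = sq w from rfl, div_eq_iff hr.ne', Real.mul_self_sqrt hs.le]
  have e2 : c * ∑ i, |w i| ≤ δ * r := by
    refine (mul_le_mul_of_nonneg_left habs hc.le).trans (le_of_eq ?_)
    rw [← mul_assoc, div_mul_cancel₀ _ hk'.ne']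
  rw [e1]
  linarith

end

end Vale.Agent.P166.High
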