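import Vale.Agent.P166.High.Sph
import Vale.Agent.P166.High.Ell
import Vale.Agent.P166.High.Net

/-!
# P166 high temperature: few configurations are large on few coordinates
-/

namespace Vale.Agent.P166.High

open MeasureTheory Matrix

noncomputable section

/-- The configurations with squared length at least `r² N` on the coordinates in `W`. -/
def big {N : ℕ} (U : OMat N) (W : Finset (Fin N)) (r : ℝ) : Finset (Fin N → Bool) :=
  Finset.univ.filter fun s => r ^ 2 * N ≤ ∑ i ∈ W, act U (spin s) i ^ 2

/-- The exponential sum over the configurations. -/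
lemma bad_sum_exp {N : ℕ} (lam : ℝ) (z : Fin N → ℝ) :
    ∑ s : Fin N → Bool, Real.exp (∑ j, lam * z j * spin s j)
      = 2 ^ N * Real.exp (∑ j, lcosh lam (z j)) := by
  have h1 : ∀ s : Fin N → Bool, Real.exp (∑ j, lam * z j * spin s j)
      = ∏ j, (fun (j : Fin N) (b : Bool) =>
          Real.exp (lam * z j * if b then 1 else -1)) j (s j) := fun s => by
    rw [Real.exp_sum]; rfl
  simp only [h1]
  rw [← Fintype.prod_sum fun (j : Fin N) (b : Bool) =>
    Real.exp (lam * z j * if b then 1 else -1), Real.exp_sum]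
  rw [show (2 : ℝ) ^ N = ∏ _j : Fin N, (2 : ℝ) by simp, ← Finset.prod_mul_distrib]
  refine Finset.prod_congr rfl fun j _ => ?_
  simp only [lcosh]
  rw [Real.exp_log (Real.cosh_pos _)]
  simp only [Fintype.sum_bool, Real.cosh_eq, if_true,
    Bool.false_eq_true, if_false, mul_one, mul_neg]
  ring

lemma bad_ell_nonneg (t : ℝ) : 0 ≤ ell t :=
  integral_nonneg fun g => Real.log_nonneg (Real.one_le_cosh _)

theorem few_big (lam δ : ℝ) (hlam : 0 ≤ lam) (hδ : 0 < δ) :
    ∃ ε > 0, ∃ c > 0, ∃ N0 : ℕ, ∀ N ≥ N0, ∀ W : Finset (Fin N), (W.card : ℝ) ≤ ε * N →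
      (haarO N).real {U | ∃ r : ℝ, 0 ≤ r ∧ r ≤ 1 ∧
        2 ^ N * Real.exp (N * (ell lam + δ - lam * r)) < ((big U W r).card : ℝ)}
      ≤ Real.exp (-(c * N)) := by
  set δ0 := min 1 (δ / (2 * (lam + 1))) with hδ0d
  have hδ0 : 0 < δ0 := lt_min one_pos (by positivity)
  have hδ1 : δ0 ≤ 1 := min_le_left _ _
  have hlamδ : lam * δ0 ≤ δ / 2 := by
    refine (mul_le_mul_of_nonneg_left (min_le_right _ _) hlam).trans ?_
    rw [← mul_div_assoc, div_le_iff₀ (by positivity)]
    nlinarith
  obtain ⟨C, hC, hnet⟩ := exists_net δ0 hδ0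
  obtain ⟨c, hc, N1, hdir⟩ := dir_tail (lam + 1) (δ / 4) (by linarith) (by linarith)
  refine ⟨min (c / (2 * (C + 1))) (δ / (4 * (C + 1))), lt_min (by positivity) (by positivity),
    c / 2, by positivity, max N1 1, fun N hN W hW => ?_⟩
  have hN1 : N1 ≤ N := le_of_max_le_left hN
  have hNr : (0 : ℝ) < N := Nat.cast_pos.2 (le_of_max_le_right hN)
  set ε := min (c / (2 * (C + 1))) (δ / (4 * (C + 1)))
  have hε0 : 0 < ε := lt_min (by positivity) (by positivity)
  have hCc : C * ε ≤ c / 2 := by
    refine (mul_le_mul_of_nonneg_left (min_le_left _ _) hC).trans ?_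
    rw [← mul_div_assoc, div_le_iff₀ (by positivity)]
    nlinarith
  have hCd : C * ε ≤ δ / 4 := by
    refine (mul_le_mul_of_nonneg_left (min_le_right _ _) hC).trans ?_
    rw [← mul_div_assoc, div_le_iff₀ (by positivity)]
    nlinarith
  obtain ⟨T, hTc, hTb, hTnet⟩ := hnet N W
  have hTe : (T.card : ℝ) ≤ Real.exp (C * ε * N) :=
    hTc.trans (Real.exp_le_exp.2 (by rw [mul_assoc]; exact mul_le_mul_of_nonneg_left hW hC))
  classical
  set T' := T.filter fun v => sq v ≠ 0 with hT'
  set e : (Fin N → ℝ) → Fin N → ℝ := fun v => (Real.sqrt (sq v))⁻¹ • v with he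
  set A : (Fin N → ℝ) → Set (OMat N) := fun v => {U |
    ∫ g, lcosh lam g ∂ProbabilityTheory.gaussianReal 0 1 + δ / 4
      ≤ (∑ j, lcosh lam (Real.sqrt N * act U⁻¹ (e v) j)) / N} with hA
  -- each member of the union is rare
  have hAv : ∀ v ∈ T', (haarO N).real (A v) ≤ Real.exp (-(c * N)) := by
    intro v hv
    have hv0 : sq v ≠ 0 := (Finset.mem_filter.1 hv).2
    have he1 : sq (e v) = 1 := by
      simp only [he]
      rw [sq_smul, inv_pow, Real.sq_sqrt (sq_nonneg' v), inv_mul_cancel₀ hv0]
    have hcl : Continuous fun U : OMat N =>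
        (∑ j, lcosh lam (Real.sqrt N * act U (e v) j)) / N := by
      simp only [lcosh]
      refine Continuous.div_const (continuous_finsetSum _ fun j _ => Continuous.log ?_ fun U =>
        (Real.cosh_pos _).ne') _
      fun_prop
    set B : Set (OMat N) := {U | ∫ g, lcosh lam g ∂ProbabilityTheory.gaussianReal 0 1 + δ / 4
      ≤ (∑ j, lcosh lam (Real.sqrt N * act U (e v) j)) / N} with hB
    have hBm : MeasurableSet B := (isClosed_le continuous_const hcl).measurableSet
    have hpre : A v = (fun U : OMat N => U⁻¹) ⁻¹' B := rfl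
    rw [hpre, measureReal_def, ← Measure.map_apply measurable_inv hBm, haar_inv, ← measureReal_def]
    exact hdir N hN1 (lcosh lam) (fun x y => (lcosh_lip lam x y).trans
      (mul_le_mul_of_nonneg_right (by rw [abs_of_nonneg hlam]; linarith) (abs_nonneg _))) _ he1
  -- the bad event lies in the union
  have hsub : {U : OMat N | ∃ r : ℝ, 0 ≤ r ∧ r ≤ 1 ∧
      2 ^ N * Real.exp (N * (ell lam + δ - lam * r)) < ((big U W r).card : ℝ)}
      ⊆ ⋃ v ∈ T', A v := by
    rintro U ⟨r, hr0, hr1, hlt⟩
    by_contra hU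
    simp only [Set.mem_iUnion, not_exists] at hU
    set y : (Fin N → ℝ) → Fin N → ℝ := fun v => act U⁻¹ v with hy
    have hsum : ∀ v ∈ T, ∑ j, lcosh lam (Real.sqrt N * y v j) ≤ N * (ell lam + δ / 4) := by
      intro v hv
      rcases eq_or_ne (sq v) 0 with h0 | h0
      · have hv0 : v = 0 := by
          rw [sq, Finset.sum_eq_zero_iff_of_nonneg fun i _ => sq_nonneg _] at h0
          exact funext fun i => by simpa using h0 i (Finset.mem_univ i)
        have : ∀ j, lcosh lam (Real.sqrt N * y v j) = 0 := fun j => by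
          simp [hy, hv0, act, lcosh]
        simp only [this, Finset.sum_const_zero]
        exact mul_nonneg hNr.le (by linarith [bad_ell_nonneg lam])
      have hlt' : (∑ j, lcosh lam (Real.sqrt N * act U⁻¹ (e v) j)) / N
          < ell lam + δ / 4 := not_le.1 (hU v (Finset.mem_filter.2 ⟨hv, h0⟩))
      rw [div_lt_iff₀ hNr, mul_comm] at hlt'
      refine le_trans (Finset.sum_le_sum fun j _ => ?_) hlt'.le
      set q := Real.sqrt (sq v) with hq
      have hq0 : 0 < q := Real.sqrt_pos.2 (lt_of_le_of_ne (sq_nonneg' v) h0.symm)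
      have hq1 : q ≤ 1 := Real.sqrt_le_one.2 (hTb v hv).2
      have hye : y v j = q * act U⁻¹ (e v) j := by
        simp only [hy, he, act_smul, Pi.smul_apply, smul_eq_mul, ← hq]
        field_simp
      rw [hye, show lcosh lam (Real.sqrt N * (q * act U⁻¹ (e v) j))
          = lcosh (lam * q) (Real.sqrt N * act U⁻¹ (e v) j) by unfold lcosh; ring_nf]
      refine lcosh_mono ?_ _
      rw [abs_mul, abs_of_pos hq0]
      exact mul_le_of_le_one_right (abs_nonneg _) hq1
    -- every large configuration is seen by the net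
    set k := lam * (1 - δ0) * r * N with hk
    have hone : ∀ s ∈ big U W r,
        1 ≤ ∑ v ∈ T, Real.exp (∑ j, lam * (Real.sqrt N * y v j) * spin s j) * Real.exp (-k) := by
      intro s hs
      set w : Fin N → ℝ := fun i => if i ∈ W then act U (spin s) i else 0 with hw
      have hw0 : ∀ i ∈ Wᶜ, w i = 0 := fun i hi => by simp [hw, Finset.mem_compl.1 hi]
      have hsw : r ^ 2 * N ≤ sq w := by
        refine (Finset.mem_filter.1 hs).2.trans (le_of_eq ?_)
        rw [sq, ← Finset.sum_subset (Finset.subset_univ W) fun i _ hi => by simp [hw, hi]]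
        exact Finset.sum_congr rfl fun i hi => by simp [hw, hi]
      obtain ⟨v, hv, hvw⟩ := hTnet w hw0
      have hdot : v ⬝ᵥ w = y v ⬝ᵥ spin s := by
        have h1 : act U (y v) = v := by simp only [hy, ← act_mul, mul_inv_cancel, act_one]
        calc v ⬝ᵥ w = v ⬝ᵥ act U (spin s) := by
              refine Finset.sum_congr rfl fun i _ => ?_
              by_cases hi : i ∈ W
              · simp [hw, hi]
              · simp [(hTb v hv).1 i (Finset.mem_compl.2 hi)]
          _ = act U (y v) ⬝ᵥ act U (spin s) := by rw [h1]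
          _ = _ := dot_act U _ _
      have hge : k ≤ ∑ j, lam * (Real.sqrt N * y v j) * spin s j := by
        have e1 : ∑ j, lam * (Real.sqrt N * y v j) * spin s j
            = lam * Real.sqrt N * (y v ⬝ᵥ spin s) := by
          simp only [dotProduct, Finset.mul_sum]
          exact Finset.sum_congr rfl fun j _ => by ring
        rw [e1, ← hdot]
        have hr : r * Real.sqrt N ≤ Real.sqrt (sq w) := by
          refine Real.le_sqrt_of_sq_le ?_
          rw [mul_pow, Real.sq_sqrt hNr.le]
          exact hsw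
        calc k = lam * Real.sqrt N * ((1 - δ0) * (r * Real.sqrt N)) := by
              rw [hk]
              linear_combination (-(lam * (1 - δ0) * r)) * Real.mul_self_sqrt hNr.le
          _ ≤ lam * Real.sqrt N * (v ⬝ᵥ w) := mul_le_mul_of_nonneg_left
              ((mul_le_mul_of_nonneg_left hr (by linarith)).trans hvw) (by positivity)
      refine le_trans ?_ (Finset.single_le_sum (fun i _ => by positivity) hv)
      rw [← Real.exp_add]
      exact Real.one_le_exp (by linarith)
    refine hlt.not_ge ?_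
    calc ((big U W r).card : ℝ) = ∑ _s ∈ big U W r, (1 : ℝ) := by simp
      _ ≤ ∑ s ∈ big U W r, ∑ v ∈ T,
            Real.exp (∑ j, lam * (Real.sqrt N * y v j) * spin s j) * Real.exp (-k) :=
          Finset.sum_le_sum hone
      _ ≤ ∑ s, ∑ v ∈ T, Real.exp (∑ j, lam * (Real.sqrt N * y v j) * spin s j) * Real.exp (-k) :=
          Finset.sum_le_sum_of_subset_of_nonneg (Finset.subset_univ _) fun s _ _ =>
            Finset.sum_nonneg fun v _ => by positivity
      _ = ∑ v ∈ T, 2 ^ N * Real.exp (∑ j, lcosh lam (Real.sqrt N * y v j)) * Real.exp (-k) := by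
          rw [Finset.sum_comm]
          exact Finset.sum_congr rfl fun v _ => by rw [← Finset.sum_mul, bad_sum_exp]
      _ ≤ ∑ _v ∈ T, 2 ^ N * Real.exp (N * (ell lam + δ / 4)) * Real.exp (-k) :=
          Finset.sum_le_sum fun v hv => mul_le_mul_of_nonneg_right
            (mul_le_mul_of_nonneg_left (Real.exp_le_exp.2 (hsum v hv)) (by positivity))
            (Real.exp_pos _).le
      _ = (T.card : ℝ) * (2 ^ N * Real.exp (N * (ell lam + δ / 4)) * Real.exp (-k)) := by simp
      _ ≤ Real.exp (C * ε * N) * (2 ^ N * Real.exp (N * (ell lam + δ / 4)) * Real.exp (-k)) :=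
          mul_le_mul_of_nonneg_right hTe (by positivity)
      _ = 2 ^ N * (Real.exp (C * ε * N) * Real.exp (N * (ell lam + δ / 4)) * Real.exp (-k)) := by
          ring
      _ ≤ 2 ^ N * Real.exp (N * (ell lam + δ - lam * r)) := by
          rw [← Real.exp_add, ← Real.exp_add]
          refine mul_le_mul_of_nonneg_left (Real.exp_le_exp.2 ?_) (by positivity)
          rw [hk]
          nlinarith [mul_le_mul_of_nonneg_left hr1 (mul_nonneg hlam hδ0.le),
            mul_le_mul_of_nonneg_right hCd hNr.le, mul_le_mul_of_nonneg_right hlamδ hNr.le]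
  refine (measureReal_mono hsub (measure_ne_top _ _)).trans ?_
  refine ((measureReal_biUnion_finset_le _ _).trans (Finset.sum_le_sum hAv)).trans ?_
  rw [Finset.sum_const, nsmul_eq_mul]
  calc (T'.card : ℝ) * Real.exp (-(c * N)) ≤ Real.exp (C * ε * N) * Real.exp (-(c * N)) :=
        mul_le_mul_of_nonneg_right (le_trans (Nat.cast_le.2 (Finset.card_filter_le _ _)) hTe)
          (Real.exp_pos _).le
    _ ≤ Real.exp (-(c / 2 * N)) := by
        rw [← Real.exp_add]
        exact Real.exp_le_exp.2 (by nlinarith [mul_le_mul_of_nonneg_right hCc hNr.le])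

end

end Vale.Agent.P166.High
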