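import Vale.Agent.P166.Defs

/-!
# P166: transforms of the spectral law and the annealed pressure
-/

namespace Vale.Agent.P166

open MeasureTheory

noncomputable section

/-- `G(z) = ∫ dμ(x) / (z - x)`. -/
def stieltjes (μ : Measure ℝ) (z : ℝ) : ℝ := ∫ x, (z - x)⁻¹ ∂μ

/-- `∫ dμ(x) / (z - x)²`. -/
def stieltjes2 (μ : Measure ℝ) (z : ℝ) : ℝ := ∫ x, ((z - x) ^ 2)⁻¹ ∂μ

/-- `∫ log (z - x) dμ(x)`. -/
def logPot (μ : Measure ℝ) (z : ℝ) : ℝ := ∫ x, Real.log (z - x) ∂μ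

/-- `(β z - 1 - log β - ∫ log (z - x) dμ(x)) / 2`. -/
def phi (μ : Measure ℝ) (β z : ℝ) : ℝ := (β * z - 1 - Real.log β - logPot μ z) / 2

/-- The annealed pressure `inf_{z > b} (β z - 1 - log β - ∫ log (z - x) dμ(x)) / 2`. -/
def annealed (μ : Measure ℝ) (b β : ℝ) : ℝ := sInf (phi μ β '' Set.Ioi b)

end

end Vale.Agent.P166
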