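import Vale.Agent.P166.Basic
import Vale.Agent.P166.High.Defs

/-!
# P166 high temperature: common definitions
-/

namespace Vale.Agent.P166.High

open MeasureTheory ProbabilityTheory Matrix

noncomputable section

/-- The standard Gaussian law on `ι → ℝ`. -/
abbrev gauss (ι : Type*) [Fintype ι] : Measure (ι → ℝ) := Measure.pi fun _ => gaussianReal 0 1

/-- The squared length. -/
def sq {ι : Type*} [Fintype ι] (v : ι → ℝ) : ℝ := ∑ i, v i ^ 2

/-- The action on vectors. -/
def act {N : ℕ} (U : OMat N) (v : Fin N → ℝ) : Fin N → ℝ :=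
  (U : Matrix (Fin N) (Fin N) ℝ) *ᵥ v

/-- The pressure formula for an arbitrary matrix in place of `U`. -/
def press {N : ℕ} (β : ℝ) (l : Fin N → ℝ) (B : Matrix (Fin N) (Fin N) ℝ) : ℝ :=
  Real.log ((∑ s : Fin N → Bool, Real.exp (β / 2 * ∑ i, l i * ((B *ᵥ spin s) i) ^ 2)) / 2 ^ N) / N

lemma press_coe {N : ℕ} (β : ℝ) (l : Fin N → ℝ) (U : OMat N) :
    press β l (U : Matrix (Fin N) (Fin N) ℝ) = pressure β l U := by
  rw [pressure_eq]; rfl

/-- A probability law on the orthogonal matrices fixing the coordinates in `W`, invariant under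
right multiplication by all of them. -/
structure Sub {N : ℕ} (ν : Measure (OMat N)) (W : Finset (Fin N)) : Prop where
  prob : IsProbabilityMeasure ν
  fixes : ∀ᵐ R ∂ν, ∀ i ∈ W, ∀ v, act R v i = v i
  right : ∀ O : OMat N, (∀ i ∈ W, ∀ v, act O v i = v i) → ν.map (fun R => R * O) = ν

end

end Vale.Agent.P166.High
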