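import Vale.Agent.P166.High.Basic

/-!
# P166 high temperature: concentration of Lipschitz functions of Gaussian vectors

Maurey and Pisier: a discretised rotation between two independent copies, Jensen, and Rademacher
give the exponential moment of `f Y - f X`.
-/

namespace Vale.Agent.P166.High

open MeasureTheory ProbabilityTheory Filter Topology

noncomputable section

variable {ι : Type*} [Fintype ι] {f : (ι → ℝ) → ℝ} {L : ℝ}

lemma conc_sqrt_sq_le (v : ι → ℝ) : Real.sqrt (sq v) ≤ ∑ i, |v i| := by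
  refine Real.sqrt_le_iff.2 ⟨Finset.sum_nonneg fun i _ => abs_nonneg _, ?_⟩
  calc sq v = ∑ i, |v i| ^ 2 := by simp [sq, sq_abs]
    _ ≤ (∑ i, |v i|) ^ 2 := Finset.sum_sq_le_sq_sum_of_nonneg fun i _ => abs_nonneg _

lemma conc_abs_le (hf : ∀ x y, |f x - f y| ≤ L * Real.sqrt (sq (x - y))) (x y : ι → ℝ) :
    |f x - f y| ≤ |L| * ∑ i, |x i - y i| := by
  refine (hf x y).trans ?_
  exact mul_le_mul (le_abs_self L) (conc_sqrt_sq_le _) (Real.sqrt_nonneg _) (abs_nonneg L)

lemma conc_lipschitz (hf : ∀ x y, |f x - f y| ≤ L * Real.sqrt (sq (x - y))) :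
    LipschitzWith (Real.toNNReal (|L| * Fintype.card ι)) f := by
  refine LipschitzWith.of_dist_le' fun x y => ?_
  rw [Real.dist_eq, mul_assoc]
  refine (conc_abs_le hf x y).trans (mul_le_mul_of_nonneg_left ?_ (abs_nonneg L))
  calc ∑ i, |x i - y i| ≤ ∑ _i : ι, dist x y := Finset.sum_le_sum fun i _ => by
        rw [← Real.dist_eq]; exact dist_le_pi_dist x y i
    _ = Fintype.card ι * dist x y := by simp

lemma conc_exp_integrable (a : ℝ) :
    Integrable (fun x : ι → ℝ => Real.exp (a * ∑ i, |x i|)) (gauss ι) := by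
  have h1 : Integrable (fun x : ℝ => Real.exp (a * |x|)) (gaussianReal 0 1) := by
    refine ((integrable_exp_mul_gaussianReal a).add (integrable_exp_mul_gaussianReal (-a))).mono'
      (by fun_prop) (ae_of_all _ fun x => ?_)
    rw [Real.norm_eq_abs, Real.abs_exp]
    rcases abs_choice x with h | h <;> rw [h]
    · exact le_add_of_nonneg_right (Real.exp_pos _).le
    · rw [mul_neg, ← neg_mul]; exact le_add_of_nonneg_left (Real.exp_pos _).le
  have h2 := Integrable.fintype_prod (μ := fun _ : ι => gaussianReal 0 1)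
    (f := fun (_ : ι) x => Real.exp (a * |x|)) fun _ => h1
  simpa only [← Real.exp_sum, ← Finset.mul_sum] using h2

theorem integrable_of_lip (hf : ∀ x y, |f x - f y| ≤ L * Real.sqrt (sq (x - y))) :
    Integrable f (gauss ι) := by
  refine ((conc_exp_integrable (ι := ι) |L|).const_mul (Real.exp |f 0|)).mono'
    (conc_lipschitz hf).continuous.aestronglyMeasurable (ae_of_all _ fun x => ?_)
  have h := conc_abs_le hf x 0
  simp only [Pi.zero_apply, sub_zero] at h
  rw [Real.norm_eq_abs, ← Real.exp_add]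
  linarith [Real.add_one_le_exp (|f 0| + |L| * ∑ i, |x i|), abs_sub_abs_le_abs_sub (f x) (f 0)]

lemma conc_exp_mul_integrable (hf : ∀ x y, |f x - f y| ≤ L * Real.sqrt (sq (x - y))) (s : ℝ) :
    Integrable (fun x => Real.exp (s * f x)) (gauss ι) := by
  refine ((conc_exp_integrable (ι := ι) (|s| * |L|)).const_mul (Real.exp (|s| * |f 0|))).mono'
    ((conc_lipschitz hf).continuous.const_mul s).rexp.aestronglyMeasurable
    (ae_of_all _ fun x => ?_)
  have h := conc_abs_le hf x 0
  simp only [Pi.zero_apply, sub_zero] at h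
  rw [Real.norm_eq_abs, Real.abs_exp, ← Real.exp_add, mul_assoc, ← mul_add]
  refine Real.exp_le_exp.2 ((le_abs_self _).trans ?_)
  rw [abs_mul]
  exact mul_le_mul_of_nonneg_left (by linarith [abs_sub_abs_le_abs_sub (f x) (f 0)]) (abs_nonneg s)

lemma conc_rot (θ : ℝ) :
    MeasurePreserving (fun p : (ι → ℝ) × (ι → ℝ) =>
      (Real.cos θ • p.1 + Real.sin θ • p.2, -Real.sin θ • p.1 + Real.cos θ • p.2))
      ((gauss ι).prod (gauss ι)) ((gauss ι).prod (gauss ι)) := by
  have h1 : MeasurePreserving (ContinuousLinearMap.rotation θ : ℝ × ℝ → ℝ × ℝ)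
      ((gaussianReal 0 1).prod (gaussianReal 0 1)) ((gaussianReal 0 1).prod (gaussianReal 0 1)) :=
    ⟨by fun_prop, IsGaussian.map_rotation_eq_self (by simp) θ⟩
  have e := measurePreserving_arrowProdEquivProdArrow ℝ ℝ ι (fun _ => gaussianReal 0 1)
    (fun _ => gaussianReal 0 1)
  exact (e.comp (measurePreserving_pi _ _ fun _ => h1)).comp (e.symm _)

lemma conc_pi_ac_fin : ∀ k : ℕ, Measure.pi (fun _ : Fin k => gaussianReal 0 1) ≪
    Measure.pi (fun _ : Fin k => (volume : Measure ℝ))
  | 0 => by rw [Measure.pi_of_empty, Measure.pi_of_empty]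
  | k + 1 => by
      have hg := (measurePreserving_piFinSuccAbove (fun _ : Fin (k + 1) => gaussianReal 0 1) 0).symm _
      have hv := (measurePreserving_piFinSuccAbove
        (fun _ : Fin (k + 1) => (volume : Measure ℝ)) 0).symm _
      rw [← hg.map_eq, ← hv.map_eq]
      exact ((gaussianReal_absolutelyContinuous 0 one_ne_zero).prod (conc_pi_ac_fin k)).map
        (MeasurableEquiv.measurable _)

lemma conc_ac : gauss ι ≪ (volume : Measure (ι → ℝ)) := by
  have hg := measurePreserving_piCongrLeft (fun _ : ι => gaussianReal 0 1)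
    (Fintype.equivFin ι).symm
  have hv := measurePreserving_piCongrLeft (fun _ : ι => (volume : Measure ℝ))
    (Fintype.equivFin ι).symm
  rw [volume_pi, gauss, ← hg.map_eq, ← hv.map_eq]
  exact (conc_pi_ac_fin _).map (MeasurableEquiv.measurable _)

/-- The derivative obeys the Euclidean Lipschitz bound. -/
lemma conc_sum_sq_le [DecidableEq ι] (hL : 0 ≤ L)
    (hf : ∀ x y, |f x - f y| ≤ L * Real.sqrt (sq (x - y))) {x : ι → ℝ}
    (hx : DifferentiableAt ℝ f x) : ∑ i, fderiv ℝ f x (Pi.single i 1) ^ 2 ≤ L ^ 2 := by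
  set A := fderiv ℝ f x with hA
  set a : ι → ℝ := fun i => A (Pi.single i 1) with ha
  have hAv : A a = ∑ i, a i ^ 2 := by
    conv_lhs => rw [← Finset.univ_sum_single a]
    rw [map_sum]
    refine Finset.sum_congr rfl fun i _ => ?_
    have : Pi.single i (a i) = a i • (Pi.single i (1 : ℝ) : ι → ℝ) := by
      rw [← Pi.single_smul']; simp
    rw [this, map_smul, smul_eq_mul, pow_two]
  have hd : HasDerivAt (fun t : ℝ => f (x + t • a)) (A a) 0 := by
    have h1 : HasDerivAt (fun t : ℝ => x + t • a) a 0 := by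
      simpa using ((hasDerivAt_id (0 : ℝ)).smul_const a).const_add x
    exact hx.hasFDerivAt.comp_hasDerivAt_of_eq 0 h1 (by simp)
  have hb : |A a| ≤ L * Real.sqrt (sq a) := by
    refine le_of_tendsto' (hd.tendsto_slope.abs) fun t => ?_
    rcases eq_or_ne t 0 with rfl | ht
    · simp [mul_nonneg hL (Real.sqrt_nonneg _)]
    rw [slope_def_field, sub_zero, abs_div, div_le_iff₀ (abs_pos.2 ht)]
    refine (hf _ _).trans (le_of_eq ?_)
    rw [mul_assoc]
    congr 1
    rw [zero_smul, add_zero, add_sub_cancel_left, ← Real.sqrt_sq_eq_abs, mul_comm (Real.sqrt _),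
      ← Real.sqrt_mul (sq_nonneg t)]
    congr 1
    simp only [sq, Pi.smul_apply, smul_eq_mul, Finset.mul_sum]
    exact Finset.sum_congr rfl fun i _ => by ring
  have hs : (0 : ℝ) ≤ sq a := Finset.sum_nonneg fun i _ => sq_nonneg _
  change sq a ≤ L ^ 2
  rw [hAv, abs_of_nonneg (show 0 ≤ ∑ i, a i ^ 2 from hs)] at hb
  change sq a ≤ L * Real.sqrt (sq a) at hb
  nlinarith [Real.sq_sqrt hs, Real.sqrt_nonneg (sq a),
    sq_nonneg (Real.sqrt (sq a) - L)]

lemma conc_linear (c : ι → ℝ) :
    Integrable (fun y : ι → ℝ => Real.exp (∑ i, c i * y i)) (gauss ι) ∧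
      ∫ y, Real.exp (∑ i, c i * y i) ∂gauss ι = Real.exp ((∑ i, c i ^ 2) / 2) := by
  simp only [Real.exp_sum]
  refine ⟨Integrable.fintype_prod fun i => integrable_exp_mul_gaussianReal (c i), ?_⟩
  rw [integral_fintype_prod_eq_prod (f := fun i y => Real.exp (c i * y)), Finset.sum_div,
    Real.exp_sum]
  refine Finset.prod_congr rfl fun i _ => ?_
  have h := congrFun (mgf_id_gaussianReal (μ := 0) (v := 1)) (c i)
  simpa [mgf, div_eq_inv_mul] using h

/-- The bound on the moment generating function of `f Y - f X`. -/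
lemma conc_mgf_mul_le (hL : 0 ≤ L) (hf : ∀ x y, |f x - f y| ≤ L * Real.sqrt (sq (x - y))) (s : ℝ) :
    (∫ x, Real.exp (s * f x) ∂gauss ι) * ∫ x, Real.exp (-s * f x) ∂gauss ι
      ≤ Real.exp (Real.pi ^ 2 * s ^ 2 * L ^ 2 / 8) := by
  classical
  set P := (gauss ι).prod (gauss ι)
  have hcont : Continuous f := (conc_lipschitz hf).continuous
  set δ : ℕ → ℝ := fun m => Real.pi / 2 / (m + 1) with hδ
  set D : ℕ → (ι → ℝ) × (ι → ℝ) → ℝ := fun m p =>
    f (Real.cos (δ m) • p.1 + Real.sin (δ m) • p.2) - f p.1 with hD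
  set F : ℕ → (ι → ℝ) × (ι → ℝ) → ℝ := fun m p => Real.exp (s * ((m + 1) * D m p)) with hF
  set c : ℝ := |s| * (|L| * (Real.pi / 2)) with hc
  set bd : (ι → ℝ) × (ι → ℝ) → ℝ := fun p =>
    Real.exp (c * ∑ i, |p.1 i|) * Real.exp (c * ∑ i, |p.2 i|) with hbd
  have hbdi : Integrable bd P := (conc_exp_integrable c).mul_prod (conc_exp_integrable c)
  have hFc : ∀ m, Continuous (F m) := fun m => by simp only [hF, hD]; fun_prop
  have hFb : ∀ m p, ‖F m p‖ ≤ bd p := by
    intro m p
    have hm : (0 : ℝ) < m + 1 := by positivity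
    have hδ0 : 0 ≤ δ m := by simp only [hδ]; positivity
    have h1 : ∀ i, |(Real.cos (δ m) • p.1 + Real.sin (δ m) • p.2) i - p.1 i|
        ≤ δ m * (|p.1 i| + |p.2 i|) := by
      intro i
      have e : (Real.cos (δ m) • p.1 + Real.sin (δ m) • p.2) i - p.1 i
          = (Real.cos (δ m) - 1) * p.1 i + Real.sin (δ m) * p.2 i := by
        simp only [Pi.add_apply, Pi.smul_apply, smul_eq_mul]; ring
      rw [e, mul_add]
      refine (abs_add_le _ _).trans (add_le_add ?_ ?_) <;> rw [abs_mul] <;>
        refine mul_le_mul_of_nonneg_right ?_ (abs_nonneg _)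
      · have h := Real.abs_cos_sub_cos_le (δ m) 0
        simpa [abs_of_nonneg hδ0] using h
      · exact Real.abs_sin_le_abs.trans (abs_of_nonneg hδ0).le
    have h2 : |D m p| ≤ |L| * (δ m * (∑ i, |p.1 i| + ∑ i, |p.2 i|)) := by
      refine (conc_abs_le hf _ _).trans (mul_le_mul_of_nonneg_left ?_ (abs_nonneg L))
      rw [← Finset.sum_add_distrib, Finset.mul_sum]
      exact Finset.sum_le_sum fun i _ => h1 i
    simp only [hF, hbd, Real.norm_eq_abs, Real.abs_exp, ← Real.exp_add, ← mul_add]
    refine Real.exp_le_exp.2 ((le_abs_self _).trans ?_)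
    rw [abs_mul, abs_mul, abs_of_pos hm, hc, mul_assoc]
    refine mul_le_mul_of_nonneg_left ((mul_le_mul_of_nonneg_left h2 hm.le).trans_eq ?_)
      (abs_nonneg s)
    simp only [hδ]
    field_simp
  have hFi : ∀ m, Integrable (F m) P := fun m =>
    hbdi.mono' (hFc m).aestronglyMeasurable (ae_of_all _ (hFb m))
  -- the rotation and Jensen
  have hstep : ∀ m : ℕ, ∫ p, Real.exp (s * f p.2) * Real.exp (-s * f p.1) ∂P ≤ ∫ p, F m p ∂P := by
    intro m
    set G : ℕ → (ι → ℝ) × (ι → ℝ) → ℝ := fun k p => F m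
      (Real.cos (k * δ m) • p.1 + Real.sin (k * δ m) • p.2,
        -Real.sin (k * δ m) • p.1 + Real.cos (k * δ m) • p.2) with hG
    have hGi : ∀ k, Integrable (G k) P ∧ ∫ p, G k p ∂P = ∫ p, F m p ∂P := by
      intro k
      have hr := conc_rot (ι := ι) (k * δ m)
      refine ⟨hr.integrable_comp_of_integrable (hFi m), ?_⟩
      have h := integral_map (μ := (gauss ι).prod (gauss ι)) (f := F m) hr.measurable.aemeasurable (hFc m).aestronglyMeasurable
      rw [hr.map_eq] at h
      exact h.symm
    have hm : (0 : ℝ) < m + 1 := by positivity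
    have hpt : ∀ p : (ι → ℝ) × (ι → ℝ), Real.exp (s * f p.2) * Real.exp (-s * f p.1)
        ≤ ∑ k ∈ Finset.range (m + 1), 1 / ((m : ℝ) + 1) * G k p := by
      intro p
      set x : ℕ → ι → ℝ := fun k =>
        Real.cos (k * δ m) • p.1 + Real.sin (k * δ m) • p.2 with hx
      have hk : ∀ k, G k p = Real.exp (s * ((m + 1) * (f (x (k + 1)) - f (x k)))) := by
        intro k
        simp only [hG, hF, hD, hx]
        congr 3
        congr 1
        congr 1
        funext i
        simp only [Pi.add_apply, Pi.smul_apply, smul_eq_mul, Nat.cast_add, Nat.cast_one, add_mul,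
          one_mul, Real.cos_add, Real.sin_add]
        ring
      have htel : ∑ k ∈ Finset.range (m + 1), (f (x (k + 1)) - f (x k)) = f p.2 - f p.1 := by
        rw [Finset.sum_range_sub (fun k => f (x k))]
        have e1 : ((m + 1 : ℕ) : ℝ) * δ m = Real.pi / 2 := by
          simp only [hδ]; push_cast; field_simp
        rw [Nat.cast_add, Nat.cast_one] at e1
        simp [hx, e1]
      have hj := convexOn_exp.map_sum_le (t := Finset.range (m + 1))
        (w := fun _ => 1 / ((m : ℝ) + 1))
        (p := fun k => s * ((m + 1) * (f (x (k + 1)) - f (x k))))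
        (fun _ _ => by positivity) (by simp; field_simp) (fun _ _ => Set.mem_univ _)
      simp only [smul_eq_mul, ← hk] at hj
      refine le_of_eq_of_le ?_ hj
      rw [← Real.exp_add]
      congr 1
      rw [← Finset.mul_sum, ← Finset.mul_sum, ← Finset.mul_sum, htel]
      field_simp
      ring
    refine (integral_mono ((conc_exp_mul_integrable hf (-s)).mul_prod
      (conc_exp_mul_integrable hf s) |>.congr (ae_of_all _ fun p => mul_comm _ _))
      (integrable_finsetSum _ fun k _ => (hGi k).1.const_mul _) hpt).trans_eq ?_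
    rw [integral_finsetSum _ fun k _ => (hGi k).1.const_mul _]
    simp only [integral_const_mul, (hGi _).2, Finset.sum_const, Finset.card_range, nsmul_eq_mul]
    push_cast
    field_simp
  -- the limit
  set Φ : (ι → ℝ) × (ι → ℝ) → ℝ := fun p =>
    Real.exp (∑ i, s * (Real.pi / 2) * fderiv ℝ f p.1 (Pi.single i 1) * p.2 i) with hΦ
  have hdiff : ∀ᵐ x ∂gauss ι, DifferentiableAt ℝ f x :=
    conc_ac.ae_le (conc_lipschitz hf).ae_differentiableAt
  have hlim : ∀ᵐ p ∂P, Tendsto (fun m => F m p) atTop (𝓝 (Φ p)) := by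
    filter_upwards [Measure.quasiMeasurePreserving_fst.ae hdiff] with p hp
    set A := fderiv ℝ f p.1
    have h1 : HasDerivAt (fun t : ℝ => Real.cos t • p.1 + Real.sin t • p.2) p.2 0 := by
      simpa using ((Real.hasDerivAt_cos 0).smul_const p.1).fun_add
        ((Real.hasDerivAt_sin 0).smul_const p.2)
    have h2 := (hp.hasFDerivAt.comp_hasDerivAt_of_eq 0 h1 (by simp)).tendsto_slope
    have h3 : Tendsto δ atTop (𝓝[≠] 0) := by
      refine tendsto_nhdsWithin_iff.2 ⟨?_, Eventually.of_forall fun m =>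
        (show (0 : ℝ) < δ m by simp only [hδ]; positivity).ne'⟩
      simp only [hδ]
      exact tendsto_const_nhds.div_atTop
        (tendsto_atTop_add_const_right _ _ tendsto_natCast_atTop_atTop)
    have h4 := (h2.comp h3).const_mul (s * (Real.pi / 2))
    have h5 : A p.2 = ∑ i, A (Pi.single i 1) * p.2 i := by
      conv_lhs => rw [← Finset.univ_sum_single p.2]
      rw [map_sum]
      refine Finset.sum_congr rfl fun i _ => ?_
      have : Pi.single i (p.2 i) = p.2 i • (Pi.single i (1 : ℝ) : ι → ℝ) := by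
        rw [← Pi.single_smul']; simp
      rw [this, map_smul, smul_eq_mul, mul_comm]
    simp only [hΦ]
    rw [show ∑ i, s * (Real.pi / 2) * A (Pi.single i 1) * p.2 i = s * (Real.pi / 2) * A p.2 by
      rw [h5, Finset.mul_sum]; exact Finset.sum_congr rfl fun i _ => by ring]
    refine (Real.continuous_exp.tendsto _).comp (h4.congr fun m => ?_)
    simp only [Function.comp_apply, slope_def_field, hD, sub_zero, Real.cos_zero, Real.sin_zero,
      one_smul, zero_smul, add_zero]
    have hπ := Real.pi_pos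
    simp only [hδ]
    field_simp
  have hFm : ∀ m, AEStronglyMeasurable (F m) P := fun m => (hFc m).aestronglyMeasurable
  have hT : Tendsto (fun m => ∫ p, F m p ∂P) atTop (𝓝 (∫ p, Φ p ∂P)) :=
    tendsto_integral_of_dominated_convergence bd hFm hbdi (fun m => ae_of_all _ (hFb m)) hlim
  have hΦi : Integrable Φ P := hbdi.mono' (aestronglyMeasurable_of_tendsto_ae _ hFm hlim) (by
    filter_upwards [hlim] with p hp using le_of_tendsto' hp.norm fun m => hFb m p)
  calc (∫ x, Real.exp (s * f x) ∂gauss ι) * ∫ x, Real.exp (-s * f x) ∂gauss ι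
      = ∫ p, Real.exp (s * f p.2) * Real.exp (-s * f p.1) ∂P := by
        rw [mul_comm, ← integral_prod_mul]
        exact integral_congr_ae (ae_of_all _ fun p => mul_comm _ _)
    _ ≤ ∫ p, Φ p ∂P := ge_of_tendsto' hT hstep
    _ = ∫ x, ∫ y, Φ (x, y) ∂gauss ι ∂gauss ι := integral_prod _ hΦi
    _ ≤ ∫ _x, Real.exp (Real.pi ^ 2 * s ^ 2 * L ^ 2 / 8) ∂gauss ι := by
        refine integral_mono_ae hΦi.integral_prod_left (integrable_const _) ?_
        filter_upwards [hdiff] with x hx
        simp only [hΦ]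
        rw [(conc_linear _).2]
        refine Real.exp_le_exp.2 ?_
        simp only [mul_pow, ← Finset.mul_sum]
        nlinarith [mul_le_mul_of_nonneg_left (conc_sum_sq_le hL hf hx)
          (mul_nonneg (sq_nonneg s) (sq_nonneg Real.pi))]
    _ = _ := by simp

theorem gauss_upper (hL : 0 < L) (hf : ∀ x y, |f x - f y| ≤ L * Real.sqrt (sq (x - y)))
    (t : ℝ) (ht : 0 ≤ t) :
    (gauss ι).real {x | ∫ y, f y ∂gauss ι + t ≤ f x}
      ≤ Real.exp (-(2 * t ^ 2 / (Real.pi ^ 2 * L ^ 2))) := by
  set s := 4 * t / (Real.pi ^ 2 * L ^ 2) with hs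
  have hs0 : 0 ≤ s := by positivity
  set E := ∫ y, f y ∂gauss ι with hE
  have hj : Real.exp (-s * E) ≤ ∫ x, Real.exp (-s * f x) ∂gauss ι := by
    have hif := integrable_of_lip hf
    have h := integral_mono (μ := gauss ι)
      (f := fun x => Real.exp (-s * E) * (-s * (f x - E) + 1))
      (((((hif.sub (integrable_const E)).const_mul (-s))).add (integrable_const 1)).const_mul _)
      (conc_exp_mul_integrable hf (-s)) fun x => by
        refine (mul_le_mul_of_nonneg_left (Real.add_one_le_exp _) (Real.exp_pos _).le).trans_eq ?_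
        rw [← Real.exp_add]; ring_nf
    have e : ∫ x, Real.exp (-s * E) * (-s * (f x - E) + 1) ∂gauss ι = Real.exp (-s * E) := by
      rw [integral_const_mul, integral_add _ (integrable_const 1), integral_const_mul,
        integral_sub hif (integrable_const E)]
      · simp [← hE]
      · exact (hif.sub (integrable_const E)).const_mul (-s)
    linarith
  have h2 : (gauss ι).real {x | E + t ≤ f x}
      ≤ Real.exp (-s * (E + t)) * ∫ x, Real.exp (s * f x) ∂gauss ι := by
    have h := measure_ge_le_exp_mul_mgf (X := f) (μ := gauss ι) (E + t) hs0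
      (conc_exp_mul_integrable hf s)
    simpa [mgf] using h
  have hM : 0 ≤ ∫ x, Real.exp (s * f x) ∂gauss ι := integral_nonneg fun x => (Real.exp_pos _).le
  calc (gauss ι).real {x | E + t ≤ f x}
      ≤ Real.exp (-s * (E + t)) * ∫ x, Real.exp (s * f x) ∂gauss ι := h2
    _ = Real.exp (-s * t) * ((∫ x, Real.exp (s * f x) ∂gauss ι) * Real.exp (-s * E)) := by
        rw [mul_add, Real.exp_add]; ring
    _ ≤ Real.exp (-s * t) * Real.exp (Real.pi ^ 2 * s ^ 2 * L ^ 2 / 8) :=
        mul_le_mul_of_nonneg_left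
          ((mul_le_mul_of_nonneg_left hj hM).trans (conc_mgf_mul_le hL.le hf s))
          (Real.exp_pos _).le
    _ = _ := by
        rw [← Real.exp_add]
        congr 1
        have hπ := Real.pi_pos
        rw [hs]; field_simp; ring

end

end Vale.Agent.P166.High
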