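import Vale.Agent.P166.High.Basic

/-!
# P166 high temperature: orthogonal matrices and their Haar laws
-/

namespace Vale.Agent.P166.High

open MeasureTheory ProbabilityTheory Matrix

noncomputable section

variable {N : ℕ}

instance : SecondCountableTopology (OMat N) :=
  have : SecondCountableTopology (Matrix (Fin N) (Fin N) ℝ) :=
    inferInstanceAs (SecondCountableTopology (Fin N → Fin N → ℝ))
  Topology.IsEmbedding.subtypeVal.isInducing.secondCountableTopology

/-! ### The action -/

lemma sq_eq_dot {ι : Type*} [Fintype ι] (x : ι → ℝ) : sq x = x ⬝ᵥ x := by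
  simp [sq, dotProduct, pow_two]

lemma sq_nonneg' {ι : Type*} [Fintype ι] (x : ι → ℝ) : 0 ≤ sq x :=
  Finset.sum_nonneg fun _ _ => sq_nonneg _

lemma sq_smul {ι : Type*} [Fintype ι] (r : ℝ) (x : ι → ℝ) : sq (r • x) = r ^ 2 * sq x := by
  simp [sq, mul_pow, Finset.mul_sum]

lemma act_one (x : Fin N → ℝ) : act 1 x = x := one_mulVec x

lemma act_mul (U V : OMat N) (x : Fin N → ℝ) : act (U * V) x = act U (act V x) :=
  (mulVec_mulVec _ _ _).symm

lemma act_add (U : OMat N) (x y : Fin N → ℝ) : act U (x + y) = act U x + act U y :=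
  mulVec_add _ _ _

lemma act_smul (U : OMat N) (r : ℝ) (x : Fin N → ℝ) : act U (r • x) = r • act U x :=
  mulVec_smul _ _ _

lemma dot_act (U : OMat N) (x y : Fin N → ℝ) : act U x ⬝ᵥ act U y = x ⬝ᵥ y := by
  unfold act
  rw [dotProduct_mulVec, ← mulVec_transpose, mulVec_mulVec,
    (mem_orthogonalGroup_iff' (n := Fin N) (R := ℝ)).1 U.2, one_mulVec]

lemma sq_act (U : OMat N) (x : Fin N → ℝ) : sq (act U x) = sq x := by
  rw [sq_eq_dot, sq_eq_dot, dot_act]

@[fun_prop]
lemma continuous_act_left (v : Fin N → ℝ) : Continuous fun U : OMat N => act U v :=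
  continuous_subtype_val.matrix_mulVec continuous_const

@[fun_prop]
lemma continuous_act_right (U : OMat N) : Continuous fun v : Fin N → ℝ => act U v :=
  continuous_const.matrix_mulVec continuous_id

@[fun_prop]
lemma continuous_act : Continuous fun p : (Fin N → ℝ) × OMat N => act p.2 p.1 :=
  (continuous_subtype_val.comp continuous_snd).matrix_mulVec continuous_fst

/-- A matrix fixing the coordinates in `W` fixes the vectors supported in `W`. -/
lemma act_fix_supp {W : Finset (Fin N)} {R : OMat N} (hR : ∀ i ∈ W, ∀ v, act R v i = v i)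
    {x : Fin N → ℝ} (hx : ∀ i ∉ W, x i = 0) : act R x = x := by
  have h1 : ∑ i, act R x i ^ 2 = ∑ i, x i ^ 2 := sq_act R x
  rw [← Finset.sum_add_sum_compl W, ← Finset.sum_add_sum_compl W (fun i => x i ^ 2),
    Finset.sum_congr rfl fun i hi => by rw [hR i hi x],
    Finset.sum_eq_zero (s := Wᶜ) (f := fun i => x i ^ 2)
      fun i hi => by rw [hx i (Finset.mem_compl.1 hi)]; ring, add_zero, add_eq_left] at h1
  funext i
  by_cases hi : i ∈ W
  · exact hR i hi x
  · rw [hx i hi]
    exact pow_eq_zero_iff two_ne_zero |>.1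
      ((Finset.sum_eq_zero_iff_of_nonneg fun j _ => sq_nonneg _).1 h1 i (Finset.mem_compl.2 hi))

/-! ### Gaussian vectors -/

lemma gauss_charFunDual {ι : Type*} [Fintype ι] [DecidableEq ι] (L : StrongDual ℝ (ι → ℝ)) :
    charFunDual (gauss ι) L
      = Complex.exp (((-(∑ i, L (Pi.single i 1) ^ 2) / 2 : ℝ) : ℂ)) := by
  rw [charFunDual_pi, show (-(∑ i, L (Pi.single i 1) ^ 2) / 2 : ℝ)
    = ∑ i, -(L (Pi.single i 1) ^ 2) / 2 by rw [← Finset.sum_neg_distrib, Finset.sum_div],
    Complex.ofReal_sum, Complex.exp_sum]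
  refine Finset.prod_congr rfl fun i _ => ?_
  have hx : ∀ x : ℝ, L (Pi.single i x) = L (Pi.single i 1) * x := fun x => by
    rw [show (Pi.single i x : ι → ℝ) = x • Pi.single i 1 by rw [← Pi.single_smul]; simp,
      map_smul, smul_eq_mul, mul_comm]
  calc charFunDual (gaussianReal 0 1) (L.comp (.single ℝ (fun _ : ι => ℝ) i))
      = charFun (gaussianReal 0 1) (L (Pi.single i 1)) := by
        rw [charFunDual_apply, charFun_apply_real]
        refine integral_congr_ae (Filter.Eventually.of_forall fun x => ?_)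
        show Complex.exp ((L (Pi.single i x) : ℂ) * Complex.I) = _
        rw [hx x, Complex.ofReal_mul]
    _ = _ := by rw [charFun_gaussianReal]; simp [neg_div]

theorem gauss_rot {ι : Type*} [Fintype ι] [DecidableEq ι] (A : Matrix ι ι ℝ)
    (hA : A ∈ Matrix.orthogonalGroup ι ℝ) : (gauss ι).map (fun g => A *ᵥ g) = gauss ι := by
  have hmap : (fun g => A *ᵥ g) = ⇑(LinearMap.toContinuousLinearMap A.mulVecLin) := rfl
  have : IsFiniteMeasure ((gauss ι).map (fun g => A *ᵥ g)) := inferInstance
  apply Measure.ext_of_charFunDual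
  funext L
  rw [hmap, charFunDual_map, gauss_charFunDual, gauss_charFunDual]
  congr 4
  obtain ⟨a, ha⟩ : ∃ a : ι → ℝ, a = fun i => L (Pi.single i 1) := ⟨_, rfl⟩
  have hL : ∀ y, L y = a ⬝ᵥ y := fun y => by
    conv_lhs => rw [pi_eq_sum_univ' y]
    simp [ha, dotProduct, mul_comm]
  have h1 : ∀ i, (L.comp (LinearMap.toContinuousLinearMap A.mulVecLin)) (Pi.single i 1)
      = (a ᵥ* A) i := fun i => by
    simp [hL, vecMul, dotProduct]
  calc ∑ i, (L.comp (LinearMap.toContinuousLinearMap A.mulVecLin)) (Pi.single i 1) ^ 2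
      = (a ᵥ* A) ⬝ᵥ (a ᵥ* A) := by
        simp only [h1]
        simp [dotProduct, pow_two]
    _ = a ⬝ᵥ a := by
        rw [← mulVec_transpose, dotProduct_mulVec, vecMul_mulVec,
          transpose_transpose, (mem_orthogonalGroup_iff (n := ι) (R := ℝ)).1 hA, vecMul_one]
    _ = _ := by simp [ha, dotProduct, pow_two]

/-- The law of `act U g` is that of `g`. -/
lemma gauss_act (U : OMat N) : (gauss (Fin N)).map (fun g => act U g) = gauss (Fin N) :=
  gauss_rot _ U.2

/-! ### Haar laws -/

section Compact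

variable {G : Type*} [Group G] [TopologicalSpace G] [IsTopologicalGroup G] [CompactSpace G]
  [SecondCountableTopology G] [MeasurableSpace G] [BorelSpace G]

lemma haar_top_unique (μ : Measure G) [IsProbabilityMeasure μ] [μ.IsMulLeftInvariant] :
    μ = Measure.haarMeasure ⊤ := by
  have h := Measure.haarMeasure_unique μ (⊤ : TopologicalSpace.PositiveCompacts G)
  rwa [TopologicalSpace.PositiveCompacts.coe_top, measure_univ, one_smul] at h

omit [SecondCountableTopology G] in
lemma isProbability_haar_top :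
    IsProbabilityMeasure (Measure.haarMeasure (⊤ : TopologicalSpace.PositiveCompacts G)) := ⟨by
  simpa using Measure.haarMeasure_self (K₀ := (⊤ : TopologicalSpace.PositiveCompacts G))⟩

lemma haar_top_map_right (g : G) :
    (Measure.haarMeasure (⊤ : TopologicalSpace.PositiveCompacts G)).map (fun x => x * g)
      = Measure.haarMeasure ⊤ := by
  have := isProbability_haar_top (G := G)
  have : IsProbabilityMeasure
      ((Measure.haarMeasure (⊤ : TopologicalSpace.PositiveCompacts G)).map (fun x => x * g)) :=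
    Measure.isProbabilityMeasure_map (measurable_mul_const g).aemeasurable
  exact haar_top_unique _

end Compact

theorem sub_haar : Sub (haarO N) ∅ where
  prob := inferInstance
  fixes := Filter.Eventually.of_forall fun _ i hi => absurd hi (Finset.notMem_empty i)
  right := fun O _ => haar_top_map_right O

theorem haar_inv : (haarO N).map (fun U => U⁻¹) = haarO N := by
  have : (haarO N).IsMulRightInvariant := ⟨fun g => haar_top_map_right g⟩
  have : IsProbabilityMeasure ((haarO N).inv) := by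
    rw [Measure.inv_def]
    exact Measure.isProbabilityMeasure_map measurable_inv.aemeasurable
  exact haar_top_unique (haarO N).inv

/-- The orthogonal matrices fixing the coordinates in `W`. -/
def fixSub (W : Finset (Fin N)) : Subgroup (OMat N) where
  carrier := {O | ∀ i ∈ W, ∀ v, act O v i = v i}
  one_mem' := fun i _ v => by rw [act_one]
  mul_mem' := fun {a b} ha hb i hi v => by rw [act_mul, ha i hi, hb i hi]
  inv_mem' := fun {a} ha i hi v => by rw [← ha i hi (act a⁻¹ v), ← act_mul, mul_inv_cancel, act_one]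

lemma isClosed_fixSub (W : Finset (Fin N)) : IsClosed (fixSub W : Set (OMat N)) := by
  have : (fixSub W : Set (OMat N)) = ⋂ i ∈ W, ⋂ v, {O | act O v i = v i} := by
    ext O; simp [fixSub]
  rw [this]
  exact isClosed_biInter fun i _ => isClosed_iInter fun v =>
    isClosed_eq ((continuous_apply i).comp (continuous_act_left v)) continuous_const

theorem exists_sub (W : Finset (Fin N)) : ∃ ν : Measure (OMat N), Sub ν W := by
  have : CompactSpace (fixSub W) :=
    isCompact_iff_compactSpace.1 (isClosed_fixSub W).isCompact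
  have : SecondCountableTopology (fixSub W) :=
    Topology.IsEmbedding.subtypeVal.isInducing.secondCountableTopology
  obtain ⟨m, hm⟩ : ∃ m, m = Measure.haarMeasure (⊤ : TopologicalSpace.PositiveCompacts (fixSub W)) :=
    ⟨_, rfl⟩
  have : IsProbabilityMeasure m := hm ▸ isProbability_haar_top
  refine ⟨m.map Subtype.val, ⟨Measure.isProbabilityMeasure_map measurable_subtype_coe.aemeasurable,
    (ae_map_iff measurable_subtype_coe.aemeasurable (isClosed_fixSub W).measurableSet).2
      (Filter.Eventually.of_forall fun R => R.2), fun O hO => ?_⟩⟩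
  rw [Measure.map_map (measurable_mul_const O) measurable_subtype_coe]
  conv_rhs => rw [hm, ← haar_top_map_right (⟨O, hO⟩ : fixSub W), ← hm]
  rw [Measure.map_map measurable_subtype_coe (measurable_mul_const _)]
  rfl

/-- The reflection exchanging two vectors of equal length. -/
lemma exists_refl {v w : Fin N → ℝ} (h : sq v = sq w) :
    ∃ O : OMat N, act O v = w ∧ (∀ x, (v - w) ⬝ᵥ x = 0 → act O x = x) ∧
      ∀ x i, v i = w i → act O x i = x i := by
  rcases eq_or_ne v w with rfl | hne
  · exact ⟨1, act_one v, fun x _ => act_one x, fun x i _ => by rw [act_one]⟩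
  obtain ⟨d, hd⟩ : ∃ d, d = v - w := ⟨_, rfl⟩
  have hd0 : d ⬝ᵥ d ≠ 0 := fun h0 =>
    hne (sub_eq_zero.1 (hd ▸ dotProduct_self_eq_zero.1 h0))
  obtain ⟨c, hc⟩ : ∃ c, c = 2 / (d ⬝ᵥ d) := ⟨_, rfl⟩
  obtain ⟨A, hA⟩ : ∃ A : Matrix (Fin N) (Fin N) ℝ, A = 1 - c • vecMulVec d d := ⟨_, rfl⟩
  have hAx : ∀ x, A *ᵥ x = x - (c * (d ⬝ᵥ x)) • d := fun x => by
    rw [hA, sub_mulVec, one_mulVec, smul_mulVec, vecMulVec_mulVec, op_smul_eq_smul, smul_smul]
  have hAA : ∀ x, A *ᵥ (A *ᵥ x) = x := fun x => by
    rw [hAx, hAx x, dotProduct_sub, dotProduct_smul, smul_eq_mul]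
    ext i
    simp only [Pi.sub_apply, Pi.smul_apply, smul_eq_mul, hc]
    field_simp
    ring
  have hmem : A ∈ Matrix.orthogonalGroup (Fin N) ℝ := by
    rw [mem_orthogonalGroup_iff]
    have hT : Aᵀ = A := by
      rw [hA, transpose_sub, transpose_one, transpose_smul, transpose_vecMulVec]
    rw [hT]
    exact ext_iff_mulVec.2 fun x => by rw [← mulVec_mulVec, hAA, one_mulVec]
  refine ⟨⟨A, hmem⟩, ?_, fun x hx => ?_, fun x i hi => ?_⟩
  · have h2 : 2 * (d ⬝ᵥ v) = d ⬝ᵥ d := by
      rw [sq_eq_dot, sq_eq_dot] at h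
      simp only [hd, sub_dotProduct, dotProduct_sub, dotProduct_comm v w]
      linarith
    show A *ᵥ v = w
    rw [hAx, show c * (d ⬝ᵥ v) = 1 by rw [hc, div_mul_eq_mul_div, h2, div_self hd0], one_smul, hd]
    abel
  · show A *ᵥ x = x
    rw [hAx, hd, hx, mul_zero, zero_smul, sub_zero]
  · show (A *ᵥ x) i = x i
    rw [hAx, hd]
    simp [hi]

theorem exists_map_vec (W : Finset (Fin N)) {v w : Fin N → ℝ} (hv : ∀ i ∈ W, v i = 0)
    (hw : ∀ i ∈ W, w i = 0) (h : sq v = sq w) :
    ∃ O : OMat N, (∀ i ∈ W, ∀ x, act O x i = x i) ∧ act O v = w := by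
  obtain ⟨O, h1, -, h3⟩ := exists_refl h
  exact ⟨O, fun i hi x => h3 x i (by rw [hv i hi, hw i hi]), h1⟩

theorem exists_map_pair {u v u' v' : Fin N → ℝ} (hu : sq u = sq u') (hv : sq v = sq v')
    (h : u ⬝ᵥ v = 0) (h' : u' ⬝ᵥ v' = 0) :
    ∃ O : OMat N, act O u = u' ∧ act O v = v' := by
  obtain ⟨O₁, h1, -, -⟩ := exists_refl hu
  obtain ⟨O₂, h2, h3, -⟩ := exists_refl (v := act O₁ v) (w := v') (by rw [sq_act, hv])
  refine ⟨O₂ * O₁, ?_, by rw [act_mul, h2]⟩
  rw [act_mul, h1]
  refine h3 u' ?_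
  rw [sub_dotProduct, dotProduct_comm v' u', h', sub_zero, ← h1, dot_act, dotProduct_comm, h]

/-- Invariance in the form used for sets. -/
lemma sub_vec_invariant' {ν : Measure (OMat N)} {W : Finset (Fin N)} (hν : Sub ν W)
    {v w : Fin N → ℝ} (hv : ∀ i ∈ W, v i = 0) (hw : ∀ i ∈ W, w i = 0) (h : sq v = sq w)
    (f : (Fin N → ℝ) → ℝ) (hf : Measurable f) :
    ∫ R, f (act R v) ∂ν = ∫ R, f (act R w) ∂ν := by
  obtain ⟨O, hO, hOv⟩ := exists_map_vec W hv hw h
  conv_lhs => rw [← hν.right O hO]
  have hm : Measurable fun R : OMat N => f (act R v) := hf.comp (continuous_act_left v).measurable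
  rw [integral_map (measurable_mul_const O).aemeasurable hm.aestronglyMeasurable]
  simp only [act_mul, hOv]

theorem sub_vec_invariant {ν : Measure (OMat N)} {W : Finset (Fin N)} (hν : Sub ν W)
    {v w : Fin N → ℝ} (hv : ∀ i ∈ W, v i = 0) (hw : ∀ i ∈ W, w i = 0) (h : sq v = sq w)
    (f : (Fin N → ℝ) → ℝ) (hf : Continuous f) :
    ∫ R, f (act R v) ∂ν = ∫ R, f (act R w) ∂ν :=
  sub_vec_invariant' hν hv hw h f hf.measurable

theorem haar_pair_invariant {u v u' v' : Fin N → ℝ} (hu : sq u = sq u') (hv : sq v = sq v')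
    (h : u ⬝ᵥ v = 0) (h' : u' ⬝ᵥ v' = 0) (f : (Fin N → ℝ) → (Fin N → ℝ) → ℝ)
    (hf : Continuous fun p : (Fin N → ℝ) × (Fin N → ℝ) => f p.1 p.2) :
    ∫ U, f (act U u) (act U v) ∂haarO N = ∫ U, f (act U u') (act U v') ∂haarO N := by
  obtain ⟨O, hOu, hOv⟩ := exists_map_pair hu hv h h'
  conv_lhs => rw [← (sub_haar (N := N)).right O fun i hi => absurd hi (Finset.notMem_empty i)]
  have hc : Continuous fun U : OMat N => f (act U u) (act U v) :=
    hf.comp ((continuous_act_left u).prodMk (continuous_act_left v))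
  rw [integral_map (measurable_mul_const O).aemeasurable hc.aestronglyMeasurable]
  simp only [act_mul, hOu, hOv]

end

end Vale.Agent.P166.High
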