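import Vale.Agent.P166.High.MatFn
import Vale.Agent.P166.High.Group

/-!
# P166 high temperature: the regularisation changes little

The trace of `a (GᵀG + a)⁻¹` is controlled by `- log det (GᵀG / N + ε)`, whose exponential moment
is a Gaussian integral.
-/

namespace Vale.Agent.P166.High

open MeasureTheory ProbabilityTheory Matrix Finset

noncomputable section

variable {N : ℕ}

/-- `exp (-t |G v|² / 2)` as a function of the entries of `G` and of `v`. -/
def defectKer (t : ℝ) (g : Fin N × Fin N → ℝ) (v : Fin N → ℝ) : ℝ :=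
  Real.exp (-(t / 2) * ∑ i, (∑ j, g (i, j) * v j) ^ 2)

lemma defect_continuous_ker (t : ℝ) :
    Continuous fun p : (Fin N × Fin N → ℝ) × (Fin N → ℝ) => defectKer t p.1 p.2 := by
  unfold defectKer; fun_prop

lemma defect_integrable_ker {t : ℝ} (ht : 0 ≤ t) :
    Integrable (fun p : (Fin N × Fin N → ℝ) × (Fin N → ℝ) => defectKer t p.1 p.2)
      ((gauss (Fin N × Fin N)).prod (gauss (Fin N))) := by
  refine (integrable_const (1 : ℝ)).mono' (defect_continuous_ker t).aestronglyMeasurable
    (ae_of_all _ fun p => ?_)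
  rw [Real.norm_eq_abs, defectKer, Real.abs_exp, Real.exp_le_one_iff]
  have : 0 ≤ ∑ i, (∑ j, p.1 (i, j) * p.2 j) ^ 2 := sum_nonneg fun i _ => sq_nonneg _
  nlinarith

lemma defect_one_dim {t : ℝ} (ht : 0 ≤ t) :
    ∫ x, Real.exp (-(t / 2) * x ^ 2) ∂gaussianReal 0 1 = (Real.sqrt (1 + t))⁻¹ := by
  have e : ∀ x : ℝ, gaussianPDFReal 0 1 x • Real.exp (-(t / 2) * x ^ 2)
      = (Real.sqrt (2 * Real.pi))⁻¹ * Real.exp (-((1 + t) / 2) * x ^ 2) := fun x => by
    simp only [gaussianPDFReal, NNReal.coe_one, mul_one, sub_zero, smul_eq_mul, mul_assoc,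
      ← Real.exp_add]
    ring_nf
  rw [integral_gaussianReal_eq_integral_smul one_ne_zero]
  simp only [e]
  rw [integral_const_mul, integral_gaussian, ← Real.sqrt_inv, ← Real.sqrt_inv,
    ← Real.sqrt_mul (by positivity)]
  congr 1
  field_simp

lemma defect_pos_fin (hN : 0 < N) (v : Fin N → ℝ) {t : ℝ} (ht : 0 ≤ t) :
    ∫ r, Real.exp (-(t / 2) * (∑ j, r j * v j) ^ 2) ∂gauss (Fin N)
      = (Real.sqrt (1 + t * sq v))⁻¹ := by
  obtain ⟨i₀, -⟩ : ∃ i : Fin N, i ∈ (univ : Finset (Fin N)) := ⟨⟨0, hN⟩, mem_univ _⟩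
  set e : Fin N → ℝ := Pi.single i₀ (Real.sqrt (sq v)) with he
  have hs : sq v = sq e := by
    have h : sq e = Real.sqrt (sq v) ^ 2 := by
      rw [sq, sum_eq_single i₀ (fun j _ hj => by simp [he, hj]) (by simp)]
      simp [he]
    rw [h, Real.sq_sqrt (sq_nonneg' v)]
  obtain ⟨O, -, hO⟩ := exists_map_vec (∅ : Finset (Fin N)) (v := v) (w := e)
    (by simp) (by simp) hs
  set A : Matrix (Fin N) (Fin N) ℝ := (O : Matrix (Fin N) (Fin N) ℝ) with hA
  have hmem : Aᵀ ∈ orthogonalGroup (Fin N) ℝ := by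
    rw [mem_orthogonalGroup_iff, transpose_transpose]
    exact (mem_orthogonalGroup_iff' (n := Fin N) (R := ℝ)).1 O.2
  have key : ∀ r : Fin N → ℝ, ∑ j, (Aᵀ *ᵥ r) j * v j = r i₀ * Real.sqrt (sq v) := by
    intro r
    show (Aᵀ *ᵥ r) ⬝ᵥ v = _
    rw [mulVec_transpose, ← dotProduct_mulVec]
    show r ⬝ᵥ act O v = _
    rw [hO, he, dotProduct_single]
  have hc : Continuous fun r : Fin N → ℝ => Real.exp (-(t / 2) * (∑ j, r j * v j) ^ 2) := by
    fun_prop
  have hm := integral_map (μ := gauss (Fin N))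
    (φ := fun r => Aᵀ *ᵥ r)
    (f := fun r => Real.exp (-(t / 2) * (∑ j, r j * v j) ^ 2))
    (by fun_prop) hc.aestronglyMeasurable
  rw [gauss_rot Aᵀ hmem] at hm
  rw [hm]
  simp only [key]
  rw [← defect_one_dim (t := t * sq v) (mul_nonneg ht (sq_nonneg' v))]
  have h := integral_map (μ := gauss (Fin N)) (φ := fun r : Fin N → ℝ => r i₀)
    (f := fun x : ℝ => Real.exp (-(t * sq v / 2) * x ^ 2))
    (measurable_pi_apply i₀).aemeasurable (by fun_prop)
  rw [(measurePreserving_eval (fun _ : Fin N => gaussianReal 0 1) i₀).map_eq] at h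
  rw [h]
  refine integral_congr_ae (ae_of_all _ fun r => ?_)
  show Real.exp _ = Real.exp _
  rw [mul_pow, Real.sq_sqrt (sq_nonneg' v)]
  ring_nf

/-- The average over the matrix. -/
lemma defect_avg_mat (hN : 0 < N) (v : Fin N → ℝ) {t : ℝ} (ht : 0 ≤ t) :
    ∫ g, defectKer t g v ∂gauss (Fin N × Fin N) = (Real.sqrt (1 + t * sq v))⁻¹ ^ N := by
  have hcur : (gauss (Fin N × Fin N)).map (MeasurableEquiv.curry (Fin N) (Fin N) ℝ)
      = Measure.pi fun _ : Fin N => gauss (Fin N) := by
    have h := Measure.infinitePi_map_curry (fun (_ : Fin N) (_ : Fin N) => gaussianReal 0 1)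
    simpa only [Measure.infinitePi_eq_pi] using h
  have e : ∀ g, defectKer t g v = (fun r : Fin N → Fin N → ℝ =>
      ∏ i, Real.exp (-(t / 2) * (∑ j, r i j * v j) ^ 2))
        (MeasurableEquiv.curry (Fin N) (Fin N) ℝ g) := by
    intro g
    simp only [defectKer, mul_sum, Real.exp_sum]
    rfl
  simp only [e]
  rw [← integral_map_equiv (MeasurableEquiv.curry (Fin N) (Fin N) ℝ)
      (fun r : Fin N → Fin N → ℝ => ∏ i, Real.exp (-(t / 2) * (∑ j, r i j * v j) ^ 2)), hcur,
    integral_fintype_prod_eq_prod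
      (f := fun (_ : Fin N) (r : Fin N → ℝ) => Real.exp (-(t / 2) * (∑ j, r j * v j) ^ 2))]
  simp only [defect_pos_fin hN v ht, prod_const, card_univ, Fintype.card_fin]

/-- The average over the vector. -/
lemma defect_avg_vec (g : Fin N × Fin N → ℝ) {t : ℝ} (ht : 0 ≤ t)
    (hG : ((Matrix.of fun i j => g (i, j))ᵀ * Matrix.of fun i j => g (i, j)).IsHermitian) :
    ∫ v, defectKer t g v ∂gauss (Fin N) = ∏ i, (Real.sqrt (1 + t * hG.eigenvalues i))⁻¹ := by
  set G : Matrix (Fin N) (Fin N) ℝ := Matrix.of fun i j => g (i, j) with hGd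
  set P : Matrix (Fin N) (Fin N) ℝ :=
    (hG.eigenvectorUnitary : Matrix (Fin N) (Fin N) ℝ) with hP
  have key : ∀ w, defectKer t g (P *ᵥ w)
      = ∏ i, Real.exp (-(t * hG.eigenvalues i / 2) * w i ^ 2) := by
    intro w
    have h1 : ∑ i, (∑ j, g (i, j) * (P *ᵥ w) j) ^ 2 = ∑ i, hG.eigenvalues i * w i ^ 2 := by
      calc ∑ i, (∑ j, g (i, j) * (P *ᵥ w) j) ^ 2 = (G *ᵥ (P *ᵥ w)) ⬝ᵥ (G *ᵥ (P *ᵥ w)) := by
            simp [hGd, dotProduct, mulVec, pow_two]
        _ = (P *ᵥ w) ⬝ᵥ ((Gᵀ * G) *ᵥ (P *ᵥ w)) := by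
            conv_rhs => rw [← mulVec_mulVec, dotProduct_mulVec, vecMul_transpose]
        _ = w ⬝ᵥ ((Pᵀ * (Gᵀ * G) * P) *ᵥ w) := by
            conv_rhs => rw [← mulVec_mulVec, ← mulVec_mulVec, dotProduct_mulVec, vecMul_transpose]
        _ = _ := by
            have h := eig_decomp hG
            rw [← hP] at h
            conv_lhs => rw [h]
            have hl : Pᵀ * P = 1 := (isOrth_eig hG).left
            simp only [← Matrix.mul_assoc, hl, Matrix.one_mul]
            rw [Matrix.mul_assoc, hl, Matrix.mul_one]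
            simp only [dotProduct, mulVec_diagonal]
            exact sum_congr rfl fun i _ => by ring
    rw [defectKer, h1, mul_sum, ← Real.exp_sum]
    exact congrArg _ (sum_congr rfl fun i _ => by ring)
  have hm := integral_map (μ := gauss (Fin N)) (φ := fun w => P *ᵥ w) (f := defectKer t g)
    (by fun_prop) (Continuous.aestronglyMeasurable (by unfold defectKer; fun_prop))
  rw [gauss_rot P hG.eigenvectorUnitary.2] at hm
  rw [hm]
  simp only [key]
  rw [integral_fintype_prod_eq_prod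
    (f := fun (i : Fin N) (x : ℝ) => Real.exp (-(t * hG.eigenvalues i / 2) * x ^ 2))]
  exact prod_congr rfl fun i _ => defect_one_dim (mul_nonneg ht (gram_nonneg hG i))

lemma defect_interval {a : ℝ} (ha : 0 ≤ a) :
    (gaussianReal 0 1).real {x | |x| ≤ a} ≤ a := by
  have hset : {x : ℝ | |x| ≤ a} = Set.Icc (-a) a := by ext x; simp [abs_le]
  have hpdf : ∀ x, gaussianPDFReal 0 1 x ≤ 1 / 2 := by
    intro x
    simp only [gaussianPDFReal, NNReal.coe_one, mul_one]
    have h2 : (2 : ℝ) ≤ Real.sqrt (2 * Real.pi) :=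
      Real.le_sqrt_of_sq_le (by nlinarith [Real.pi_gt_three])
    calc (Real.sqrt (2 * Real.pi))⁻¹ * Real.exp (-(x - 0) ^ 2 / 2)
        ≤ 2⁻¹ * 1 := mul_le_mul (inv_anti₀ (by norm_num) h2)
          (Real.exp_le_one_iff.2 (by nlinarith [sq_nonneg x])) (Real.exp_pos _).le (by norm_num)
      _ = 1 / 2 := by norm_num
  rw [hset, measureReal_def, gaussianReal_apply_eq_integral 0 one_ne_zero,
    ENNReal.toReal_ofReal (setIntegral_nonneg measurableSet_Icc fun x _ =>
      gaussianPDFReal_nonneg 0 1 x)]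
  refine (setIntegral_mono_on (integrable_gaussianPDFReal 0 1).integrableOn
    (integrableOn_const (by simp) (by simp)) measurableSet_Icc fun x _ => hpdf x).trans ?_
  simp [max_eq_left (add_nonneg ha ha)]
  linarith

/-- The one dimensional moment, by dyadic levels. -/
lemma defect_scalar (K : ℕ) :
    Integrable (fun x : ℝ => (Real.sqrt (Real.exp (-(2 * K : ℝ)) + x ^ 2))⁻¹) (gaussianReal 0 1) ∧
    ∫ x, (Real.sqrt (Real.exp (-(2 * K : ℝ)) + x ^ 2))⁻¹ ∂gaussianReal 0 1 ≤ 3 * ((K : ℝ) + 2) := by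
  set ε := Real.exp (-(2 * K : ℝ)) with hε
  have hε0 : 0 < ε := Real.exp_pos _
  set S : ℕ → Set ℝ := fun j => {x | |x| ≤ Real.exp (-(j : ℝ))} with hS
  have hSm : ∀ j, MeasurableSet (S j) := fun j => measurableSet_le (by fun_prop) measurable_const
  set F : ℝ → ℝ := fun x =>
    1 + ∑ j ∈ range (K + 1), (S j).indicator (fun _ => Real.exp ((j : ℝ) + 1)) x with hF
  have hnn : ∀ x j, 0 ≤ (S j).indicator (fun _ => Real.exp ((j : ℝ) + 1)) x := fun x j =>
    Set.indicator_nonneg (fun _ _ => (Real.exp_pos _).le) x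
  have hpt : ∀ x, (Real.sqrt (ε + x ^ 2))⁻¹ ≤ F x := by
    intro x
    have hb : |x| ≤ Real.sqrt (ε + x ^ 2) := Real.abs_le_sqrt (by linarith)
    by_cases hx : 1 < |x|
    · calc (Real.sqrt (ε + x ^ 2))⁻¹ ≤ 1 := inv_le_one_of_one_le₀ (hx.le.trans hb)
        _ ≤ F x := le_add_of_nonneg_right (sum_nonneg fun j _ => hnn x j)
    classical
    set j := Nat.findGreatest (fun j => x ∈ S j) K with hj
    have h0 : x ∈ S 0 := by simpa [hS] using not_lt.1 hx
    have hjS : x ∈ S j := Nat.findGreatest_spec (P := fun j => x ∈ S j) (Nat.zero_le K) h0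
    have hjK : j ≤ K := Nat.findGreatest_le K
    have hle : (Real.sqrt (ε + x ^ 2))⁻¹ ≤ Real.exp ((j : ℝ) + 1) := by
      rw [inv_le_comm₀ (Real.sqrt_pos.2 (by positivity)) (Real.exp_pos _), ← Real.exp_neg]
      rcases hjK.lt_or_eq with hlt | heq
      · have h := Nat.findGreatest_is_greatest (P := fun j => x ∈ S j)
          (show j < j + 1 by omega) (show j + 1 ≤ K by omega)
        simp only [hS, Set.mem_ofPred_eq, not_le, Nat.cast_add, Nat.cast_one] at h
        exact h.le.trans hb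
      · refine le_trans ?_ (Real.sqrt_le_sqrt (show ε ≤ ε + x ^ 2 by linarith [sq_nonneg x]))
        rw [hε, ← Real.exp_half]
        exact Real.exp_le_exp.2 (by rw [heq]; linarith)
    refine hle.trans (le_trans ?_ (le_add_of_nonneg_left zero_le_one))
    refine le_trans ?_ (single_le_sum (fun i _ => hnn x i) (mem_range.2 (Nat.lt_succ_of_le hjK)))
    rw [Set.indicator_of_mem hjS]
  have hIj : ∀ j, Integrable ((S j).indicator fun _ => Real.exp ((j : ℝ) + 1)) (gaussianReal 0 1) :=
    fun j => (integrable_const _).indicator (hSm j)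
  have hFi : Integrable F (gaussianReal 0 1) :=
    (integrable_const 1).add (integrable_finsetSum _ fun j _ => hIj j)
  have hint : Integrable (fun x : ℝ => (Real.sqrt (ε + x ^ 2))⁻¹) (gaussianReal 0 1) :=
    hFi.mono' (Measurable.aestronglyMeasurable (by fun_prop))
      (ae_of_all _ fun x => by
        rw [Real.norm_eq_abs, abs_of_nonneg (inv_nonneg.2 (Real.sqrt_nonneg _))]
        exact hpt x)
  refine ⟨hint, (integral_mono hint hFi hpt).trans ?_⟩
  rw [hF, integral_add (integrable_const 1) (integrable_finsetSum _ fun j _ => hIj j),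
    integral_finsetSum _ fun j _ => hIj j]
  have hterm : ∀ j ∈ range (K + 1),
      ∫ x, (S j).indicator (fun _ => Real.exp ((j : ℝ) + 1)) x ∂gaussianReal 0 1 ≤ 2.72 := by
    intro j _
    rw [integral_indicator_const _ (hSm j), smul_eq_mul]
    calc (gaussianReal 0 1).real (S j) * Real.exp ((j : ℝ) + 1)
        ≤ Real.exp (-(j : ℝ)) * Real.exp ((j : ℝ) + 1) :=
          mul_le_mul_of_nonneg_right (defect_interval (Real.exp_pos _).le) (Real.exp_pos _).le
      _ = Real.exp 1 := by rw [← Real.exp_add]; ring_nf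
      _ ≤ 2.72 := by have := Real.exp_one_lt_d9; linarith
  have := sum_le_sum hterm
  simp only [sum_const, card_range, nsmul_eq_mul, Nat.cast_add, Nat.cast_one] at this
  simp only [integral_const, probReal_univ, smul_eq_mul, mul_one]
  nlinarith [Nat.cast_nonneg (α := ℝ) K]

/-- The pointwise inequality between `ε / u` and the logarithm. -/
lemma defect_elem {K : ℕ} (hK : 0 < K) {u : ℝ} (hu : Real.exp (-(2 * K : ℝ)) ≤ u) :
    Real.exp (-(2 * K : ℝ)) / u ≤ Real.exp (-(K : ℝ)) + (u - Real.log u) / K := by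
  have hu0 : 0 < u := (Real.exp_pos _).trans_le hu
  have hKr : (0 : ℝ) < K := Nat.cast_pos.2 hK
  rcases le_or_gt (Real.exp (-(K : ℝ))) u with h | h
  · have h1 : Real.exp (-(2 * K : ℝ)) / u ≤ Real.exp (-(K : ℝ)) := by
      rw [div_le_iff₀ hu0, show -(2 * (K : ℝ)) = -(K : ℝ) + -(K : ℝ) by ring, Real.exp_add]
      exact mul_le_mul_of_nonneg_left h (Real.exp_pos _).le
    have h2 : 0 ≤ (u - Real.log u) / K :=
      div_nonneg (by linarith [Real.log_le_sub_one_of_pos hu0]) hKr.le
    linarith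
  · have hlog : Real.log u < -(K : ℝ) := (Real.log_lt_iff_lt_exp hu0).2 h
    have h1 : Real.exp (-(2 * K : ℝ)) / u ≤ 1 := (div_le_one hu0).2 hu
    have h2 : 1 ≤ (u - Real.log u) / K := by rw [one_le_div hKr]; linarith
    linarith [Real.exp_pos (-(K : ℝ))]

/-- AM-GM for the vector. -/
lemma defect_amgm {ε : ℝ} (hε : 0 < ε) (hN : 0 < N) (v : Fin N → ℝ) :
    (Real.sqrt (ε + sq v / N))⁻¹ ^ N ≤ ∏ i, (Real.sqrt (ε + v i ^ 2))⁻¹ := by
  have hNr : (0 : ℝ) < N := Nat.cast_pos.2 hN
  set A := ε + sq v / N with hA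
  have hA0 : 0 < A := add_pos_of_pos_of_nonneg hε (div_nonneg (sq_nonneg' v) hNr.le)
  have hp : ∀ i, 0 < ε + v i ^ 2 := fun i => by positivity
  have hsum : ∑ i, Real.log (ε + v i ^ 2) ≤ N * Real.log A := by
    have h : ∀ i, Real.log (ε + v i ^ 2) ≤ (ε + v i ^ 2) / A - 1 + Real.log A := fun i => by
      have := Real.log_le_sub_one_of_pos (div_pos (hp i) hA0)
      rw [Real.log_div (hp i).ne' hA0.ne'] at this
      linarith
    refine (sum_le_sum fun i _ => h i).trans_eq ?_
    simp only [sum_add_distrib, sum_sub_distrib, sum_const, card_univ, Fintype.card_fin,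
      nsmul_eq_mul, mul_one, ← sum_div]
    have : (N : ℝ) * ε + ∑ i, v i ^ 2 = N * A := by
      rw [hA, sq]; field_simp
    rw [this]
    field_simp
    ring
  have hprod : ∏ i, (ε + v i ^ 2) ≤ A ^ N := by
    rw [← Real.exp_log (prod_pos fun i _ => hp i), Real.log_prod fun i _ => (hp i).ne',
      ← Real.exp_log (pow_pos hA0 N), Real.log_pow]
    exact Real.exp_le_exp.2 hsum
  rw [inv_pow, prod_inv_distrib]
  refine inv_anti₀ (prod_pos fun i _ => Real.sqrt_pos.2 (hp i)) ?_
  rw [← abs_of_nonneg (prod_nonneg fun i _ => Real.sqrt_nonneg (ε + v i ^ 2)),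
    ← abs_of_nonneg (pow_nonneg (Real.sqrt_nonneg A) N), ← sq_le_sq, ← prod_pow, ← pow_mul,
    mul_comm N 2, pow_mul, Real.sq_sqrt hA0.le]
  exact (prod_congr rfl fun i _ => Real.sq_sqrt (hp i).le).trans_le hprod

theorem defect_small (δ : ℝ) (hδ : 0 < δ) :
    ∃ ε, 0 < ε ∧ ∀ N : ℕ, 0 < N →
      ∫ g, frob (1 - regK (ε * N) (Matrix.of fun i j => g (i, j))) ∂gauss (Fin N × Fin N)
        ≤ δ * N := by
  obtain ⟨K, hK⟩ := exists_nat_ge (max 2 ((14 / δ) ^ 2))
  have hK2 : (2 : ℝ) ≤ K := (le_max_left _ _).trans hK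
  have hK0 : 0 < K := Nat.cast_pos.1 (lt_of_lt_of_le two_pos hK2)
  set ε := Real.exp (-(2 * K : ℝ)) with hε
  have hε0 : 0 < ε := Real.exp_pos _
  refine ⟨ε, hε0, fun N hN => ?_⟩
  have hNr : (0 : ℝ) < N := Nat.cast_pos.2 hN
  set a := ε * (N : ℝ) with ha
  have ha0 : 0 < a := mul_pos hε0 hNr
  set t := 1 / a with ht
  have ht0 : 0 ≤ t := (one_div_pos.2 ha0).le
  set c := (3 * ((K : ℝ) + 2)) ^ N with hc
  have hc0 : 0 < c := by positivity
  set P : (Fin N × Fin N → ℝ) → ℝ := fun g =>
    Real.exp (K : ℝ) ^ N * ∫ v, defectKer t g v ∂gauss (Fin N) with hP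
  have hsqε : Real.sqrt ε = (Real.exp (K : ℝ))⁻¹ := by
    rw [hε, ← Real.exp_half, ← Real.exp_neg]; ring_nf
  have hPi : Integrable P (gauss (Fin N × Fin N)) :=
    (defect_integrable_ker ht0).integral_prod_left.const_mul _
  -- the first moment of `P`
  have hPE : ∫ g, P g ∂gauss (Fin N × Fin N) ≤ c := by
    rw [hP, integral_const_mul, integral_integral_swap (defect_integrable_ker ht0)]
    simp only [defect_avg_mat hN _ ht0]
    rw [← integral_const_mul]
    have hK' := defect_scalar K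
    have hi : Integrable (fun v : Fin N → ℝ => ∏ i, (Real.sqrt (ε + v i ^ 2))⁻¹) (gauss (Fin N)) :=
      Integrable.fintype_prod fun _ => hK'.1
    refine (integral_mono_of_nonneg (ae_of_all _ fun v => mul_nonneg (pow_nonneg
      (Real.exp_pos _).le N) (pow_nonneg (inv_nonneg.2 (Real.sqrt_nonneg _)) N)) hi
      (ae_of_all _ fun v => ?_)).trans ?_
    · refine le_trans (le_of_eq ?_) (defect_amgm hε0 hN v)
      show Real.exp (K : ℝ) ^ N * _ = _
      rw [← mul_pow]
      congr 1
      rw [show Real.exp (K : ℝ) = (Real.sqrt ε)⁻¹ by rw [hsqε, inv_inv], ← mul_inv,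
        ← Real.sqrt_mul hε0.le]
      congr 2
      rw [ht, ha]; field_simp
    · rw [integral_fintype_prod_eq_prod (f := fun (_ : Fin N) (x : ℝ) =>
        (Real.sqrt (ε + x ^ 2))⁻¹)]
      simp only [prod_const, card_univ, Fintype.card_fin]
      exact pow_le_pow_left₀ (integral_nonneg fun x => inv_nonneg.2 (Real.sqrt_nonneg _)) hK'.2 N
  set T : (Fin N × Fin N → ℝ) → ℝ := fun g => ∑ p, g p ^ 2 with hT
  have hsqi : Integrable (fun x : ℝ => x ^ 2) (gaussianReal 0 1) :=
    (memLp_id_gaussianReal 2).integrable_sq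
  have hev : ∀ p : Fin N × Fin N, Integrable (fun g => g p ^ 2) (gauss (Fin N × Fin N)) ∧
      ∫ g, g p ^ 2 ∂gauss (Fin N × Fin N) = 1 := fun p => by
    have hp := measurePreserving_eval (fun _ : Fin N × Fin N => gaussianReal 0 1) p
    refine ⟨hp.integrable_comp_of_integrable hsqi, ?_⟩
    have h := integral_map (μ := gauss (Fin N × Fin N)) (f := fun x : ℝ => x ^ 2) hp.measurable.aemeasurable
      (by fun_prop)
    rw [hp.map_eq] at h
    refine h.symm.trans ?_
    have hv := variance_id_gaussianReal (μ := 0) (v := 1)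
    rw [variance_eq_integral measurable_id.aemeasurable] at hv
    simpa using hv
  set R : (Fin N × Fin N → ℝ) → ℝ := fun g => N * Real.exp (-(K : ℝ))
    + ((T g / N + ε * N) + 2 * (P g / c - 1 + Real.log c)) / K with hR
  have hTi : Integrable T (gauss (Fin N × Fin N)) :=
    integrable_finsetSum _ fun p _ => (hev p).1
  have hRi : Integrable R (gauss (Fin N × Fin N)) :=
    (integrable_const _).add ((((hTi.div_const _).add (integrable_const _)).add
      ((((hPi.div_const _).sub (integrable_const _)).add (integrable_const _)).const_mul 2)).div_const _)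
  have hpt : ∀ g, frob (1 - regK a (Matrix.of fun i j => g (i, j))) ≤ R g := by
    intro g
    set G : Matrix (Fin N) (Fin N) ℝ := Matrix.of fun i j => g (i, j) with hGd
    have hG := gram_isHermitian G
    set u : Fin N → ℝ := fun i => hG.eigenvalues i / N + ε with hu
    have hlam : ∀ i, 0 ≤ hG.eigenvalues i := gram_nonneg hG
    have hu0 : ∀ i, ε ≤ u i := fun i => le_add_of_nonneg_left (div_nonneg (hlam i) hNr.le)
    have hup : ∀ i, 0 < u i := fun i => hε0.trans_le (hu0 i)
    have e1 : ∀ i, a / (hG.eigenvalues i + a) = ε / u i := fun i => by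
      have := hup i
      simp only [hu] at this ⊢
      rw [ha]; field_simp
    have hTe : ∑ i, hG.eigenvalues i = T g := by
      have h := hG.trace_eq_sum_eigenvalues
      simp only [RCLike.ofReal_real_eq_id, id] at h
      rw [← h, ← frob_trace]
      simp [hT, frob, Fintype.sum_prod_type, hGd]
    have hPe : Real.log (P g) = -(∑ i, Real.log (u i)) / 2 := by
      simp only [hP]
      rw [defect_avg_vec g ht0 hG, show Real.exp (K : ℝ) ^ N = ∏ _i : Fin N, Real.exp (K : ℝ) by
        simp, ← prod_mul_distrib]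
      have e2 : ∀ i, Real.exp (K : ℝ) * (Real.sqrt (1 + t * hG.eigenvalues i))⁻¹
          = (Real.sqrt (u i))⁻¹ := fun i => by
        rw [show Real.exp (K : ℝ) = (Real.sqrt ε)⁻¹ by rw [hsqε, inv_inv], ← mul_inv,
          ← Real.sqrt_mul hε0.le]
        congr 2
        simp only [hu]
        rw [ht, ha]; field_simp; ring
      rw [prod_congr rfl fun i _ => e2 i, Real.log_prod fun i _ =>
        (inv_pos.2 (Real.sqrt_pos.2 (hup i))).ne', ← sum_neg_distrib, sum_div]
      exact sum_congr rfl fun i _ => by rw [Real.log_inv, Real.log_sqrt (hup i).le]; ring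
    have hPpos : 0 < P g := by
      simp only [hP]
      rw [defect_avg_vec g ht0 hG]
      exact mul_pos (pow_pos (Real.exp_pos _) N) (prod_pos fun i _ =>
        inv_pos.2 (Real.sqrt_pos.2 (by nlinarith [mul_nonneg ht0 (hlam i)])))
    have hlogP : Real.log (P g) ≤ P g / c - 1 + Real.log c := by
      have := Real.log_le_sub_one_of_pos (div_pos hPpos hc0)
      rw [Real.log_div hPpos.ne' hc0.ne'] at this
      linarith
    have h1 := (frob_defect_le ha0 G hG).trans ((sum_congr rfl fun i _ => e1 i).trans_le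
      (sum_le_sum fun i _ => defect_elem hK0 (hu0 i)))
    simp only [sum_add_distrib, ← sum_div, sum_sub_distrib, sum_const, card_univ,
      Fintype.card_fin, nsmul_eq_mul] at h1
    have hsu : ∑ i, u i = T g / N + ε * N := by
      simp only [hu, sum_add_distrib, ← sum_div, hTe, sum_const, card_univ, Fintype.card_fin,
        nsmul_eq_mul]
      ring
    rw [hsu, show ∑ i, Real.log (u i) = -(2 * Real.log (P g)) by rw [hPe]; ring] at h1
    refine h1.trans ?_
    simp only [hR]
    gcongr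
    linarith
  refine (integral_mono_of_nonneg (ae_of_all _ fun g => frob_nonneg _) hRi
    (ae_of_all _ hpt)).trans ?_
  have hint : ∫ g, R g ∂gauss (Fin N × Fin N) = N * Real.exp (-(K : ℝ)) +
      (((∫ g, T g ∂gauss (Fin N × Fin N)) / N + ε * N) +
        2 * ((∫ g, P g ∂gauss (Fin N × Fin N)) / c - 1 + Real.log c)) / K := by
    have i1 : Integrable (fun g => T g / N + ε * N) (gauss (Fin N × Fin N)) :=
      (hTi.div_const _).add (integrable_const _)
    have i0 : Integrable (fun g => P g / c - 1) (gauss (Fin N × Fin N)) :=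
      (hPi.div_const c).sub (integrable_const 1)
    have i2 : Integrable (fun g => P g / c - 1 + Real.log c) (gauss (Fin N × Fin N)) :=
      i0.add (integrable_const _)
    have i3 : Integrable (fun g => (T g / N + ε * N + 2 * (P g / c - 1 + Real.log c)) / K)
        (gauss (Fin N × Fin N)) := (i1.add (i2.const_mul 2)).div_const _
    simp only [hR]
    rw [integral_add (integrable_const _) i3]
    congr 1
    · simp
    rw [integral_div]
    congr 1
    rw [integral_add i1 (i2.const_mul 2), integral_add (hTi.div_const _) (integrable_const _),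
      integral_const_mul (2 : ℝ), integral_add i0 (integrable_const _), integral_sub (hPi.div_const c) (integrable_const 1),
      integral_div, integral_div]
    simp
  have hTE : (∫ g, T g ∂gauss (Fin N × Fin N)) / N = N := by
    rw [hT, integral_finsetSum _ fun p _ => (hev p).1]
    simp [(hev _).2]
  rw [hint, hTE]
  have hP1 : (∫ g, P g ∂gauss (Fin N × Fin N)) / c ≤ 1 := (div_le_one hc0).2 hPE
  set x := 3 * ((K : ℝ) + 2) with hx
  have hx0 : 0 < x := by positivity
  have hlog : Real.log x ≤ 2 * Real.sqrt x := by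
    have h := Real.log_le_sub_one_of_pos (Real.sqrt_pos.2 hx0)
    rw [Real.log_sqrt hx0.le] at h
    linarith
  have hε1 : ε ≤ 1 := Real.exp_le_one_iff.2 (by linarith)
  have hlc : Real.log c = N * Real.log x := by rw [hc, Real.log_pow]
  set q := Real.sqrt (K : ℝ) with hq
  have hq2 : q * q = K := Real.mul_self_sqrt (Nat.cast_nonneg K)
  have hq0 : 0 < q := Real.sqrt_pos.2 (by linarith)
  have hq1 : 1 ≤ q := Real.one_le_sqrt.2 (by linarith)
  have hqδ : 14 ≤ δ * q := by
    have h14 : (14 / δ) ≤ q := by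
      rw [hq, ← Real.sqrt_sq (show (0 : ℝ) ≤ 14 / δ by positivity)]
      exact Real.sqrt_le_sqrt ((le_max_right _ _).trans hK)
    rw [div_le_iff₀ hδ] at h14
    linarith
  have hxq : Real.sqrt x ≤ 2.5 * q := by
    refine Real.sqrt_le_iff.2 ⟨by positivity, ?_⟩
    rw [hx]; nlinarith
  have he : Real.exp (-(K : ℝ)) ≤ 1 / K := by
    rw [Real.exp_neg, ← one_div]
    exact one_div_le_one_div_of_le (by linarith) (by linarith [Real.add_one_le_exp (K : ℝ)])
  have hnum : 1 + (1 + ε) + 2 * Real.log x ≤ δ * K := by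
    nlinarith
  calc (N : ℝ) * Real.exp (-(K : ℝ)) + ((N + ε * N) +
        2 * ((∫ g, P g ∂gauss (Fin N × Fin N)) / c - 1 + Real.log c)) / K
      ≤ N * (1 / K) + ((N + ε * N) + 2 * (N * Real.log x)) / K := by
        gcongr
        linarith
    _ = N * ((1 + (1 + ε) + 2 * Real.log x) / K) := by field_simp; ring
    _ ≤ N * δ := by
        gcongr
        rw [div_le_iff₀ (by linarith)]
        linarith
    _ = δ * N := mul_comm _ _

end

end Vale.Agent.P166.High
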