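import Vale.Agent.P166.High.Basic

/-!
# P166 high temperature: the potential of the spectral law
-/

namespace Vale.Agent.P166.High

open MeasureTheory Filter Topology

noncomputable section

variable {μ : Measure ℝ} {a b : ℝ} {l : (N : ℕ) → Fin N → ℝ}

lemma pot_ae (A : Admissible μ a b l) : ∀ᵐ x ∂μ, x ∈ Set.Icc a b := ae_iff.2 A.supp

lemma pot_le (A : Admissible μ a b l) : a ≤ b := by
  have := A.prob
  obtain ⟨x, hx⟩ := (pot_ae A).exists
  exact hx.1.trans hx.2

lemma pot_int (A : Admissible μ a b l) {f : ℝ → ℝ} (hm : Measurable f)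
    (hc : ContinuousOn f (Set.Icc a b)) : Integrable f μ := by
  have := A.prob
  obtain ⟨C, hC⟩ := isCompact_Icc.exists_bound_of_continuousOn hc
  exact (integrable_const C).mono' hm.aestronglyMeasurable ((pot_ae A).mono fun x hx => hC x hx)

theorem eventually_le (A : Admissible μ a b l) {h : ℝ} (hh : 0 < h) :
    ∀ᶠ N : ℕ in atTop, ∀ i, l N i ≤ b + h := by
  filter_upwards [A.largest.eventually (eventually_le_nhds (show b < b + h by linarith))]
    with N hN i
  exact (le_ciSup (Set.finite_range _).bddAbove i).trans hN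

lemma pot_eventually_ge (A : Admissible μ a b l) {h : ℝ} (hh : 0 < h) :
    ∀ᶠ N : ℕ in atTop, ∀ i, a - h ≤ l N i := by
  filter_upwards [A.least.eventually (eventually_ge_nhds (show a - h < a by linarith))] with N hN i
  exact hN.trans (ciInf_le (Set.finite_range _).bddBelow i)

theorem exists_bound (A : Admissible μ a b l) :
    ∃ M, 0 < M ∧ ∀ᶠ N : ℕ in atTop, ∀ i, |l N i| ≤ M := by
  refine ⟨|a| + |b| + 1, by positivity, ?_⟩
  filter_upwards [eventually_le A one_pos, pot_eventually_ge A one_pos] with N h1 h2 i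
  have := le_abs_self b
  have := neg_abs_le a
  have := abs_nonneg a
  have := abs_nonneg b
  exact abs_le.2 ⟨by linarith [h2 i], by linarith [h1 i]⟩

lemma pot_tendsto (A : Admissible μ a b l) {f : ℝ → ℝ} {h : ℝ} (hh : 0 < h)
    (hf : ContinuousOn f (Set.Icc (a - 1) (b + h))) :
    Tendsto (fun N : ℕ => (∑ i, f (l N i)) / N) atTop (𝓝 (∫ x, f x ∂μ)) := by
  have hab : a - 1 ≤ b + h := by linarith [pot_le A]
  set c := fun x => (Set.projIcc (a - 1) (b + h) hab x : ℝ)
  have hc : ∀ x, c x ∈ Set.Icc (a - 1) (b + h) := fun x => Subtype.coe_prop _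
  have hceq : ∀ x ∈ Set.Icc (a - 1) (b + h), c x = x := fun x hx => by
    simp only [c, Set.projIcc_of_mem hab hx]
  have hcont : Continuous fun x => f (c x) :=
    hf.comp_continuous (continuous_subtype_val.comp continuous_projIcc) hc
  obtain ⟨C, hC⟩ := isCompact_Icc.exists_bound_of_continuousOn hf
  have ht := A.weak (BoundedContinuousFunction.ofNormedAddCommGroup _ hcont C
    fun x => hC _ (hc x))
  have hint : ∫ x, f (c x) ∂μ = ∫ x, f x ∂μ := by
    refine integral_congr_ae ((pot_ae A).mono fun x hx => ?_)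
    simp only [hceq x ⟨by linarith [hx.1], by linarith [hx.2]⟩]
  change Tendsto (fun N : ℕ => (∑ i, f (c (l N i))) / N) atTop (𝓝 (∫ x, f (c x) ∂μ)) at ht
  rw [hint] at ht
  refine ht.congr' ?_
  filter_upwards [eventually_le A hh, pot_eventually_ge A one_pos] with N h1 h2
  simp only [fun i => hceq (l N i) ⟨h2 i, h1 i⟩]

lemma pot_cont_log {z u v : ℝ} (hz : v < z) :
    ContinuousOn (fun x => Real.log (z - x)) (Set.Icc u v) :=
  ContinuousOn.log (by fun_prop) fun x hx => (sub_pos.2 (hx.2.trans_lt hz)).ne'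

lemma pot_cont_inv {z u v : ℝ} (hz : v < z) :
    ContinuousOn (fun x => (z - x)⁻¹) (Set.Icc u v) :=
  ContinuousOn.inv₀ (by fun_prop) fun x hx => (sub_pos.2 (hx.2.trans_lt hz)).ne'

theorem tendsto_log (A : Admissible μ a b l) {z : ℝ} (hz : b < z) :
    Tendsto (fun N : ℕ => (∑ i, Real.log (z - l N i)) / N) atTop (𝓝 (logPot μ z)) :=
  pot_tendsto A (h := (z - b) / 2) (by linarith) (pot_cont_log (by linarith))

theorem tendsto_inv (A : Admissible μ a b l) {z : ℝ} (hz : b < z) :
    Tendsto (fun N : ℕ => (∑ i, (z - l N i)⁻¹) / N) atTop (𝓝 (stieltjes μ z)) :=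
  pot_tendsto A (h := (z - b) / 2) (by linarith) (pot_cont_inv (by linarith))

lemma pot_int_log (A : Admissible μ a b l) {z : ℝ} (hz : b < z) :
    Integrable (fun x => Real.log (z - x)) μ :=
  pot_int A (Real.measurable_log.comp (measurable_const.sub measurable_id)) (pot_cont_log hz)

lemma pot_int_inv (A : Admissible μ a b l) {z : ℝ} (hz : b < z) :
    Integrable (fun x => (z - x)⁻¹) μ :=
  pot_int A (measurable_const.sub measurable_id).inv (pot_cont_inv hz)

lemma pot_int_inv2 (A : Admissible μ a b l) {z : ℝ} (hz : b < z) :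
    Integrable (fun x => ((z - x) ^ 2)⁻¹) μ :=
  pot_int A ((measurable_const.sub measurable_id).pow_const 2).inv
    (ContinuousOn.inv₀ (by fun_prop) fun x hx =>
      (pow_pos (sub_pos.2 (hx.2.trans_lt hz)) 2).ne')

lemma pot_stieltjes_pos (A : Admissible μ a b l) {z : ℝ} (hz : b < z) : 0 < stieltjes μ z := by
  have := A.prob
  have h := pot_le A
  refine lt_of_lt_of_le (inv_pos.2 (show 0 < z - a by linarith)) ?_
  calc (z - a)⁻¹ = ∫ _x, (z - a)⁻¹ ∂μ := by simp
    _ ≤ _ := integral_mono_ae (integrable_const _) (pot_int_inv A hz) ((pot_ae A).mono fun x hx =>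
        inv_anti₀ (by linarith [hx.2]) (by linarith [hx.1]))

lemma pot_stieltjes2_pos (A : Admissible μ a b l) {z : ℝ} (hz : b < z) :
    0 < stieltjes2 μ z := by
  have := A.prob
  have h := pot_le A
  refine lt_of_lt_of_le (inv_pos.2 (pow_pos (show 0 < z - a by linarith) 2)) ?_
  calc ((z - a) ^ 2)⁻¹ = ∫ _x, ((z - a) ^ 2)⁻¹ ∂μ := by simp
    _ ≤ _ := integral_mono_ae (integrable_const _) (pot_int_inv2 A hz) ((pot_ae A).mono fun x hx =>
        inv_anti₀ (pow_pos (by linarith [hx.2]) 2)
          (pow_le_pow_left₀ (by linarith [hx.2]) (by linarith [hx.1]) 2))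

/-- The potential is below every affine majorant of the logarithm. -/
lemma pot_logPot_le (A : Admissible μ a b l) {c z : ℝ} (hc : 0 < c) (hz : b < z) :
    logPot μ z ≤ c * (z - a) - 1 - Real.log c := by
  have := A.prob
  calc logPot μ z ≤ ∫ _x, (c * (z - a) - 1 - Real.log c) ∂μ :=
        integral_mono_ae (pot_int_log A hz) (integrable_const _) ((pot_ae A).mono fun x hx => ?_)
    _ = _ := by simp
  have hpos : 0 < z - x := by linarith [hx.2]
  have h := Real.log_le_sub_one_of_pos (mul_pos hc hpos)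
  rw [Real.log_mul hc.ne' hpos.ne'] at h
  have := mul_le_mul_of_nonneg_left (show z - x ≤ z - a by linarith [hx.1]) hc.le
  show Real.log (z - x) ≤ _
  linarith

lemma pot_phi_ge (A : Admissible μ a b l) {β z : ℝ} (hβ : 0 < β) (hz : b < z) :
    β * a / 2 ≤ phi μ β z := by
  have := pot_logPot_le A hβ hz
  unfold phi
  linarith

lemma pot_bdd (A : Admissible μ a b l) {β : ℝ} (hβ : 0 < β) :
    BddBelow (phi μ β '' Set.Ioi b) :=
  ⟨β * a / 2, by rintro _ ⟨z, hz, rfl⟩; exact pot_phi_ge A hβ hz⟩

theorem annealed_le (A : Admissible μ a b l) {β z : ℝ} (hβ : 0 < β) (hz : b < z) :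
    annealed μ b β ≤ phi μ β z :=
  csInf_le (pot_bdd A hβ) ⟨z, hz, rfl⟩

lemma pot_le_annealed {β c : ℝ} (h : ∀ z, b < z → c ≤ phi μ β z) : c ≤ annealed μ b β :=
  le_csInf (Set.nonempty_Ioi.image _) (by rintro _ ⟨z, hz, rfl⟩; exact h z hz)

theorem annealed_near (A : Admissible μ a b l) {β η : ℝ} (hβ : 0 < β) (hη : 0 < η) :
    ∃ z, b < z ∧ phi μ β z ≤ annealed μ b β + η := by
  have := pot_bdd A hβ
  obtain ⟨_, ⟨z, hz, rfl⟩, h⟩ :=
    exists_lt_of_csInf_lt (Set.nonempty_Ioi.image (phi μ β)) (lt_add_of_pos_right _ hη)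
  exact ⟨z, hz, h.le⟩

theorem annealed_cont (A : Admissible μ a b l) {β : ℝ} (hβ : 0 < β) {η : ℝ} (hη : 0 < η) :
    ∃ r > 0, ∀ β', |β' - β| < r → |annealed μ b β' - annealed μ b β| ≤ η := by
  set S := annealed μ b β with hS
  obtain ⟨z1, hz1, hphi1⟩ := annealed_near A hβ (half_pos hη)
  set C := β * a / 4 + Real.log (β / 4) - Real.log (2 * β) with hC
  set Z := max (max |b| |z1|) ((2 * (S + η) - C) * 4 / β) with hZdef
  have hcont : ContinuousAt (fun x => |x - β| * Z + |Real.log x - Real.log β|) β := by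
    fun_prop (disch := exact hβ.ne')
  have hev : ∀ᶠ x in 𝓝 β,
      β / 2 < x ∧ x < 2 * β ∧ |x - β| * Z + |Real.log x - Real.log β| < η := by
    refine (eventually_gt_nhds (half_lt_self hβ)).and
      ((eventually_lt_nhds (by linarith)).and (hcont.tendsto.eventually (eventually_lt_nhds ?_)))
    simpa using hη
  obtain ⟨r, hr, hball⟩ := Metric.eventually_nhds_iff.1 hev
  refine ⟨r, hr, fun β' hβ' => ?_⟩
  obtain ⟨h1, h2, h3⟩ := hball (show dist β' β < r by rwa [Real.dist_eq])
  have hβ'0 : 0 < β' := by linarith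
  have hclose : ∀ z, |z| ≤ Z → |phi μ β' z - phi μ β z| ≤ η / 2 := by
    intro z hz
    have e : phi μ β' z - phi μ β z =
        ((β' - β) * z - (Real.log β' - Real.log β)) / 2 := by unfold phi; ring
    rw [e, abs_div, abs_two]
    refine div_le_div_of_nonneg_right ((abs_sub _ _).trans ?_) two_pos.le
    rw [abs_mul]
    linarith [mul_le_mul_of_nonneg_left hz (abs_nonneg (β' - β))]
  rw [abs_le]
  constructor
  · suffices S - η ≤ annealed μ b β' by linarith
    refine pot_le_annealed fun z hz => ?_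
    by_cases hzZ : z ≤ Z
    · have hzabs : |z| ≤ Z := abs_le.2 ⟨by
        have := neg_abs_le b
        have : |b| ≤ Z := (le_max_left _ _).trans (le_max_left _ _)
        linarith, hzZ⟩
      have := (abs_le.1 (hclose z hzabs)).1
      have := annealed_le A hβ hz
      rw [← hS] at this
      linarith
    · rw [not_le] at hzZ
      have hz0 : 0 ≤ z := by
        have : (0 : ℝ) ≤ Z :=
          (abs_nonneg b).trans ((le_max_left _ _).trans (le_max_left _ _))
        linarith
      have hZ' : (2 * (S + η) - C) * 4 / β < z := lt_of_le_of_lt (le_max_right _ _) hzZ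
      rw [div_lt_iff₀ hβ] at hZ'
      have hL := pot_logPot_le A (show 0 < β / 4 by linarith) hz
      have hlog := Real.log_le_log hβ'0 h2.le
      have hmul := mul_le_mul_of_nonneg_right h1.le hz0
      unfold phi
      linarith
  · have hz : |z1| ≤ Z := (le_max_right _ _).trans (le_max_left _ _)
    have := (abs_le.1 (hclose z1 hz)).2
    have := annealed_le A hβ'0 hz1
    linarith

/-- The logarithm lies below its tangents. -/
lemma pot_tangent (A : Admissible μ a b l) {z w : ℝ} (hz : b < z) (hw : b < w) :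
    logPot μ w - logPot μ z ≤ (w - z) * stieltjes μ z := by
  rw [logPot, logPot, stieltjes, ← integral_sub (pot_int_log A hw) (pot_int_log A hz),
    ← integral_const_mul]
  refine integral_mono_ae ((pot_int_log A hw).sub (pot_int_log A hz))
    ((pot_int_inv A hz).const_mul _) ((pot_ae A).mono fun x hx => ?_)
  have h1 : 0 < z - x := by linarith [hx.2]
  have h2 : 0 < w - x := by linarith [hx.2]
  have h := Real.log_le_sub_one_of_pos (div_pos h2 h1)
  rw [Real.log_div h2.ne' h1.ne'] at h
  refine h.trans (le_of_eq ?_)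
  field_simp
  ring

theorem phi_mono (A : Admissible μ a b l) {β γ z z' : ℝ} (hγ : γ < β)
    (hG : ∀ z, b < z → stieltjes μ z ≤ γ) (hz : b < z) (hzz : z ≤ z') :
    phi μ β z ≤ phi μ β z' := by
  have h := pot_tangent A hz (hz.trans_le hzz)
  have h2 := mul_le_mul_of_nonneg_left ((hG z hz).trans hγ.le) (sub_nonneg.2 hzz)
  unfold phi
  linarith

theorem mass_edge_le (A : Admissible μ a b l) {γ τ : ℝ}
    (hG : ∀ z, b < z → stieltjes μ z ≤ γ) (hτ : 0 < τ) :
    ∀ η > 0, ∀ᶠ N : ℕ in atTop,
      ((Finset.univ.filter fun i => b - τ < l N i).card : ℝ) ≤ (2 * γ * τ + η) * N := by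
  intro η hη
  have hlt : stieltjes μ (b + τ) < γ + η / (2 * τ) := by
    have := hG (b + τ) (by linarith)
    have : 0 < η / (2 * τ) := by positivity
    linarith
  filter_upwards [(tendsto_inv A (show b < b + τ by linarith)).eventually (eventually_le_nhds hlt),
    eventually_le A (half_pos hτ), eventually_gt_atTop 0] with N h1 h2 hN
  have hN' : (0 : ℝ) < N := by exact_mod_cast hN
  rw [div_le_iff₀ hN'] at h1
  set s := Finset.univ.filter fun i => b - τ < l N i
  have hsum : (s.card : ℝ) * (2 * τ)⁻¹ ≤ ∑ i, (b + τ - l N i)⁻¹ := by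
    calc (s.card : ℝ) * (2 * τ)⁻¹ = ∑ _i ∈ s, (2 * τ)⁻¹ := by simp
      _ ≤ ∑ i ∈ s, (b + τ - l N i)⁻¹ := Finset.sum_le_sum fun i hi =>
          inv_anti₀ (by linarith [h2 i]) (by linarith [(Finset.mem_filter.1 hi).2])
      _ ≤ _ := Finset.sum_le_sum_of_subset_of_nonneg (Finset.subset_univ s) fun i _ _ =>
          inv_nonneg.2 (by linarith [h2 i])
  have h := hsum.trans h1
  rw [← div_eq_mul_inv, div_le_iff₀ (by positivity)] at h
  refine h.trans (le_of_eq ?_)
  field_simp

/-- Clamping at `b - τ` gains at rate `τ` beyond the edge value of `G`. -/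
theorem phi_clamp (A : Admissible μ a b l) {β γ κ τ : ℝ} (hβ : 0 < β) (hγ : γ < β)
    (hG : ∀ z, b < z → stieltjes μ z ≤ γ) (hκ : 0 < κ) (hκ1 : κ < 1) (hτ : 0 < τ) :
    ∀ η > 0, ∀ᶠ N : ℕ in atTop,
      (β * (b - κ * τ) - 1 - Real.log β
        - (∑ i, Real.log (b - κ * τ - min (l N i) (b - τ))) / N) / 2
        ≤ annealed μ b β - κ * τ * (β - γ / (1 - κ)) / 2 + η := by
  intro η hη
  have := A.prob
  have hab := pot_le A
  set fc := fun x => Real.log (b - κ * τ - min x (b - τ))
  have hκτ : 0 < (1 - κ) * τ := mul_pos (sub_pos.2 hκ1) hτ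
  have hpos : ∀ x, 0 < b - κ * τ - min x (b - τ) := fun x => by
    linarith [min_le_right x (b - τ)]
  have hfc : Continuous fc := Continuous.log (by fun_prop) fun x => (hpos x).ne'
  have hγ0 : 0 ≤ γ :=
    (pot_stieltjes_pos A (lt_add_one b)).le.trans (hG _ (lt_add_one b))
  set e := min τ (η * (1 - κ) / (3 * (γ + 1))) with hedef
  have he : 0 < e :=
    lt_min hτ (div_pos (mul_pos hη (sub_pos.2 hκ1)) (by linarith))
  have hQ : (β * (b - κ * τ) - 1 - Real.log β - ∫ x, fc x ∂μ) / 2
      ≤ annealed μ b β - κ * τ * (β - γ / (1 - κ)) / 2 + η / 2 := by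
    suffices (β * (b - κ * τ) - 1 - Real.log β - ∫ x, fc x ∂μ) / 2
        + κ * τ * (β - γ / (1 - κ)) / 2 - η / 2 ≤ annealed μ b β by linarith
    refine pot_le_annealed fun w hw => ?_
    set z := min w (b + e) with hzdef
    have hz : b < z := lt_min hw (by linarith)
    have hze : z - b ≤ e := by linarith [min_le_right w (b + e)]
    have hmono := phi_mono A hγ hG hz (min_le_left w (b + e))
    refine le_trans ?_ hmono
    set R := (z - b + κ * τ) * (1 + (z - b) / τ) / (1 - κ)
    have hdiff : logPot μ z - ∫ x, fc x ∂μ ≤ R * stieltjes μ z := by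
      rw [logPot, stieltjes, ← integral_sub (pot_int_log A hz) (pot_int A hfc.measurable
        hfc.continuousOn), ← integral_const_mul]
      refine integral_mono_ae ((pot_int_log A hz).sub (pot_int A hfc.measurable hfc.continuousOn))
        ((pot_int_inv A hz).const_mul _) ((pot_ae A).mono fun x hx => ?_)
      show Real.log (z - x) - fc x ≤ R * (z - x)⁻¹
      set d := b - min x (b - τ) with hd
      have hd1 : b - x ≤ d := by linarith [min_le_left x (b - τ)]
      have hd2 : τ ≤ d := by linarith [min_le_right x (b - τ)]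
      have hd0 : 0 < d := hτ.trans_le hd2
      have hfd : fc x = Real.log (d - κ * τ) := by
        simp only [fc, hd]
        congr 1
        ring
      have hdk : (1 - κ) * d ≤ d - κ * τ := by
        nlinarith [mul_le_mul_of_nonneg_left hd2 hκ.le]
      have hdk0 : 0 < d - κ * τ := lt_of_lt_of_le (mul_pos (sub_pos.2 hκ1) hd0) hdk
      have hzx : 0 < z - x := by linarith [hx.2]
      have hlog := Real.log_le_sub_one_of_pos (div_pos hzx hdk0)
      rw [Real.log_div hzx.ne' hdk0.ne'] at hlog
      rw [hfd]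
      refine hlog.trans ?_
      have hnum : 0 ≤ z - b + κ * τ := by nlinarith
      calc (z - x) / (d - κ * τ) - 1 ≤ (z - b + d) / (d - κ * τ) - 1 := by
            gcongr
            linarith
        _ = (z - b + κ * τ) / (d - κ * τ) := by field_simp; ring
        _ ≤ (z - b + κ * τ) / ((1 - κ) * d) :=
            div_le_div_of_nonneg_left hnum (mul_pos (sub_pos.2 hκ1) hd0) hdk
        _ ≤ R * (z - x)⁻¹ := by
            have hzd : z - x ≤ (1 + (z - b) / τ) * d := by
              have h1 : (z - b) * τ ≤ (z - b) * d :=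
                mul_le_mul_of_nonneg_left hd2 (by linarith)
              have h2 : z - b ≤ (z - b) / τ * d := by
                rw [div_mul_eq_mul_div, le_div_iff₀ hτ]
                exact h1
              rw [add_mul, one_mul]
              linarith
            simp only [R]
            rw [← div_eq_mul_inv, div_div,
              div_le_div_iff₀ (mul_pos (sub_pos.2 hκ1) hd0) (mul_pos (sub_pos.2 hκ1) hzx)]
            have h := mul_le_mul_of_nonneg_left hzd (mul_nonneg hnum (sub_pos.2 hκ1).le)
            linarith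
    have hR : R * stieltjes μ z ≤ κ * τ * (γ / (1 - κ)) + η := by
      have h1 : (z - b + κ * τ) * (1 + (z - b) / τ) ≤ κ * τ + 3 * e := by
        have hzb : 0 ≤ z - b := by linarith
        have he1 : (z - b) / τ ≤ 1 :=
          (div_le_one hτ).2 (hze.trans (min_le_left _ _))
        have h3 := mul_le_mul_of_nonneg_left he1 hzb
        have h4 : κ * τ * ((z - b) / τ) = κ * (z - b) := by field_simp
        have h5 : κ * (z - b) ≤ z - b := mul_le_of_le_one_left hzb hκ1.le
        linarith
      have h2 : 3 * e * γ ≤ η * (1 - κ) := by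
        have h := min_le_right τ (η * (1 - κ) / (3 * (γ + 1)))
        rw [← hedef, le_div_iff₀ (by linarith)] at h
        have := mul_nonneg he.le hγ0
        linarith [he]
      calc R * stieltjes μ z ≤ (κ * τ + 3 * e) / (1 - κ) * γ := by
            refine mul_le_mul (div_le_div_of_nonneg_right h1 (sub_pos.2 hκ1).le) (hG z hz)
              (pot_stieltjes_pos A hz).le (div_nonneg ?_ (sub_pos.2 hκ1).le)
            positivity
        _ = κ * τ * (γ / (1 - κ)) + 3 * e * γ / (1 - κ) := by ring
        _ ≤ _ := by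
            gcongr
            rw [div_le_iff₀ (sub_pos.2 hκ1)]
            exact h2
    have hbz : 0 ≤ β * (z - b) := mul_nonneg hβ.le (by linarith)
    unfold phi
    linarith
  filter_upwards [(pot_tendsto A one_pos hfc.continuousOn).eventually (eventually_ge_nhds
    (show (∫ x, fc x ∂μ) - η < ∫ x, fc x ∂μ by linarith))] with N hN
  simp only [fc] at hN hQ
  linarith

lemma pot_hasDeriv_logPot (A : Admissible μ a b l) {z : ℝ} (hz : b < z) :
    HasDerivAt (logPot μ) (stieltjes μ z) z := by
  have := A.prob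
  set d := (z - b) / 2
  have hd : 0 < d := by simp only [d]; linarith
  refine (hasDerivAt_integral_of_dominated_loc_of_deriv_le (F := fun w x => Real.log (w - x))
    (F' := fun w x => (w - x)⁻¹) (bound := fun _ => d⁻¹) (s := Set.Ioi (b + d))
    (Ioi_mem_nhds (by simp only [d]; linarith)) ?_ (pot_int_log A hz) (pot_int_inv A hz).1 ?_
    (integrable_const _) ?_).2
  · filter_upwards [Ioi_mem_nhds hz] with w hw using (pot_int_log A hw).1
  · filter_upwards [pot_ae A] with x hx w hw
    rw [Set.mem_Ioi] at hw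
    rw [Real.norm_eq_abs, abs_of_pos (inv_pos.2 (by linarith [hx.2]))]
    exact inv_anti₀ hd (by linarith [hx.2])
  · filter_upwards [pot_ae A] with x hx w hw
    rw [Set.mem_Ioi] at hw
    refine (((hasDerivAt_id' w).sub_const x).log (by linarith [hx.2])).congr_deriv ?_
    rw [one_div]

lemma pot_hasDeriv_stieltjes (A : Admissible μ a b l) {z : ℝ} (hz : b < z) :
    HasDerivAt (stieltjes μ) (-stieltjes2 μ z) z := by
  have := A.prob
  set d := (z - b) / 2
  have hd : 0 < d := by simp only [d]; linarith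
  rw [stieltjes2, ← integral_neg]
  refine (hasDerivAt_integral_of_dominated_loc_of_deriv_le (F := fun w x => (w - x)⁻¹)
    (F' := fun w x => -((w - x) ^ 2)⁻¹) (bound := fun _ => (d ^ 2)⁻¹) (s := Set.Ioi (b + d))
    (Ioi_mem_nhds (by simp only [d]; linarith)) ?_ (pot_int_inv A hz) (pot_int_inv2 A hz).neg.1
    ?_ (integrable_const _) ?_).2
  · filter_upwards [Ioi_mem_nhds hz] with w hw using (pot_int_inv A hw).1
  · filter_upwards [pot_ae A] with x hx w hw
    rw [Set.mem_Ioi] at hw
    rw [Real.norm_eq_abs, abs_neg, abs_of_pos (inv_pos.2 (pow_pos (by linarith [hx.2]) 2))]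
    exact inv_anti₀ (pow_pos hd 2) (pow_le_pow_left₀ hd.le (by linarith [hx.2]) 2)
  · filter_upwards [pot_ae A] with x hx w hw
    rw [Set.mem_Ioi] at hw
    refine (((hasDerivAt_id' w).sub_const x).inv (by linarith [hx.2])).congr_deriv ?_
    rw [neg_div, one_div]

lemma pot_exists_eq (A : Admissible μ a b l) {z0 x : ℝ} (hz0 : b < z0) (hx : 0 < x)
    (h : x ≤ stieltjes μ z0) : ∃ z, z0 ≤ z ∧ stieltjes μ z = x := by
  have := A.prob
  set Z := max z0 (b + 1 / x)
  have hle : z0 ≤ Z := le_max_left _ _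
  have hZ : stieltjes μ Z ≤ x := by
    calc stieltjes μ Z ≤ ∫ _x, x ∂μ := integral_mono_ae (pot_int_inv A (hz0.trans_le hle))
          (integrable_const _) ((pot_ae A).mono fun y hy => ?_)
      _ = x := by simp
    have h1 : 1 / x ≤ Z - y := by linarith [hy.2, le_max_right z0 (b + 1 / x)]
    show (Z - y)⁻¹ ≤ x
    have h2 := inv_anti₀ (by positivity) h1
    rwa [one_div, inv_inv] at h2
  obtain ⟨z, hz, hzx⟩ := intermediate_value_Icc' hle
    (fun w hw => (pot_hasDeriv_stieltjes A (hz0.trans_le hw.1)).continuousAt.continuousWithinAt)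
    (Set.mem_Icc.2 ⟨hZ, h⟩)
  exact ⟨z, hz.1, hzx⟩

/-- The quadratic bound on the annealed exponent around `β`. -/
theorem quad_bound (A : Admissible μ a b l) {β K z0 : ℝ} (hβ : 0 < β)
    (h1 : ∀ z, b < z → 1 / stieltjes μ z ^ 2 - 1 / stieltjes2 μ z ≤ K) (hz0 : b < z0)
    (hK : 1 ≤ K * stieltjes μ z0 ^ 2) (hlt : β < stieltjes μ z0) :
    ∃ zs, b < zs ∧ stieltjes μ zs = β ∧ annealed μ b β = phi μ β zs ∧
      ∀ x, 0 < x → ∃ z, b < z ∧ 2 * phi μ x z
        ≤ 2 * phi μ β zs + (zs - 1 / β) * (x - β) + K * (x - β) ^ 2 / 2 := by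
  obtain ⟨zs, hzs0, hGs⟩ := pot_exists_eq A hz0 hβ hlt.le
  have hzs : b < zs := hz0.trans_le hzs0
  refine ⟨zs, hzs, hGs, le_antisymm (annealed_le A hβ hzs) (pot_le_annealed fun z hz => ?_), ?_⟩
  · have h := pot_tangent A hzs hz
    rw [hGs] at h
    unfold phi
    linarith
  set G := stieltjes μ
  set psi := fun z => z - 1 / G z - K * G z with hpsidef
  set q := fun x => 2 * phi μ β zs + (zs - 1 / β) * (x - β) + K * (x - β) ^ 2 / 2 with hqdef
  have hpsi : MonotoneOn psi (Set.Ioi b) := by
    have hd : ∀ z ∈ Set.Ioi b, HasDerivAt psi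
        (stieltjes2 μ z * (K - (1 / G z ^ 2 - 1 / stieltjes2 μ z))) z := by
      intro z hz
      have hG := pot_stieltjes_pos A hz
      have hG2 := pot_stieltjes2_pos A hz
      have hdG := pot_hasDeriv_stieltjes A hz
      refine (((hasDerivAt_id' z).sub ((hasDerivAt_const z (1 : ℝ)).div hdG hG.ne')).sub
        (hdG.const_mul K)).congr_deriv ?_
      simp only [G]
      field_simp
      ring
    refine monotoneOn_of_hasDerivWithinAt_nonneg (convex_Ioi b)
      (fun z hz => (hd z hz).continuousAt.continuousWithinAt)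
      (fun z hz => (hd z (interior_subset hz)).hasDerivWithinAt) fun z hz => ?_
    exact mul_nonneg (pot_stieltjes2_pos A (interior_subset hz)).le
      (sub_nonneg.2 (h1 z (interior_subset hz)))
  set h := fun z => q (G z) - 2 * phi μ (G z) z with hhdef
  have hd : ∀ z, b < z → HasDerivAt h (stieltjes2 μ z * (psi z - psi zs)) z := by
    intro z hz
    have hG := pot_stieltjes_pos A hz
    have hdG := pot_hasDeriv_stieltjes A hz
    have e1 : h = fun z => (2 * phi μ β zs + (zs - 1 / β) * (G z - β) + K * (G z - β) ^ 2 / 2)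
        - (G z * z - 1 - Real.log (G z) - logPot μ z) := by
      funext w
      simp only [hhdef, hqdef]
      rw [show phi μ (G w) w = (G w * w - 1 - Real.log (G w) - logPot μ w) / 2 from rfl]
      ring
    rw [e1]
    refine (((((hdG.sub_const β).const_mul (zs - 1 / β)).const_add _).add
      ((((hdG.sub_const β).pow 2).const_mul K).div_const 2)).sub
      ((((hdG.mul (hasDerivAt_id' z)).sub_const 1).sub (hdG.log hG.ne')).sub
        (pot_hasDeriv_logPot A hz))).congr_deriv ?_
    simp only [hpsidef]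
    rw [hGs]
    simp only [G]
    field_simp
    ring
  have hzero : h zs = 0 := by simp [hhdef, hqdef, hGs]
  have hnonneg : ∀ z, b < z → 0 ≤ h z := by
    intro z hz
    rcases le_total z zs with hle | hle
    · have hanti : AntitoneOn h (Set.Icc z zs) := by
        refine antitoneOn_of_hasDerivWithinAt_nonpos (convex_Icc z zs)
          (fun w hw => (hd w (hz.trans_le hw.1)).continuousAt.continuousWithinAt)
          (fun w hw => (hd w (hz.trans_le (interior_subset hw).1)).hasDerivWithinAt) fun w hw => ?_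
        have hw' := interior_subset hw
        exact mul_nonpos_of_nonneg_of_nonpos (pot_stieltjes2_pos A (hz.trans_le hw'.1)).le
          (sub_nonpos.2 (hpsi (hz.trans_le hw'.1) hzs hw'.2))
      have := hanti (Set.left_mem_Icc.2 hle) (Set.right_mem_Icc.2 hle) hle
      linarith
    · have hmono : MonotoneOn h (Set.Icc zs z) := by
        refine monotoneOn_of_hasDerivWithinAt_nonneg (convex_Icc zs z)
          (fun w hw => (hd w (hzs.trans_le hw.1)).continuousAt.continuousWithinAt)
          (fun w hw => (hd w (hzs.trans_le (interior_subset hw).1)).hasDerivWithinAt) fun w hw => ?_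
        have hw' := interior_subset hw
        exact mul_nonneg (pot_stieltjes2_pos A (hzs.trans_le hw'.1)).le
          (sub_nonneg.2 (hpsi hzs (hzs.trans_le hw'.1) hw'.1))
      have := hmono (Set.left_mem_Icc.2 hle) (Set.right_mem_Icc.2 hle) hle
      linarith
  intro x hx
  rcases le_total x (G z0) with hx0 | hx0
  · obtain ⟨z, hz, hzx⟩ := pot_exists_eq A hz0 hx hx0
    have hbz := hz0.trans_le hz
    refine ⟨z, hbz, ?_⟩
    have := hnonneg z hbz
    simp only [hhdef, hqdef, G, hzx] at this
    linarith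
  refine ⟨z0, hz0, ?_⟩
  have hG0 : 0 < G z0 := pot_stieltjes_pos A hz0
  have hu := hnonneg z0 hz0
  have hu' : psi z0 ≤ psi zs := hpsi hz0 hzs hzs0
  simp only [hpsidef, hGs] at hu'
  set s := (x - G z0) / G z0 with hsdef
  have hs : 0 ≤ s := div_nonneg (sub_nonneg.2 hx0) hG0.le
  have hlog := Real.le_log_one_add_of_nonneg hs
  have e : 1 + s = x / G z0 := by rw [hsdef]; field_simp; ring
  rw [e, Real.log_div hx.ne' hG0.ne'] at hlog
  have hquad : s - s ^ 2 / 2 ≤ 2 * s / (s + 2) := by
    rw [le_div_iff₀ (by linarith)]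
    nlinarith [mul_nonneg hs (sq_nonneg s)]
  have hKs : s ^ 2 ≤ K * (x - G z0) ^ 2 := by
    calc s ^ 2 = 1 * s ^ 2 := (one_mul _).symm
      _ ≤ K * G z0 ^ 2 * s ^ 2 := mul_le_mul_of_nonneg_right hK (sq_nonneg s)
      _ = K * (x - G z0) ^ 2 := by rw [hsdef]; field_simp
  have hlin := mul_le_mul_of_nonneg_left hu' (sub_nonneg.2 hx0)
  have hsG : s = (x - G z0) * (1 / G z0) := by rw [hsdef]; ring
  simp only [hhdef, hqdef, phi] at hu
  simp only [phi]
  linarith

end

end Vale.Agent.P166.High
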