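import Vale.Agent.P166.High.Defect
import Vale.Agent.P166.High.Conc

/-!
# P166 high temperature: self-averaging and the transfer of lower tails
-/

namespace Vale.Agent.P166.High

open MeasureTheory ProbabilityTheory Matrix

noncomputable section

variable {N : ℕ}

/-- The log-sum-exp lies above its tangents. -/
lemma log_sum_exp_tangent {α : Type*} [Fintype α] [Nonempty α] (x y : α → ℝ) :
    (∑ s, Real.exp (x s) * (y s - x s)) / (∑ s, Real.exp (x s))
      ≤ Real.log (∑ s, Real.exp (y s)) - Real.log (∑ s, Real.exp (x s)) := by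
  obtain ⟨Z, hZ⟩ : ∃ Z, Z = ∑ s, Real.exp (x s) := ⟨_, rfl⟩
  have hZ0 : 0 < Z := hZ ▸ Finset.sum_pos (fun _ _ => Real.exp_pos _) Finset.univ_nonempty
  obtain ⟨D, hD⟩ : ∃ D, D = (∑ s, Real.exp (x s) * (y s - x s)) / Z := ⟨_, rfl⟩
  have hlow : Real.exp D * Z ≤ ∑ s, Real.exp (y s) := by
    have h2 : ∑ s, Real.exp (x s) * (y s - x s) = D * Z := by rw [hD, div_mul_cancel₀ _ hZ0.ne']
    calc Real.exp D * Z
        = ∑ s, Real.exp (x s) * (Real.exp D * (1 + (y s - x s) - D)) := by
          have e : ∀ s, Real.exp (x s) * (Real.exp D * (1 + (y s - x s) - D))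
              = Real.exp D * (1 - D) * Real.exp (x s)
                + Real.exp D * (Real.exp (x s) * (y s - x s)) := fun s => by ring
          simp only [e, Finset.sum_add_distrib, ← Finset.mul_sum, h2, ← hZ]
          ring
      _ ≤ ∑ s, Real.exp (y s) := Finset.sum_le_sum fun s _ => by
          rw [show Real.exp (y s) = Real.exp (x s) * (Real.exp D * Real.exp (y s - x s - D)) by
            rw [← Real.exp_add, ← Real.exp_add]; ring_nf]
          refine mul_le_mul_of_nonneg_left (mul_le_mul_of_nonneg_left ?_ (Real.exp_pos _).le)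
            (Real.exp_pos _).le
          linarith [Real.add_one_le_exp (y s - x s - D)]
  have := Real.log_le_log (by positivity) hlow
  rw [Real.log_mul (Real.exp_ne_zero _) hZ0.ne', Real.log_exp] at this
  rw [← hZ, ← hD]
  linarith

/-- The exponent of a configuration in the pressure formula. -/
def qform (β : ℝ) (l : Fin N → ℝ) (B : Matrix (Fin N) (Fin N) ℝ) (s : Fin N → Bool) : ℝ :=
  β / 2 * ∑ i, l i * ((B *ᵥ spin s) i) ^ 2

lemma press_def (β : ℝ) (l : Fin N → ℝ) (B : Matrix (Fin N) (Fin N) ℝ) :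
    press β l B = (Real.log (∑ s, Real.exp (qform β l B s)) - Real.log (2 ^ N)) / N := by
  rw [press, Real.log_div (Finset.sum_pos (fun _ _ => Real.exp_pos _) Finset.univ_nonempty).ne'
    (by positivity)]
  rfl

lemma press_le_of (β : ℝ) (l : Fin N → ℝ) (B B' : Matrix (Fin N) (Fin N) ℝ) {D : ℝ}
    (h : ∀ s, qform β l B s ≤ qform β l B' s + D) : press β l B ≤ press β l B' + D / N := by
  rw [press_def, press_def, ← add_div]
  refine div_le_div_of_nonneg_right ?_ (Nat.cast_nonneg N)
  have h1 := log_sum_exp_tangent (qform β l B) (qform β l B')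
  have hZ : 0 < ∑ s, Real.exp (qform β l B s) :=
    Finset.sum_pos (fun _ _ => Real.exp_pos _) Finset.univ_nonempty
  have h2 : -D ≤ (∑ s, Real.exp (qform β l B s) * (qform β l B' s - qform β l B s))
      / ∑ s, Real.exp (qform β l B s) := by
    rw [le_div_iff₀ hZ, Finset.mul_sum]
    refine Finset.sum_le_sum fun s _ => ?_
    nlinarith [Real.exp_pos (qform β l B s), h s]
  linarith

lemma sq_spin (s : Fin N → Bool) : sq (spin s) = N := by
  have hs : ∀ i, spin s i ^ 2 = 1 := fun i => by unfold spin; split_ifs <;> norm_num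
  simp [sq, hs]

lemma mulVec_sq_le (D : Matrix (Fin N) (Fin N) ℝ) (v : Fin N → ℝ) :
    sq (D *ᵥ v) ≤ frob D * sq v := by
  rw [sq, frob, Finset.sum_mul]
  exact Finset.sum_le_sum fun i _ => Finset.sum_mul_sq_le_sq_mul_sq Finset.univ (fun j => D i j) v

lemma sq_orth (U : OMat N) (v : Fin N → ℝ) :
    sq ((U : Matrix (Fin N) (Fin N) ℝ) *ᵥ v) = sq v := by
  have hU : (U : Matrix (Fin N) (Fin N) ℝ)ᵀ * (U : Matrix (Fin N) (Fin N) ℝ) = 1 :=
    (mem_orthogonalGroup_iff' (n := Fin N) (R := ℝ)).1 U.2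
  have h : ∀ w : Fin N → ℝ, sq w = w ⬝ᵥ w := fun w => by simp [sq, dotProduct, pow_two]
  rw [h, h, dotProduct_mulVec, ← mulVec_transpose, mulVec_mulVec, hU, one_mulVec]

lemma sq_regK_le {a : ℝ} (ha : 0 < a) (G : Matrix (Fin N) (Fin N) ℝ) (v : Fin N → ℝ) :
    sq (regK a G *ᵥ v) ≤ sq v := by
  obtain ⟨R, d, hd, hK⟩ := regK_spectral ha G
  rw [hK, ← mulVec_mulVec, ← mulVec_mulVec]
  rw [show ((R : Matrix (Fin N) (Fin N) ℝ))ᵀ = ((R⁻¹ : OMat N) : Matrix (Fin N) (Fin N) ℝ) from rfl,
    sq_orth, ← sq_orth R v]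
  refine Finset.sum_le_sum fun i _ => ?_
  rw [mulVec_diagonal, mul_pow]
  exact mul_le_of_le_one_left (sq_nonneg _) (pow_le_one₀ (hd i).1 (hd i).2)

lemma sq_regB_le {a : ℝ} (ha : 0 < a) (G : Matrix (Fin N) (Fin N) ℝ) (v : Fin N → ℝ) :
    sq (regB a G *ᵥ v) ≤ sq v := by
  obtain ⟨O, hO⟩ := regB_polar ha G
  rw [hO, ← mulVec_mulVec, sq_orth]
  exact sq_regK_le ha G v

lemma qform_bounds {β M : ℝ} (hβ : 0 ≤ β) {l : Fin N → ℝ} (hl : ∀ i, 0 ≤ l i ∧ l i ≤ M)
    (B : Matrix (Fin N) (Fin N) ℝ) (s : Fin N → Bool) :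
    0 ≤ qform β l B s ∧ qform β l B s ≤ β / 2 * (M * sq (B *ᵥ spin s)) := by
  refine ⟨mul_nonneg (by positivity) (Finset.sum_nonneg fun i _ =>
    mul_nonneg (hl i).1 (sq_nonneg _)), mul_le_mul_of_nonneg_left ?_ (by positivity)⟩
  rw [sq, Finset.mul_sum]
  exact Finset.sum_le_sum fun i _ => mul_le_mul_of_nonneg_right (hl i).2 (sq_nonneg _)

lemma press_nonneg {β M : ℝ} (hβ : 0 ≤ β) {l : Fin N → ℝ} (hl : ∀ i, 0 ≤ l i ∧ l i ≤ M)
    (B : Matrix (Fin N) (Fin N) ℝ) : 0 ≤ press β l B := by
  rw [press]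
  refine div_nonneg (Real.log_nonneg ?_) (Nat.cast_nonneg N)
  rw [le_div_iff₀ (by positivity), one_mul]
  calc (2 : ℝ) ^ N = ∑ _s : Fin N → Bool, (1 : ℝ) := by simp
    _ ≤ _ := Finset.sum_le_sum fun s _ => Real.one_le_exp (qform_bounds hβ hl B s).1

lemma press_le {β M : ℝ} (hN : 0 < N) (hβ : 0 ≤ β) (hM : 0 ≤ M) {l : Fin N → ℝ}
    (hl : ∀ i, 0 ≤ l i ∧ l i ≤ M) (B : Matrix (Fin N) (Fin N) ℝ)
    (hB : ∀ v, sq (B *ᵥ v) ≤ sq v) : press β l B ≤ β * M / 2 := by
  have h0 : press β l (0 : Matrix (Fin N) (Fin N) ℝ) = 0 := by simp [press]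
  have h := press_le_of β l B 0 (D := β / 2 * (M * N)) fun s => by
    refine (qform_bounds hβ hl B s).2.trans ?_
    have : qform β l (0 : Matrix (Fin N) (Fin N) ℝ) s = 0 := by simp [qform]
    rw [this, zero_add]
    exact mul_le_mul_of_nonneg_left
      (mul_le_mul_of_nonneg_left ((hB _).trans (le_of_eq (sq_spin s))) hM) (by positivity)
  rw [h0, zero_add] at h
  refine h.trans (le_of_eq ?_)
  field_simp

lemma press_convex {β : ℝ} (hβ : 0 ≤ β) {l : Fin N → ℝ} (hl : ∀ i, 0 ≤ l i)
    (B C : Matrix (Fin N) (Fin N) ℝ) {p q : ℝ} (hp : 0 ≤ p) (hq : 0 ≤ q) (hpq : p + q = 1) :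
    press β l (p • B + q • C) ≤ p * press β l B + q * press β l C := by
  obtain ⟨A, hA⟩ : ∃ A, A = p • B + q • C := ⟨_, rfl⟩
  have hconv : ∀ s, qform β l A s ≤ p * qform β l B s + q * qform β l C s := fun s => by
    simp only [qform, Finset.mul_sum, ← Finset.sum_add_distrib]
    refine Finset.sum_le_sum fun i _ => ?_
    have e : (A *ᵥ spin s) i = p * (B *ᵥ spin s) i + q * (C *ᵥ spin s) i := by
      rw [hA, add_mulVec, smul_mulVec, smul_mulVec]; rfl
    rw [e]
    have hc : (p * (B *ᵥ spin s) i + q * (C *ᵥ spin s) i) ^ 2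
        ≤ p * (B *ᵥ spin s) i ^ 2 + q * (C *ᵥ spin s) i ^ 2 := by
      have hpq' : q = 1 - p := by linarith
      subst hpq'
      nlinarith [mul_nonneg (mul_nonneg hp hq) (sq_nonneg ((B *ᵥ spin s) i - (C *ᵥ spin s) i))]
    have h0 : 0 ≤ β / 2 * l i := mul_nonneg (by positivity) (hl i)
    nlinarith [mul_le_mul_of_nonneg_left hc h0]
  rw [← hA, press_def, press_def, press_def]
  have hB := log_sum_exp_tangent (qform β l A) (qform β l B)
  have hC := log_sum_exp_tangent (qform β l A) (qform β l C)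
  have hZ : 0 < ∑ s, Real.exp (qform β l A s) :=
    Finset.sum_pos (fun _ _ => Real.exp_pos _) Finset.univ_nonempty
  have hpos : 0 ≤ p * ((∑ s, Real.exp (qform β l A s) * (qform β l B s - qform β l A s))
        / ∑ s, Real.exp (qform β l A s))
      + q * ((∑ s, Real.exp (qform β l A s) * (qform β l C s - qform β l A s))
        / ∑ s, Real.exp (qform β l A s)) := by
    rw [← mul_div_assoc, ← mul_div_assoc, ← add_div]
    refine div_nonneg ?_ hZ.le
    simp only [Finset.mul_sum, ← Finset.sum_add_distrib]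
    refine Finset.sum_nonneg fun s _ => ?_
    have hq' : q = 1 - p := by linarith
    subst hq'
    nlinarith [mul_nonneg (Real.exp_pos (qform β l A s)).le (sub_nonneg.2 (hconv s))]
  have h := add_le_add (mul_le_mul_of_nonneg_left hB hp) (mul_le_mul_of_nonneg_left hC hq)
  have hq' : q = 1 - p := by linarith
  subst hq'
  rw [← mul_div_assoc, ← mul_div_assoc, ← add_div]
  refine div_le_div_of_nonneg_right ?_ (Nat.cast_nonneg N)
  linarith

/-- The matrix of a vector indexed by pairs. -/
abbrev toMat (g : Fin N × Fin N → ℝ) : Matrix (Fin N) (Fin N) ℝ := Matrix.of fun i j => g (i, j)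

lemma frob_toMat_sub (g h : Fin N × Fin N → ℝ) : frob (toMat g - toMat h) = sq (g - h) := by
  simp only [frob, sq, toMat, Matrix.sub_apply, Matrix.of_apply, Pi.sub_apply, Fintype.sum_prod_type]

lemma abs_entry_le_frob {ι κ : Type*} [Fintype ι] [Fintype κ] (A : Matrix ι κ ℝ) (i : ι) (j : κ) :
    |A i j| ≤ Real.sqrt (frob A) := by
  refine Real.abs_le_sqrt ?_
  refine le_trans ?_ (Finset.single_le_sum (f := fun i => ∑ j, A i j ^ 2)
    (fun i _ => Finset.sum_nonneg fun j _ => sq_nonneg _) (Finset.mem_univ i))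
  exact Finset.single_le_sum (f := fun j => A i j ^ 2) (fun j _ => sq_nonneg _) (Finset.mem_univ j)

lemma continuous_of_frob {f : (Fin N × Fin N → ℝ) → Matrix (Fin N) (Fin N) ℝ} {c : ℝ} (hc : 0 ≤ c)
    (h : ∀ g g', frob (f g - f g') ≤ c * frob (toMat g - toMat g')) : Continuous f := by
  refine continuous_pi fun i => continuous_pi fun j => continuous_iff_continuousAt.2 fun g => ?_
  have hb : ∀ g', |f g' i j - f g i j| ≤ Real.sqrt (c * sq (g' - g)) := fun g' =>
    (abs_entry_le_frob (f g' - f g) i j).trans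
      (Real.sqrt_le_sqrt ((h g' g).trans_eq (by rw [frob_toMat_sub])))
  have ht : Filter.Tendsto (fun g' => Real.sqrt (c * sq (g' - g))) (nhds g) (nhds 0) := by
    have : Continuous fun g' : Fin N × Fin N → ℝ => Real.sqrt (c * sq (g' - g)) := by
      simp only [sq]; fun_prop
    simpa [sq] using this.tendsto g
  rw [ContinuousAt, tendsto_iff_norm_sub_tendsto_zero]
  exact squeeze_zero (fun _ => norm_nonneg _) hb ht

lemma continuous_regB {a : ℝ} (ha : 0 < a) :
    Continuous fun g : Fin N × Fin N → ℝ => regB a (toMat g) :=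
  continuous_of_frob (inv_nonneg.2 ha.le) fun g g' => by
    rw [inv_mul_eq_div]; exact regB_lip ha _ _

lemma continuous_regK {a : ℝ} (ha : 0 < a) :
    Continuous fun g : Fin N × Fin N → ℝ => regK a (toMat g) :=
  continuous_of_frob (c := 2 / a) (by positivity) fun g g' => by
    rw [div_mul_eq_mul_div]; exact regK_lip ha _ _

lemma continuous_press (β : ℝ) (l : Fin N → ℝ) : Continuous (press β l) := by
  unfold press
  refine ((Continuous.div_const ?_ _).log fun B => ?_).div_const _
  · refine continuous_finsetSum _ fun s _ => Real.continuous_exp.comp (continuous_const.mul ?_)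
    refine continuous_finsetSum _ fun i _ => continuous_const.mul (Continuous.pow ?_ 2)
    simp only [mulVec, dotProduct]
    exact continuous_finsetSum _ fun k _ => (continuous_id.matrix_elem i k).mul continuous_const
  · exact (div_pos (Finset.sum_pos (fun _ _ => Real.exp_pos _) Finset.univ_nonempty)
      (by positivity)).ne'

lemma gauss_mat_map (A B : OMat N) :
    (gauss (Fin N × Fin N)).map (fun g (p : Fin N × Fin N) =>
      ((A : Matrix (Fin N) (Fin N) ℝ) * toMat g * (B : Matrix (Fin N) (Fin N) ℝ)) p.1 p.2)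
      = gauss (Fin N × Fin N) := by
  have hB : (B : Matrix (Fin N) (Fin N) ℝ)ᵀ ∈ Matrix.orthogonalGroup (Fin N) ℝ := (B⁻¹ : OMat N).2
  have h := gauss_rot _ (Matrix.kronecker_mem_unitary A.2 hB)
  refine Eq.trans ?_ h
  congr 1
  funext g p
  obtain ⟨i, j⟩ := p
  simp only [mulVec, dotProduct, Fintype.sum_prod_type, Matrix.kroneckerMap_apply, Matrix.mul_apply,
    Matrix.of_apply, Matrix.transpose_apply, Finset.sum_mul]
  rw [Finset.sum_comm]
  exact Finset.sum_congr rfl fun k _ => Finset.sum_congr rfl fun m _ => by ring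

lemma integral_gauss_comp (A B : OMat N) (f : Matrix (Fin N) (Fin N) ℝ → ℝ)
    (hf : Continuous fun g : Fin N × Fin N → ℝ => f (toMat g)) :
    ∫ g, f ((A : Matrix (Fin N) (Fin N) ℝ) * toMat g * (B : Matrix (Fin N) (Fin N) ℝ))
        ∂gauss (Fin N × Fin N)
      = ∫ g, f (toMat g) ∂gauss (Fin N × Fin N) := by
  conv_rhs => rw [← gauss_mat_map A B]
  rw [integral_map ?_ hf.aestronglyMeasurable]
  · rfl
  · refine (continuous_pi fun p => ?_).aemeasurable
    simp only [Matrix.mul_apply, Matrix.of_apply]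
    fun_prop

lemma integral_haar_right (O : OMat N) (f : OMat N → ℝ) (hf : Continuous f) :
    ∫ U, f (U * O) ∂haarO N = ∫ U, f U ∂haarO N := by
  conv_rhs => rw [← (sub_haar (N := N)).right O (fun i hi => absurd hi (Finset.notMem_empty i))]
  rw [integral_map (continuous_mul_const O).aemeasurable hf.aestronglyMeasurable]

lemma integrable_gauss_bdd {f : (Fin N × Fin N → ℝ) → ℝ} (hf : Continuous f) {C : ℝ}
    (h : ∀ g, |f g| ≤ C) : Integrable f (gauss (Fin N × Fin N)) :=
  Integrable.of_bound hf.aestronglyMeasurable C (ae_of_all _ h)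

lemma continuous_UK {a : ℝ} (ha : 0 < a) (β : ℝ) (l : Fin N → ℝ) :
    Continuous fun p : OMat N × (Fin N × Fin N → ℝ) =>
      press β l ((p.1 : Matrix (Fin N) (Fin N) ℝ) * regK a (toMat p.2)) :=
  (continuous_press β l).comp
    ((continuous_subtype_val.comp continuous_fst).matrix_mul
      ((continuous_regK ha).comp continuous_snd))

lemma sq_UK_le {a : ℝ} (ha : 0 < a) (U : OMat N) (G : Matrix (Fin N) (Fin N) ℝ) (v : Fin N → ℝ) :
    sq (((U : Matrix (Fin N) (Fin N) ℝ) * regK a G) *ᵥ v) ≤ sq v := by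
  rw [← mulVec_mulVec, sq_orth]
  exact sq_regK_le ha G v

/-- The two representations of the regularised model. -/
lemma law_eq {β M a : ℝ} (hN : 0 < N) (hβ : 0 ≤ β) (hM : 0 ≤ M) (ha : 0 < a) {l : Fin N → ℝ}
    (hl : ∀ i, 0 ≤ l i ∧ l i ≤ M) {f : ℝ → ℝ} (hf : Continuous f) :
    ∫ g, f (press β l (regB a (toMat g))) ∂gauss (Fin N × Fin N)
      = ∫ g, ∫ U, f (press β l ((U : Matrix (Fin N) (Fin N) ℝ) * regK a (toMat g))) ∂haarO N
          ∂gauss (Fin N × Fin N) := by
  obtain ⟨C, hC⟩ := (isCompact_Icc (a := (0 : ℝ)) (b := β * M / 2)).exists_bound_of_continuousOn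
    hf.continuousOn
  simp only [Real.norm_eq_abs] at hC
  have hB : Continuous fun g : Fin N × Fin N → ℝ => f (press β l (regB a (toMat g))) :=
    hf.comp ((continuous_press β l).comp (continuous_regB ha))
  have h1 : ∀ U : OMat N, ∫ g, f (press β l (regB a (toMat g))) ∂gauss (Fin N × Fin N)
      = ∫ g, f (press β l ((U : Matrix (Fin N) (Fin N) ℝ) * regB a (toMat g)))
          ∂gauss (Fin N × Fin N) := fun U => by
    rw [← integral_gauss_comp U 1 (fun G => f (press β l (regB a G))) hB]
    refine integral_congr_ae (ae_of_all _ fun g => ?_)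
    simp only [OneMemClass.coe_one, mul_one, regB_left ha]
  have hj : Continuous (Function.uncurry fun (U : OMat N) (g : Fin N × Fin N → ℝ) =>
      f (press β l ((U : Matrix (Fin N) (Fin N) ℝ) * regB a (toMat g)))) :=
    hf.comp ((continuous_press β l).comp ((continuous_subtype_val.comp continuous_fst).matrix_mul
      ((continuous_regB ha).comp continuous_snd)))
  calc ∫ g, f (press β l (regB a (toMat g))) ∂gauss (Fin N × Fin N)
      = ∫ U, ∫ g, f (press β l ((U : Matrix (Fin N) (Fin N) ℝ) * regB a (toMat g)))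
          ∂gauss (Fin N × Fin N) ∂haarO N := by
        simp only [← h1, integral_const, probReal_univ, smul_eq_mul, one_mul]
    _ = ∫ g, ∫ U, f (press β l ((U : Matrix (Fin N) (Fin N) ℝ) * regB a (toMat g))) ∂haarO N
          ∂gauss (Fin N × Fin N) := by
        refine integral_integral_swap (Integrable.of_bound hj.aestronglyMeasurable C
          (ae_of_all _ fun p => hC _ ⟨press_nonneg hβ hl _, press_le hN hβ hM hl _ fun v => ?_⟩))
        rw [← mulVec_mulVec, sq_orth]
        exact sq_regB_le ha _ v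
    _ = _ := by
        refine integral_congr_ae (ae_of_all _ fun g => ?_)
        obtain ⟨O, hO⟩ := regB_polar ha (toMat g)
        simp only [hO, ← mul_assoc]
        refine integral_haar_right O
          (fun U => f (press β l ((U : Matrix (Fin N) (Fin N) ℝ) * regK a (toMat g)))) ?_
        exact hf.comp ((continuous_press β l).comp (continuous_subtype_val.matrix_mul continuous_const))

/-- A contraction in place of an orthogonal matrix lowers the mean pressure. -/
lemma contraction_le {β : ℝ} (hβ : 0 ≤ β) {l : Fin N → ℝ} (hl : ∀ i, 0 ≤ l i) (R : OMat N) :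
    ∀ (S : Finset (Fin N)) (d : Fin N → ℝ), (∀ i ∉ S, d i = 1 ∨ d i = -1) →
      (∀ i, |d i| ≤ 1) →
      ∫ U, press β l ((U : Matrix (Fin N) (Fin N) ℝ) * ((R : Matrix (Fin N) (Fin N) ℝ)ᵀ
          * diagonal d * (R : Matrix (Fin N) (Fin N) ℝ))) ∂haarO N
        ≤ ∫ U, pressure β l U ∂haarO N := by
  intro S
  induction S using Finset.induction_on with
  | empty =>
    intro d hd _
    have hO : (R : Matrix (Fin N) (Fin N) ℝ)ᵀ * diagonal d * (R : Matrix (Fin N) (Fin N) ℝ)
        ∈ Matrix.orthogonalGroup (Fin N) ℝ := by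
      refine mul_mem (mul_mem (R⁻¹ : OMat N).2 ?_) R.2
      rw [mem_orthogonalGroup_iff (n := Fin N) (R := ℝ), diagonal_transpose, diagonal_mul_diagonal,
        ← diagonal_one]
      congr 1
      funext i
      rcases hd i (Finset.notMem_empty i) with h | h <;> simp [h]
    obtain ⟨O, hO'⟩ : ∃ O : OMat N, (O : Matrix (Fin N) (Fin N) ℝ)
        = (R : Matrix (Fin N) (Fin N) ℝ)ᵀ * diagonal d * (R : Matrix (Fin N) (Fin N) ℝ) :=
      ⟨⟨_, hO⟩, rfl⟩
    simp only [← hO', ← MulMemClass.coe_mul, press_coe]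
    exact le_of_eq (integral_haar_right O (fun U => pressure β l U) (continuous_pressure β l))
  | insert j S hj ih =>
    intro d hd hd1
    obtain ⟨h0, h1⟩ := abs_le.1 (hd1 j)
    have hupd : ∀ e : ℝ, (e = 1 ∨ e = -1) →
        (∀ i ∉ S, Function.update d j e i = 1 ∨ Function.update d j e i = -1) ∧
        (∀ i, |Function.update d j e i| ≤ 1) := fun e he => by
      refine ⟨fun i hi => ?_, fun i => ?_⟩
      · by_cases hij : i = j
        · subst hij; simpa using he
        · rw [Function.update_of_ne hij]; exact hd i (by simp [hij, hi])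
      · by_cases hij : i = j
        · subst hij; rcases he with h | h <;> simp [h]
        · rw [Function.update_of_ne hij]; exact hd1 i
    have e : d = ((1 + d j) / 2) • Function.update d j 1 + ((1 - d j) / 2) • Function.update d j (-1) := by
      funext i
      by_cases hij : i = j
      · subst hij; simp; ring
      · simp [Function.update_of_ne hij]; ring
    have hp : 0 ≤ (1 + d j) / 2 := by linarith
    have hq : 0 ≤ (1 - d j) / 2 := by linarith
    have hint : ∀ e : Fin N → ℝ, Integrable (fun U : OMat N => press β l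
        ((U : Matrix (Fin N) (Fin N) ℝ) * ((R : Matrix (Fin N) (Fin N) ℝ)ᵀ * diagonal e
          * (R : Matrix (Fin N) (Fin N) ℝ)))) (haarO N) := fun e =>
      integrable_of_continuous
        ((continuous_press β l).comp (continuous_subtype_val.matrix_mul continuous_const))
    refine (integral_mono (hint d) (((hint (Function.update d j 1)).const_mul ((1 + d j) / 2)).add
      ((hint (Function.update d j (-1))).const_mul ((1 - d j) / 2)))
      fun U => ?_).trans ?_
    · refine le_trans (le_of_eq ?_) (press_convex hβ hl _ _ hp hq (by ring))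
      have hd' : diagonal d = ((1 + d j) / 2) • diagonal (Function.update d j 1)
          + ((1 - d j) / 2) • diagonal (Function.update d j (-1)) := by
        rw [← diagonal_smul, ← diagonal_smul, diagonal_add]
        exact congrArg diagonal e
      congr 1
      simp only [hd', mul_add, add_mul, Matrix.mul_smul, Matrix.smul_mul]
    · simp only [Pi.add_apply]
      rw [integral_add ((hint (Function.update d j 1)).const_mul ((1 + d j) / 2))
        ((hint (Function.update d j (-1))).const_mul ((1 - d j) / 2)), integral_const_mul,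
        integral_const_mul]
      obtain ⟨a1, a2⟩ := hupd 1 (Or.inl rfl)
      obtain ⟨b1, b2⟩ := hupd (-1) (Or.inr rfl)
      refine (add_le_add (mul_le_mul_of_nonneg_left (ih _ a1 a2) hp)
        (mul_le_mul_of_nonneg_left (ih _ b1 b2) hq)).trans (le_of_eq ?_)
      ring

lemma mean_regB_le {β M a : ℝ} (hN : 0 < N) (hβ : 0 ≤ β) (hM : 0 ≤ M) (ha : 0 < a) {l : Fin N → ℝ}
    (hl : ∀ i, 0 ≤ l i ∧ l i ≤ M) :
    ∫ g, press β l (regB a (toMat g)) ∂gauss (Fin N × Fin N) ≤ ∫ U, pressure β l U ∂haarO N := by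
  refine (law_eq hN hβ hM ha hl (f := fun x => x) continuous_id).trans_le ?_
  refine (integral_mono ?_ (integrable_const (∫ U, pressure β l U ∂haarO N)) fun g => ?_).trans
    (le_of_eq (by simp))
  · exact (Integrable.of_bound ((continuous_UK ha β l).comp continuous_swap).aestronglyMeasurable
      (β * M / 2) (ae_of_all _ fun p => by
        simp only [Function.uncurry]
        rw [Real.norm_eq_abs, abs_of_nonneg (press_nonneg hβ hl _)]
        exact press_le hN hβ hM hl _ (sq_UK_le ha _ _)) :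
      Integrable (Function.uncurry fun (g : Fin N × Fin N → ℝ) (U : OMat N) =>
        press β l ((U : Matrix (Fin N) (Fin N) ℝ) * regK a (toMat g)))
        ((gauss (Fin N × Fin N)).prod (haarO N))).integral_prod_left
  · obtain ⟨R, d, hd, hK⟩ := regK_spectral ha (toMat g)
    simp only [hK]
    exact contraction_le hβ (fun i => (hl i).1) R Finset.univ d
      (fun i hi => absurd (Finset.mem_univ i) hi)
      fun i => abs_le.2 ⟨by linarith [(hd i).1], (hd i).2⟩

/-- The sign matrix of a configuration. -/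
def signO (s : Fin N → Bool) : OMat N :=
  ⟨diagonal (spin s), by
    rw [mem_orthogonalGroup_iff (n := Fin N) (R := ℝ), diagonal_transpose, diagonal_mul_diagonal,
      ← diagonal_one]
    congr 1
    funext i
    unfold spin
    split_ifs <;> norm_num⟩

lemma frob_eq_avg (A : Matrix (Fin N) (Fin N) ℝ) :
    ∑ s : Fin N → Bool, sq (A *ᵥ spin s) = 2 ^ N * frob A := by
  have key : ∀ j k : Fin N, ∑ s : Fin N → Bool, spin s j * spin s k
      = if j = k then (2 : ℝ) ^ N else 0 := by
    intro j k
    split_ifs with h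
    · subst h
      have : ∀ s : Fin N → Bool, spin s j * spin s j = 1 := fun s => by
        unfold spin; split_ifs <;> norm_num
      simp [this]
    · refine Finset.sum_involution (fun s _ => Function.update s j (!s j)) ?_ ?_ ?_ ?_
      · intro s _
        have h1 : spin (Function.update s j (!s j)) j = -spin s j := by
          simp only [spin, Function.update_self]
          cases s j <;> norm_num
        have h2 : spin (Function.update s j (!s j)) k = spin s k := by
          simp [spin, Function.update_of_ne (Ne.symm h)]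
        rw [h1, h2]; ring
      · intro s _ _ he
        have := congrFun he j
        simp at this
      · intro s _; exact Finset.mem_univ _
      · intro s _; funext i
        by_cases hi : i = j
        · subst hi; simp
        · simp [Function.update_of_ne hi]
  simp only [sq, frob, mulVec, dotProduct, pow_two, Finset.sum_mul_sum]
  rw [Finset.sum_comm, Finset.mul_sum]
  refine Finset.sum_congr rfl fun i _ => ?_
  rw [Finset.sum_comm, Finset.mul_sum]
  refine Finset.sum_congr rfl fun j _ => ?_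
  rw [Finset.sum_comm]
  calc ∑ k, ∑ s : Fin N → Bool, A i j * spin s j * (A i k * spin s k)
      = ∑ k, A i j * A i k * ∑ s : Fin N → Bool, spin s j * spin s k :=
        Finset.sum_congr rfl fun k _ => by
          rw [Finset.mul_sum]; exact Finset.sum_congr rfl fun s _ => by ring
    _ = _ := by simp [key, mul_comm]

lemma continuous_defect {a : ℝ} (ha : 0 < a) (v : Fin N → ℝ) :
    Continuous fun g : Fin N × Fin N → ℝ => sq ((1 - regK a (toMat g)) *ᵥ v) := by
  have := (continuous_const.sub (continuous_regK ha)).matrix_mulVec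
    (continuous_const (y := v) : Continuous fun _ : Fin N × Fin N → ℝ => v)
    (A := fun g => 1 - regK a (toMat g))
  simp only [sq]
  exact continuous_finsetSum _ fun i _ => ((continuous_apply i).comp this).pow 2

lemma sq_defect_le {a : ℝ} (ha : 0 < a) (g : Fin N × Fin N → ℝ) (v : Fin N → ℝ) :
    sq ((1 - regK a (toMat g)) *ᵥ v) ≤ 4 * sq v := by
  rw [sub_mulVec, one_mulVec]
  have h := sq_regK_le ha (toMat g) v
  calc sq (v - regK a (toMat g) *ᵥ v)
      ≤ 2 * sq v + 2 * sq (regK a (toMat g) *ᵥ v) := by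
        simp only [sq, Finset.mul_sum, ← Finset.sum_add_distrib]
        refine Finset.sum_le_sum fun i _ => ?_
        rw [Pi.sub_apply]
        nlinarith [sq_nonneg (v i + (regK a (toMat g) *ᵥ v) i)]
    _ ≤ 4 * sq v := by linarith

/-- The mean defect is the same for every configuration. -/
lemma mean_defect {a : ℝ} (ha : 0 < a) (s : Fin N → Bool) :
    ∫ g, sq ((1 - regK a (toMat g)) *ᵥ spin s) ∂gauss (Fin N × Fin N)
      = ∫ g, frob (1 - regK a (toMat g)) ∂gauss (Fin N × Fin N) := by
  have hint : ∀ t : Fin N → Bool, Integrable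
      (fun g : Fin N × Fin N → ℝ => sq ((1 - regK a (toMat g)) *ᵥ spin t))
      (gauss (Fin N × Fin N)) := fun t =>
    integrable_gauss_bdd (continuous_defect ha _) fun g => by
      rw [abs_of_nonneg (Finset.sum_nonneg fun _ _ => sq_nonneg _)]
      exact sq_defect_le ha g _
  have heq : ∀ t : Fin N → Bool, ∫ g, sq ((1 - regK a (toMat g)) *ᵥ spin t) ∂gauss (Fin N × Fin N)
      = ∫ g, sq ((1 - regK a (toMat g)) *ᵥ fun _ => (1 : ℝ)) ∂gauss (Fin N × Fin N) := by
    intro t
    rw [← integral_gauss_comp 1 (signO t) (fun G => sq ((1 - regK a G) *ᵥ fun _ => (1 : ℝ)))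
      (continuous_defect ha _)]
    refine integral_congr_ae (ae_of_all _ fun g => ?_)
    simp only [OneMemClass.coe_one, one_mul, regK_right ha]
    have hD : (signO t : Matrix (Fin N) (Fin N) ℝ)ᵀ * (signO t : Matrix (Fin N) (Fin N) ℝ) = 1 :=
      (mem_orthogonalGroup_iff' (n := Fin N) (R := ℝ)).1 (signO t).2
    have e : (1 : Matrix (Fin N) (Fin N) ℝ)
        - (signO t : Matrix (Fin N) (Fin N) ℝ)ᵀ * regK a (toMat g) * (signO t : Matrix (Fin N) (Fin N) ℝ)
        = (signO t : Matrix (Fin N) (Fin N) ℝ)ᵀ * (1 - regK a (toMat g))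
          * (signO t : Matrix (Fin N) (Fin N) ℝ) := by
      rw [mul_sub, sub_mul, mul_one, hD]
    rw [e, ← mulVec_mulVec, ← mulVec_mulVec]
    rw [show ((signO t : Matrix (Fin N) (Fin N) ℝ))ᵀ
        = (((signO t)⁻¹ : OMat N) : Matrix (Fin N) (Fin N) ℝ) from rfl, sq_orth]
    congr 2
    funext i
    simp [signO, mulVec_diagonal]
  have hsum := congrArg (fun f : (Fin N × Fin N → ℝ) → ℝ => ∫ g, f g ∂gauss (Fin N × Fin N))
    (funext fun g : Fin N × Fin N → ℝ => frob_eq_avg (1 - regK a (toMat g)))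
  simp only [integral_finsetSum _ fun t _ => hint t, integral_const_mul, heq, Finset.sum_const,
    Finset.card_univ, Fintype.card_fun, Fintype.card_fin, Fintype.card_bool, nsmul_eq_mul,
    Nat.cast_pow, Nat.cast_ofNat] at hsum
  rw [heq s]
  exact mul_left_cancel₀ (pow_ne_zero N two_ne_zero) hsum

/-- Conditionally on the eigenbasis the regularisation rarely lowers the pressure by `θ`. -/
lemma half_close {β M a θ t : ℝ} (hN : 0 < N) (hβ : 0 ≤ β) (hM : 0 ≤ M) (ha : 0 < a) (hθ : 0 < θ)
    (ht : 0 < t) {l : Fin N → ℝ} (hl : ∀ i, 0 ≤ l i ∧ l i ≤ M) (htθ : β * M * t / 2 ≤ θ / 2)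
    (hd : β * M / (2 * t * N) * ∫ g, frob (1 - regK a (toMat g)) ∂gauss (Fin N × Fin N) ≤ θ / 4)
    (U : OMat N) :
    1 / 2 ≤ (gauss (Fin N × Fin N)).real {g | pressure β l U - θ
      ≤ press β l ((U : Matrix (Fin N) (Fin N) ℝ) * regK a (toMat g))} := by
  obtain ⟨Z, hZ⟩ : ∃ Z, Z = ∑ s, Real.exp (qform β l (U : Matrix (Fin N) (Fin N) ℝ) s) := ⟨_, rfl⟩
  have hZ0 : 0 < Z := hZ ▸ Finset.sum_pos (fun _ _ => Real.exp_pos _) Finset.univ_nonempty
  obtain ⟨w, hw⟩ : ∃ w : (Fin N → Bool) → ℝ,
      w = fun s => Real.exp (qform β l (U : Matrix (Fin N) (Fin N) ℝ) s) / Z := ⟨_, rfl⟩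
  have hw0 : ∀ s, 0 ≤ w s := fun s => hw ▸ div_nonneg (Real.exp_pos _).le hZ0.le
  have hw1 : ∑ s, w s = 1 := by rw [hw, ← Finset.sum_div, ← hZ, div_self hZ0.ne']
  obtain ⟨X, hX⟩ : ∃ X : (Fin N × Fin N → ℝ) → ℝ, X = fun g =>
      β * M / (2 * t * N) * ∑ s, w s * sq ((1 - regK a (toMat g)) *ᵥ spin s) := ⟨_, rfl⟩
  have hNR : (0 : ℝ) < N := Nat.cast_pos.2 hN
  have key : ∀ g, pressure β l U - θ / 2 - X g
      ≤ press β l ((U : Matrix (Fin N) (Fin N) ℝ) * regK a (toMat g)) := by
    intro g
    obtain ⟨B, hB⟩ : ∃ B, B = (U : Matrix (Fin N) (Fin N) ℝ) * regK a (toMat g) := ⟨_, rfl⟩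
    have hstep : ∀ s, -(β * M / 2 * (t * N + sq ((1 - regK a (toMat g)) *ᵥ spin s) / t))
        ≤ qform β l B s - qform β l (U : Matrix (Fin N) (Fin N) ℝ) s := by
      intro s
      have e : B *ᵥ spin s = (U : Matrix (Fin N) (Fin N) ℝ) *ᵥ spin s
          - (U : Matrix (Fin N) (Fin N) ℝ) *ᵥ ((1 - regK a (toMat g)) *ᵥ spin s) := by
        rw [hB, mulVec_mulVec, mul_sub, mul_one, sub_mulVec, sub_sub_cancel]
      have h1 : -(β * M / 2 * (t * N + sq ((1 - regK a (toMat g)) *ᵥ spin s) / t))
          = -(β / 2 * ∑ i, M * (t * ((U : Matrix (Fin N) (Fin N) ℝ) *ᵥ spin s) i ^ 2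
            + ((U : Matrix (Fin N) (Fin N) ℝ) *ᵥ ((1 - regK a (toMat g)) *ᵥ spin s)) i ^ 2 / t)) := by
        simp only [← Finset.mul_sum, Finset.sum_add_distrib, ← Finset.sum_div]
        rw [← sq, ← sq, sq_orth, sq_orth, sq_spin]
        ring
      rw [h1, qform, qform, ← mul_sub, ← Finset.sum_sub_distrib, ← mul_neg, ← Finset.sum_neg_distrib]
      refine mul_le_mul_of_nonneg_left (Finset.sum_le_sum fun i _ => ?_) (by positivity)
      rw [e, Pi.sub_apply]
      obtain ⟨x, hx⟩ : ∃ x, x = ((U : Matrix (Fin N) (Fin N) ℝ) *ᵥ spin s) i := ⟨_, rfl⟩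
      obtain ⟨y, hy⟩ : ∃ y, y = ((U : Matrix (Fin N) (Fin N) ℝ)
        *ᵥ ((1 - regK a (toMat g)) *ᵥ spin s)) i := ⟨_, rfl⟩
      rw [← hx, ← hy]
      have hxy : 2 * |x * y| ≤ t * x ^ 2 + y ^ 2 / t := by
        have h4 : t * x ^ 2 + y ^ 2 / t - 2 * |x * y| = (t * |x| - |y|) ^ 2 / t := by
          rw [← sq_abs x, ← sq_abs y, abs_mul]; field_simp; ring
        have : 0 ≤ (t * |x| - |y|) ^ 2 / t := by positivity
        linarith
      have h5 := mul_le_mul_of_nonneg_left hxy hM
      have h6 : l i * (2 * |x * y|) ≤ M * (2 * |x * y|) :=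
        mul_le_mul_of_nonneg_right (hl i).2 (by positivity)
      have h7 := mul_le_mul_of_nonneg_left (le_abs_self (x * y)) (hl i).1
      have h8 : 0 ≤ l i * y ^ 2 := mul_nonneg (hl i).1 (sq_nonneg y)
      linarith
    have h := log_sum_exp_tangent (qform β l (U : Matrix (Fin N) (Fin N) ℝ)) (qform β l B)
    rw [← hZ] at h
    have h2 : -(β * M / 2 * (t * N + (∑ s, w s * sq ((1 - regK a (toMat g)) *ᵥ spin s)) / t))
        ≤ (∑ s, Real.exp (qform β l (U : Matrix (Fin N) (Fin N) ℝ) s)
          * (qform β l B s - qform β l (U : Matrix (Fin N) (Fin N) ℝ) s)) / Z := by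
      rw [Finset.sum_div (s := Finset.univ) (a := Z)]
      refine le_trans (le_of_eq ?_) (Finset.sum_le_sum fun s _ =>
        (mul_le_mul_of_nonneg_left (hstep s) (hw0 s)).trans_eq (show w s * _
          = Real.exp (qform β l (U : Matrix (Fin N) (Fin N) ℝ) s)
            * (qform β l B s - qform β l (U : Matrix (Fin N) (Fin N) ℝ) s) / Z by rw [hw]; ring))
      simp only [mul_neg, Finset.sum_neg_distrib, mul_add, Finset.sum_add_distrib, ← Finset.sum_mul,
        hw1, one_mul, Finset.sum_div, Finset.mul_sum]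
      congr 2
      exact Finset.sum_congr rfl fun s _ => by ring
    rw [← press_coe, ← hB, press_def, press_def, hX, ← hZ]
    rw [← hZ] at *
    have h3 : (Real.log Z - Real.log (2 ^ N)) / N
        - β * M / 2 * (t * N + (∑ s, w s * sq ((1 - regK a (toMat g)) *ᵥ spin s)) / t) / N
        ≤ (Real.log (∑ s, Real.exp (qform β l B s)) - Real.log (2 ^ N)) / N := by
      rw [div_sub_div_same]
      exact div_le_div_of_nonneg_right (by linarith) hNR.le
    have h4 : β * M / 2 * (t * N + (∑ s, w s * sq ((1 - regK a (toMat g)) *ᵥ spin s)) / t) / N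
        = β * M * t / 2
          + β * M / (2 * t * N) * ∑ s, w s * sq ((1 - regK a (toMat g)) *ᵥ spin s) := by
      field_simp
    rw [h4] at h3
    simp only
    linarith
  have hXi : Integrable X (gauss (Fin N × Fin N)) := by
    rw [hX]
    exact ((integrable_finsetSum _ fun s _ => (integrable_gauss_bdd (continuous_defect ha (spin s))
      fun g => by
        rw [abs_of_nonneg (Finset.sum_nonneg fun _ _ => sq_nonneg _)]
        exact sq_defect_le ha g _).const_mul _)).const_mul _
  have hX0 : ∀ g, 0 ≤ X g := fun g => hX ▸ mul_nonneg (by positivity) (Finset.sum_nonneg fun s _ =>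
    mul_nonneg (hw0 s) (Finset.sum_nonneg fun _ _ => sq_nonneg _))
  have hEX : ∫ g, X g ∂gauss (Fin N × Fin N) ≤ θ / 4 := by
    refine le_trans (le_of_eq ?_) hd
    simp only [hX]
    rw [integral_const_mul, integral_finsetSum _ fun s _ => ((integrable_gauss_bdd
      (continuous_defect ha (spin s)) fun g => by
        rw [abs_of_nonneg (Finset.sum_nonneg fun _ _ => sq_nonneg _)]
        exact sq_defect_le ha g _).const_mul _)]
    simp only [integral_const_mul, mean_defect ha, ← Finset.sum_mul, hw1, one_mul]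
  have hmk := mul_meas_ge_le_integral_of_nonneg (ae_of_all _ hX0) hXi (θ / 2)
  have hmeas : MeasurableSet {g | θ / 2 ≤ X g} :=
    measurableSet_le measurable_const (by
      rw [hX]
      exact (continuous_const.mul (continuous_finsetSum _ fun s _ =>
        continuous_const.mul (continuous_defect ha _))).measurable)
  have hsub : {g | θ / 2 ≤ X g}ᶜ ⊆ {g | pressure β l U - θ
      ≤ press β l ((U : Matrix (Fin N) (Fin N) ℝ) * regK a (toMat g))} := by
    intro g hg
    simp only [Set.mem_compl_iff, Set.mem_ofPred_eq, not_le] at hg ⊢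
    linarith [key g]
  refine le_trans ?_ (measureReal_mono hsub)
  rw [measureReal_compl hmeas, probReal_univ]
  nlinarith [hmk, hEX]

/-- A continuous step. -/
def ramp (c θ x : ℝ) : ℝ := max 0 (min 1 ((x - c) / θ))

lemma ramp_bounds (c θ x : ℝ) : 0 ≤ ramp c θ x ∧ ramp c θ x ≤ 1 :=
  ⟨le_max_left _ _, max_le zero_le_one (min_le_left _ _)⟩

lemma continuous_ramp (c θ : ℝ) : Continuous (ramp c θ) := by unfold ramp; fun_prop

lemma ramp_eq_one {c θ x : ℝ} (hθ : 0 < θ) (h : c + θ ≤ x) : ramp c θ x = 1 := by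
  rw [ramp, min_eq_left ((one_le_div hθ).2 (by linarith)), max_eq_right zero_le_one]

lemma ramp_eq_zero {c θ x : ℝ} (hθ : 0 < θ) (h : x < c) : ramp c θ x = 0 := by
  rw [ramp, max_eq_left]
  exact (min_le_right _ _).trans (div_nonpos_of_nonpos_of_nonneg (by linarith) hθ.le)

lemma integral_le_measure {α : Type*} [MeasurableSpace α] {m : Measure α} [IsProbabilityMeasure m]
    {f : α → ℝ} {s : Set α} (hs : MeasurableSet s) (hf : Integrable f m) (h1 : ∀ x, f x ≤ 1)
    (h0 : ∀ x ∉ s, f x ≤ 0) : ∫ x, f x ∂m ≤ m.real s := by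
  rw [← integral_indicator_one hs]
  refine integral_mono hf ((integrable_const 1).indicator hs) fun x => ?_
  by_cases hx : x ∈ s
  · simpa [hx] using h1 x
  · simpa [hx] using h0 x hx

lemma measure_le_integral {α : Type*} [MeasurableSpace α] {m : Measure α} [IsProbabilityMeasure m]
    {f : α → ℝ} {s : Set α} (hs : MeasurableSet s) (hf : Integrable f m) (h1 : ∀ x ∈ s, 1 ≤ f x)
    (h0 : ∀ x, 0 ≤ f x) : m.real s ≤ ∫ x, f x ∂m := by
  rw [← integral_indicator_one hs]
  refine integral_mono ((integrable_const 1).indicator hs) hf fun x => ?_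
  by_cases hx : x ∈ s
  · simpa [hx] using h1 x hx
  · simpa [hx] using h0 x

lemma press_lip {β M a : ℝ} (hN : 0 < N) (hβ : 0 ≤ β) (hM : 0 ≤ M) (ha : 0 < a) {l : Fin N → ℝ}
    (hl : ∀ i, 0 ≤ l i ∧ l i ≤ M) (g g' : Fin N × Fin N → ℝ) :
    |press β l (regB a (toMat g)) - press β l (regB a (toMat g'))|
      ≤ (β * M + 1) / Real.sqrt a * Real.sqrt (sq (g - g')) := by
  have one : ∀ g g' : Fin N × Fin N → ℝ,
      press β l (regB a (toMat g)) - press β l (regB a (toMat g'))
        ≤ β * M / Real.sqrt a * Real.sqrt (sq (g - g')) := by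
    intro g g'
    have hNR : (0 : ℝ) < N := Nat.cast_pos.2 hN
    obtain ⟨F, hF⟩ : ∃ F, F = frob (regB a (toMat g) - regB a (toMat g')) := ⟨_, rfl⟩
    have h := press_le_of β l (regB a (toMat g)) (regB a (toMat g'))
      (D := β * M * (Real.sqrt F * N)) fun s => by
        rw [qform, qform, ← sub_le_iff_le_add', ← mul_sub, ← Finset.sum_sub_distrib]
        obtain ⟨x, hx⟩ : ∃ x, x = regB a (toMat g) *ᵥ spin s := ⟨_, rfl⟩
        obtain ⟨y, hy⟩ : ∃ y, y = regB a (toMat g') *ᵥ spin s := ⟨_, rfl⟩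
        rw [← hx, ← hy]
        have hx1 : sq x ≤ N := hx ▸ (sq_regB_le ha _ _).trans_eq (sq_spin s)
        have hy1 : sq y ≤ N := hy ▸ (sq_regB_le ha _ _).trans_eq (sq_spin s)
        have hd : sq (x - y) ≤ F * N := by
          rw [hx, hy, ← sub_mulVec, hF]
          exact (mulVec_sq_le _ _).trans_eq (by rw [sq_spin])
        have h1 : ∀ i, l i * x i ^ 2 - l i * y i ^ 2 ≤ M * (|x i - y i| * (|x i| + |y i|)) := by
          intro i
          have e : l i * x i ^ 2 - l i * y i ^ 2 = l i * ((x i - y i) * (x i + y i)) := by ring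
          rw [e]
          refine (mul_le_mul_of_nonneg_left (le_abs_self _) (hl i).1).trans ?_
          rw [abs_mul]
          exact mul_le_mul (hl i).2 (mul_le_mul_of_nonneg_left (abs_add_le _ _) (abs_nonneg _))
            (by positivity) hM
        refine (mul_le_mul_of_nonneg_left (Finset.sum_le_sum fun i _ => h1 i) (by positivity)).trans ?_
        rw [← Finset.mul_sum]
        have hcs : ∀ z : Fin N → ℝ, sq z ≤ N →
            ∑ i, |x i - y i| * |z i| ≤ Real.sqrt F * N := by
          intro z hz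
          refine (Real.sum_mul_le_sqrt_mul_sqrt Finset.univ _ _).trans ?_
          simp only [sq_abs]
          calc Real.sqrt (sq (x - y)) * Real.sqrt (sq z)
              ≤ Real.sqrt (F * N) * Real.sqrt N :=
                mul_le_mul (Real.sqrt_le_sqrt hd) (Real.sqrt_le_sqrt hz) (Real.sqrt_nonneg _)
                  (Real.sqrt_nonneg _)
            _ = Real.sqrt F * N := by
                rw [Real.sqrt_mul' F hNR.le, mul_assoc, Real.mul_self_sqrt hNR.le]
        have h2 : ∑ i, |x i - y i| * (|x i| + |y i|) ≤ 2 * (Real.sqrt F * N) := by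
          simp only [mul_add, Finset.sum_add_distrib]
          linarith [hcs x hx1, hcs y hy1]
        calc β / 2 * (M * ∑ i, |x i - y i| * (|x i| + |y i|))
            ≤ β / 2 * (M * (2 * (Real.sqrt F * N))) :=
              mul_le_mul_of_nonneg_left (mul_le_mul_of_nonneg_left h2 hM) (by positivity)
          _ = β * M * (Real.sqrt F * N) := by ring
    have h2 : Real.sqrt F ≤ Real.sqrt (sq (g - g')) / Real.sqrt a := by
      rw [← Real.sqrt_div' _ ha.le, ← frob_toMat_sub, hF]
      exact Real.sqrt_le_sqrt (regB_lip ha _ _)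
    rw [show β * M * (Real.sqrt F * N) / N = β * M * Real.sqrt F by field_simp] at h
    calc press β l (regB a (toMat g)) - press β l (regB a (toMat g'))
        ≤ β * M * Real.sqrt F := by linarith
      _ ≤ β * M * (Real.sqrt (sq (g - g')) / Real.sqrt a) :=
          mul_le_mul_of_nonneg_left h2 (by positivity)
      _ = _ := by ring
  have hs : sq (g' - g) = sq (g - g') := by
    simp only [sq, Pi.sub_apply]; exact Finset.sum_congr rfl fun i _ => by ring
  have hle : β * M / Real.sqrt a * Real.sqrt (sq (g - g'))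
      ≤ (β * M + 1) / Real.sqrt a * Real.sqrt (sq (g - g')) :=
    mul_le_mul_of_nonneg_right (div_le_div_of_nonneg_right (by linarith) (Real.sqrt_nonneg _))
      (Real.sqrt_nonneg _)
  refine abs_sub_le_iff.2 ⟨(one g g').trans hle, ?_⟩
  have := one g' g
  rw [hs] at this
  exact this.trans hle

/-- The core estimate: exponentially unlikely values above the mean. -/
lemma upper_core {β : ℝ} (hβ : 0 ≤ β) (M θ : ℝ) (hM : 0 ≤ M) (hθ : 0 < θ) :
    ∃ c > 0, ∀ N : ℕ, 0 < N → ∀ l : Fin N → ℝ, (∀ i, 0 ≤ l i ∧ l i ≤ M) → ∀ S : ℝ,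
      ∫ U, pressure β l U ∂haarO N + 3 * θ ≤ S →
        (haarO N).real {U | S ≤ pressure β l U} ≤ 2 * Real.exp (-(c * N)) := by
  obtain ⟨t, ht, htθ⟩ : ∃ t, 0 < t ∧ β * M * t / 2 ≤ θ / 2 :=
    ⟨θ / (β * M + 1), by positivity, by
      rw [div_le_div_iff_of_pos_right two_pos, ← mul_div_assoc, div_le_iff₀ (by positivity)]
      nlinarith⟩
  obtain ⟨ε, hε, hdef⟩ := defect_small (θ * t / (2 * (β * M + 1))) (by positivity)
  refine ⟨2 * θ ^ 2 * ε / (Real.pi ^ 2 * (β * M + 1) ^ 2), by positivity, fun N hN l hl S hS => ?_⟩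
  have hNR : (0 : ℝ) < N := Nat.cast_pos.2 hN
  have ha : 0 < ε * N := by positivity
  have hd : β * M / (2 * t * N)
      * ∫ g, frob (1 - regK (ε * N) (toMat g)) ∂gauss (Fin N × Fin N) ≤ θ / 4 := by
    refine (mul_le_mul_of_nonneg_left (hdef N hN) (by positivity)).trans ?_
    calc β * M / (2 * t * N) * (θ * t / (2 * (β * M + 1)) * N)
        = β * M / (β * M + 1) * (θ / 4) := by field_simp; ring
      _ ≤ θ / 4 := mul_le_of_le_one_left (by positivity)
          ((div_le_one (by positivity)).2 (by linarith))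
  obtain ⟨f, hf⟩ : ∃ f, f = ramp (S - 2 * θ) θ := ⟨_, rfl⟩
  have hfc : Continuous f := hf ▸ continuous_ramp _ _
  have hlaw := law_eq hN hβ hM ha hl hfc
  have hPc : MeasurableSet {U : OMat N | S ≤ pressure β l U} :=
    measurableSet_le measurable_const (continuous_pressure β l).measurable
  have hBc : Continuous fun g : Fin N × Fin N → ℝ => press β l (regB (ε * N) (toMat g)) :=
    (continuous_press β l).comp (continuous_regB ha)
  -- the left side is at most the tail of the regularised model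
  have h1 : ∫ g, f (press β l (regB (ε * N) (toMat g))) ∂gauss (Fin N × Fin N)
      ≤ (gauss (Fin N × Fin N)).real {g | S - 2 * θ ≤ press β l (regB (ε * N) (toMat g))} := by
    refine integral_le_measure (measurableSet_le measurable_const hBc.measurable)
      (integrable_gauss_bdd (hfc.comp hBc) (C := 1) fun g => ?_) (fun g => ?_) fun g hg => ?_
    · rw [hf, abs_of_nonneg (ramp_bounds _ _ _).1]; exact (ramp_bounds _ _ _).2
    · rw [hf]; exact (ramp_bounds _ _ _).2
    · rw [hf, ramp_eq_zero hθ (by simp only [Set.mem_ofPred_eq, not_le] at hg; exact hg)]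
  have h2 : (haarO N).real {U | S ≤ pressure β l U} / 2
      ≤ ∫ g, f (press β l (regB (ε * N) (toMat g))) ∂gauss (Fin N × Fin N) := by
    have hj : Integrable (Function.uncurry fun (g : Fin N × Fin N → ℝ) (U : OMat N) =>
        f (press β l ((U : Matrix (Fin N) (Fin N) ℝ) * regK (ε * N) (toMat g))))
        ((gauss (Fin N × Fin N)).prod (haarO N)) :=
      Integrable.of_bound (hfc.comp ((continuous_UK ha β l).comp continuous_swap)).aestronglyMeasurable
        1 (ae_of_all _ fun p => by
          simp only [Function.uncurry, Real.norm_eq_abs, hf]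
          rw [abs_of_nonneg (ramp_bounds _ _ _).1]; exact (ramp_bounds _ _ _).2)
    rw [hlaw, integral_integral_swap hj]
    rw [← integral_indicator_one hPc, ← integral_div]
    refine integral_mono (((integrable_const 1).indicator hPc).div_const 2)
      hj.integral_prod_right fun U => ?_
    have hnn : ∀ g, 0 ≤ f (press β l ((U : Matrix (Fin N) (Fin N) ℝ) * regK (ε * N) (toMat g))) :=
      fun g => hf ▸ (ramp_bounds _ _ _).1
    by_cases hU : S ≤ pressure β l U
    · rw [Set.indicator_of_mem (show U ∈ {U | S ≤ pressure β l U} from hU), Pi.one_apply]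
      have hc : Continuous fun g : Fin N × Fin N → ℝ =>
          press β l ((U : Matrix (Fin N) (Fin N) ℝ) * regK (ε * N) (toMat g)) :=
        (continuous_press β l).comp (continuous_const.matrix_mul (continuous_regK ha))
      refine le_trans ?_ (measure_le_integral (s := {g | pressure β l U - θ
          ≤ press β l ((U : Matrix (Fin N) (Fin N) ℝ) * regK (ε * N) (toMat g))})
        (measurableSet_le measurable_const hc.measurable)
        (integrable_gauss_bdd (hfc.comp hc) (C := 1) fun g => by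
          rw [abs_of_nonneg (hnn g), hf]; exact (ramp_bounds _ _ _).2) (fun g hg => ?_) hnn)
      · exact half_close hN hβ hM ha hθ ht hl htθ hd U
      · rw [hf, ramp_eq_one hθ]
        simp only [Set.mem_ofPred_eq] at hg
        linarith
    · rw [Set.indicator_of_notMem (show U ∉ {U | S ≤ pressure β l U} from hU), zero_div]
      exact integral_nonneg hnn
  have hm := mean_regB_le hN hβ hM ha hl
  have h3 : (gauss (Fin N × Fin N)).real {g | S - 2 * θ ≤ press β l (regB (ε * N) (toMat g))}
      ≤ Real.exp (-(2 * θ ^ 2 * ε / (Real.pi ^ 2 * (β * M + 1) ^ 2) * N)) := by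
    refine le_trans (measureReal_mono ?_) ((gauss_upper (L := (β * M + 1) / Real.sqrt (ε * N))
      (by positivity) (press_lip hN hβ hM ha hl) θ hθ.le).trans_eq ?_)
    · intro g hg
      simp only [Set.mem_ofPred_eq] at hg ⊢
      linarith
    · rw [div_pow, Real.sq_sqrt ha.le]
      congr 1
      field_simp
  linarith

lemma pressure_shift (β c : ℝ) (hN : 0 < N) (l : Fin N → ℝ) (U : OMat N) :
    pressure β (fun i => l i + c) U = pressure β l U + β * c / 2 := by
  rw [pressure_eq, pressure_eq]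
  have h : ∀ s, wt β (fun i => l i + c) U s = Real.exp (β / 2 * c * N) * wt β l U s := fun s => by
    rw [wt, wt, ← Real.exp_add]
    congr 1
    rw [← sum_coord U s, Finset.mul_sum, Finset.mul_sum, Finset.mul_sum, ← Finset.sum_add_distrib]
    exact Finset.sum_congr rfl fun i _ => by ring
  have hNR : (0 : ℝ) < N := Nat.cast_pos.2 hN
  simp only [h, ← Finset.mul_sum, mul_div_assoc]
  rw [Real.log_mul (Real.exp_ne_zero _) (div_pos (sum_wt_pos β l U) (by positivity)).ne', Real.log_exp]
  field_simp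
  ring

lemma integral_shift (β c : ℝ) (hN : 0 < N) (l : Fin N → ℝ) :
    ∫ U, pressure β (fun i => l i + c) U ∂haarO N = ∫ U, pressure β l U ∂haarO N + β * c / 2 := by
  simp only [pressure_shift β c hN l]
  rw [integral_add (integrable_of_continuous (continuous_pressure β l)) (integrable_const _)]
  simp

theorem self_averaging {β : ℝ} (hβ : 0 ≤ β) (M δ : ℝ) (hδ : 0 < δ) :
    ∃ N0 : ℕ, ∀ N ≥ N0, ∀ l : Fin N → ℝ, (∀ i, |l i| ≤ M) →
      ∫ U, |pressure β l U - ∫ V, pressure β l V ∂haarO N| ∂haarO N ≤ δ := by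
  obtain ⟨c, hc, hcore⟩ := upper_core hβ (2 * |M|) (δ / 12) (by positivity) (by positivity)
  obtain ⟨N0, hN0⟩ := exists_nat_gt (4 * β * (2 * |M|) / (δ * c))
  refine ⟨N0 + 1, fun N hN l hl => ?_⟩
  have hNp : 0 < N := by omega
  obtain ⟨l', hl'⟩ : ∃ l' : Fin N → ℝ, l' = fun i => l i + |M| := ⟨_, rfl⟩
  have hl0 : ∀ i, 0 ≤ l' i ∧ l' i ≤ 2 * |M| := fun i => by
    have h2 := abs_le.1 (hl i)
    have h3 := le_abs_self M
    subst hl'
    exact ⟨by linarith [h2.1], by linarith [h2.2]⟩
  have hP : ∀ U, pressure β l U - ∫ V, pressure β l V ∂haarO N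
      = pressure β l' U - ∫ V, pressure β l' V ∂haarO N := fun U => by
    rw [hl', pressure_shift _ _ hNp, integral_shift _ _ hNp]; ring
  simp only [hP]
  obtain ⟨E, hE⟩ : ∃ E, E = ∫ V, pressure β l' V ∂haarO N := ⟨_, rfl⟩
  rw [← hE]
  have hb : ∀ U, 0 ≤ pressure β l' U ∧ pressure β l' U ≤ β * (2 * |M|) / 2 := fun U => by
    rw [← press_coe]
    exact ⟨press_nonneg hβ hl0 _,
      press_le hNp hβ (by positivity) hl0 _ fun v => (sq_orth U v).le⟩
  have hi := integrable_of_continuous (continuous_pressure β l')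
  have hE0 : 0 ≤ E := hE ▸ integral_nonneg fun U => (hb U).1
  have hset : MeasurableSet {U : OMat N | E + 3 * (δ / 12) ≤ pressure β l' U} :=
    measurableSet_le measurable_const (continuous_pressure β l').measurable
  have hpt : ∀ U, |pressure β l' U - E| ≤ 2 * (δ / 4) + 2 * (β * (2 * |M|) / 2
      * ({U : OMat N | E + 3 * (δ / 12) ≤ pressure β l' U}).indicator (fun _ => (1 : ℝ)) U)
      - (pressure β l' U - E) := by
    intro U
    by_cases hU : E + 3 * (δ / 12) ≤ pressure β l' U
    · rw [Set.indicator_of_mem (show U ∈ {U : OMat N | E + 3 * (δ / 12) ≤ pressure β l' U} from hU),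
        abs_of_nonneg (by linarith)]
      linarith [(hb U).2]
    · rw [Set.indicator_of_notMem (show U ∉ {U : OMat N | E + 3 * (δ / 12) ≤ pressure β l' U} from hU)]
      rcases abs_cases (pressure β l' U - E) with ⟨e, _⟩ | ⟨e, _⟩ <;> rw [e] <;> linarith [not_le.1 hU]
  have hint2 : Integrable (fun U => 2 * (δ / 4) + 2 * (β * (2 * |M|) / 2
      * ({U : OMat N | E + 3 * (δ / 12) ≤ pressure β l' U}).indicator (fun _ => (1 : ℝ)) U))
      (haarO N) :=
    (integrable_const _).add ((((integrable_const _).indicator hset).const_mul _).const_mul _)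
  refine (integral_mono (hi.sub (integrable_const E)).abs (hint2.sub (hi.sub (integrable_const E)))
    hpt).trans ?_
  simp only [Pi.sub_apply]
  rw [integral_sub hint2 (hi.sub' (integrable_const E)), integral_sub hi (integrable_const E),
    integral_add (integrable_const _) ((((integrable_const _).indicator hset).const_mul _).const_mul _),
    ← hE]
  simp only [integral_const_mul, integral_indicator_const _ hset, integral_const, probReal_univ, smul_eq_mul, one_mul, mul_one, sub_self, sub_zero]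
  have hp := hcore N hNp l' hl0 (E + 3 * (δ / 12)) (by rw [hE])
  have hex : Real.exp (-(c * N)) * (c * N) ≤ 1 := by
    have h1 : c * (N : ℝ) ≤ Real.exp (c * N) := by linarith [Real.add_one_le_exp (c * (N : ℝ))]
    calc Real.exp (-(c * N)) * (c * N) ≤ Real.exp (-(c * N)) * Real.exp (c * N) :=
          mul_le_mul_of_nonneg_left h1 (Real.exp_pos _).le
      _ = 1 := by rw [← Real.exp_add]; simp
  have hcN : 0 < c * (N : ℝ) := mul_pos hc (Nat.cast_pos.2 hNp)
  have hbig : 4 * β * (2 * |M|) ≤ δ * (c * N) := by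
    rw [div_lt_iff₀ (by positivity)] at hN0
    have hNN : (N0 : ℝ) ≤ N := by exact_mod_cast (by omega : N0 ≤ N)
    calc 4 * β * (2 * |M|) ≤ N0 * (δ * c) := hN0.le
      _ ≤ N * (δ * c) := mul_le_mul_of_nonneg_right hNN (by positivity)
      _ = δ * (c * N) := by ring
  have hsmall : β * (2 * |M|) * Real.exp (-(c * N)) ≤ δ / 4 := by
    have h1 := mul_le_mul_of_nonneg_left hbig (Real.exp_pos (-(c * (N : ℝ)))).le
    have h2 : Real.exp (-(c * N)) * (δ * (c * N)) ≤ δ := by
      calc Real.exp (-(c * N)) * (δ * (c * N)) = δ * (Real.exp (-(c * N)) * (c * N)) := by ring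
        _ ≤ δ * 1 := mul_le_mul_of_nonneg_left hex hδ.le
        _ = δ := mul_one δ
    linarith
  have := mul_le_mul_of_nonneg_left hp (show 0 ≤ β * (2 * |M|) by positivity)
  linarith

theorem lower_transfer {β : ℝ} (hβ : 0 ≤ β) (M δ : ℝ) (hδ : 0 < δ) :
    ∃ η > 0, ∃ N0 : ℕ, ∀ N ≥ N0, ∀ l : Fin N → ℝ, (∀ i, |l i| ≤ M) → ∀ S : ℝ,
      Real.exp (-(η * N)) ≤ (haarO N).real {U | S ≤ pressure β l U} →
        S - δ ≤ ∫ U, pressure β l U ∂haarO N := by
  obtain ⟨c, hc, hcore⟩ := upper_core hβ (2 * |M|) (δ / 3) (by positivity) (by positivity)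
  obtain ⟨N0, hN0⟩ := exists_nat_gt (2 / c)
  refine ⟨c / 2, by positivity, N0 + 1, fun N hN l hl S hS => ?_⟩
  have hNp : 0 < N := by omega
  by_contra hlt
  have hl0 : ∀ i, 0 ≤ l i + |M| ∧ l i + |M| ≤ 2 * |M| := fun i => by
    have h2 := abs_le.1 (hl i)
    have h3 := le_abs_self M
    exact ⟨by linarith [h2.1], by linarith [h2.2]⟩
  have hp := hcore N hNp (fun i => l i + |M|) hl0 (S + β * |M| / 2)
    (by rw [integral_shift _ _ hNp]; linarith [not_le.1 hlt])
  have hset : {U : OMat N | S + β * |M| / 2 ≤ pressure β (fun i => l i + |M|) U}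
      = {U | S ≤ pressure β l U} := by
    ext U
    simp only [Set.mem_ofPred_eq, pressure_shift _ _ hNp, add_le_add_iff_right]
  rw [hset] at hp
  have h := hS.trans hp
  have h2 : 2 < c * (N : ℝ) := by
    rw [div_lt_iff₀ hc] at hN0
    have hNN : (N0 : ℝ) ≤ N := by exact_mod_cast (by omega : N0 ≤ N)
    calc (2 : ℝ) < N0 * c := hN0
      _ ≤ N * c := mul_le_mul_of_nonneg_right hNN hc.le
      _ = c * N := mul_comm _ _
  have h3 : 2 * Real.exp (-(c * N)) < Real.exp (-(c / 2 * N)) := by
    rw [show -(c / 2 * (N : ℝ)) = -(c * N) + c * N / 2 by ring, Real.exp_add, mul_comm (2 : ℝ)]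
    refine mul_lt_mul_of_pos_left ?_ (Real.exp_pos _)
    linarith [Real.add_one_le_exp (c * (N : ℝ) / 2)]
  linarith

end

end Vale.Agent.P166.High
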