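import Vale.Agent.P166.High.Sph
import Vale.Agent.P166.High.Reg
import Vale.Agent.P166.High.Pot

/-!
# P166 high temperature: the second moment
-/

namespace Vale.Agent.P166.High

open MeasureTheory ProbabilityTheory Filter Topology Matrix

noncomputable section

variable {μ : Measure ℝ} {a b : ℝ} {l : (N : ℕ) → Fin N → ℝ}

section Fixed

variable {N : ℕ}

/-- The partition function. -/
def ht_part (β : ℝ) (x : Fin N → ℝ) (U : OMat N) : ℝ := (∑ s, wt β x U s) / 2 ^ N

lemma ht_part_pos (β : ℝ) (x : Fin N → ℝ) (U : OMat N) : 0 < ht_part β x U :=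
  div_pos (sum_wt_pos β x U) (by positivity)

lemma ht_pressure_eq (β : ℝ) (x : Fin N → ℝ) (U : OMat N) :
    pressure β x U = Real.log (ht_part β x U) / N := pressure_eq β x U

lemma ht_continuous_part (β : ℝ) (x : Fin N → ℝ) : Continuous fun U => ht_part β x U :=
  (continuous_finsetSum _ fun s _ => continuous_wt β x s).div_const _

lemma ht_wt_eq (β : ℝ) (x : Fin N → ℝ) (U : OMat N) (s : Fin N → Bool) :
    wt β x U s = Real.exp ((∑ i, β * x i * act U (spin s) i ^ 2) / 2) := by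
  rw [wt, Finset.mul_sum, Finset.sum_div]
  refine congrArg Real.exp (Finset.sum_congr rfl fun i _ => ?_)
  rw [show coord U s i = act U (spin s) i ^ 2 from rfl]
  ring

/-- Jensen for the logarithm. -/
lemma ht_mean_pressure_le (β : ℝ) (x : Fin N → ℝ) {E : ℝ}
    (h : ∫ U, ht_part β x U ∂haarO N ≤ Real.exp E) :
    ∫ U, pressure β x U ∂haarO N ≤ E / N := by
  have hp : ∀ U, pressure β x U ≤ (E + ht_part β x U / Real.exp E - 1) / N := fun U => by
    rw [ht_pressure_eq]
    refine div_le_div_of_nonneg_right ?_ (Nat.cast_nonneg N)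
    have h1 := Real.log_le_sub_one_of_pos (div_pos (ht_part_pos β x U) (Real.exp_pos E))
    rw [Real.log_div (ht_part_pos β x U).ne' (Real.exp_ne_zero _), Real.log_exp] at h1
    linarith
  have hi := integrable_of_continuous (ht_continuous_part β x)
  refine (integral_mono (integrable_of_continuous (continuous_pressure β x))
    ((((integrable_const E).add (hi.div_const _)).sub (integrable_const 1)).div_const _) hp).trans ?_
  rw [integral_div]
  refine div_le_div_of_nonneg_right ?_ (Nat.cast_nonneg N)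
  simp only [Pi.add_apply, Pi.sub_apply]
  rw [integral_sub, integral_add, integral_div]
  · simp only [integral_const, probReal_univ, smul_eq_mul, one_mul]
    linarith [(div_le_one (Real.exp_pos E)).2 h]
  · exact integrable_const E
  · exact hi.div_const _
  · exact (integrable_const E).add (hi.div_const _)
  · exact integrable_const 1

/-- Paley–Zygmund. -/
lemma ht_paley {f : OMat N → ℝ} (hf : Continuous f) {m V : ℝ} (hm : 0 < m) (hV : 0 < V)
    (h1 : m ≤ ∫ U, f U ∂haarO N) (h2 : ∫ U, f U ^ 2 ∂haarO N ≤ V) :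
    m ^ 2 / (4 * V) ≤ (haarO N).real {U | m / 2 ≤ f U} := by
  have hS : MeasurableSet {U : OMat N | m / 2 ≤ f U} :=
    measurableSet_le measurable_const hf.measurable
  have hp : ∀ U, f U ≤ m / 2 + m / (4 * V) * f U ^ 2
      + V / m * {U : OMat N | m / 2 ≤ f U}.indicator (fun _ => (1 : ℝ)) U := fun U => by
    have h0 : 0 ≤ m / (4 * V) * f U ^ 2 := by positivity
    by_cases hU : m / 2 ≤ f U
    · rw [Set.indicator_of_mem (show U ∈ {U : OMat N | m / 2 ≤ f U} from hU)]
      have e : m / (4 * V) * f U ^ 2 + V / m - f U = m / (4 * V) * (f U - 2 * V / m) ^ 2 := by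
        field_simp; ring
      have : 0 ≤ m / (4 * V) * (f U - 2 * V / m) ^ 2 := by positivity
      linarith
    · rw [Set.indicator_of_notMem (show U ∉ {U : OMat N | m / 2 ≤ f U} from hU)]
      linarith [not_le.1 hU]
  have hi := integrable_of_continuous hf
  have hi2 : Integrable (fun U => f U ^ 2) (haarO N) := integrable_of_continuous (hf.pow 2)
  have hind := ((integrable_const (μ := haarO N) (1 : ℝ)).indicator hS).const_mul (V / m)
  have h := integral_mono hi (((integrable_const (m / 2)).add (hi2.const_mul _)).add hind) hp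
  simp only [Pi.add_apply] at h
  have hab : Integrable (fun U => m / 2 + m / (4 * V) * f U ^ 2) (haarO N) :=
    (integrable_const (m / 2)).add (hi2.const_mul _)
  rw [integral_add hab hind,
    integral_add (integrable_const _) (hi2.const_mul _), integral_const_mul, integral_const_mul,
    integral_indicator_const _ hS] at h
  simp only [integral_const, probReal_univ, smul_eq_mul, one_mul, mul_one] at h
  obtain ⟨P, hP⟩ : ∃ P, P = (haarO N).real {U : OMat N | m / 2 ≤ f U} := ⟨_, rfl⟩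
  rw [← hP] at h ⊢
  have h3 : m / (4 * V) * ∫ U, f U ^ 2 ∂haarO N ≤ m / 4 :=
    (mul_le_mul_of_nonneg_left h2 (by positivity)).trans (le_of_eq (by field_simp))
  have h4 : m / 4 ≤ V / m * P := by linarith
  rw [div_le_iff₀ (by positivity)]
  rw [div_mul_eq_mul_div, le_div_iff₀ hm] at h4
  calc m ^ 2 = 4 * (m / 4 * m) := by ring
    _ ≤ 4 * (V * P) := mul_le_mul_of_nonneg_left h4 (by norm_num)
    _ = P * (4 * V) := by ring

/-- Two orthogonal vectors are multiples of an orthogonal frame. -/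
lemma ht_frame (hN : 2 ≤ N) {u w : Fin N → ℝ} {x y : ℝ} (hx : 0 ≤ x) (hy : 0 ≤ y)
    (hu : sq u = x * N) (hw : sq w = y * N) (h : u ⬝ᵥ w = 0) :
    ∃ u' w' : Fin N → ℝ, sq u' = N ∧ sq w' = N ∧ u' ⬝ᵥ w' = 0 ∧
      u = Real.sqrt x • u' ∧ w = Real.sqrt y • w' := by
  obtain ⟨i, hi⟩ : ∃ i : Fin N, i = ⟨0, by omega⟩ := ⟨_, rfl⟩
  obtain ⟨j, hj⟩ : ∃ j : Fin N, j = ⟨1, by omega⟩ := ⟨_, rfl⟩
  have hij : i ≠ j := by simp [hi, hj, Fin.ext_iff]
  obtain ⟨e, he⟩ : ∃ e : Fin N → ℝ, e = Pi.single i (Real.sqrt N) := ⟨_, rfl⟩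
  obtain ⟨f, hf⟩ : ∃ f : Fin N → ℝ, f = Pi.single j (Real.sqrt N) := ⟨_, rfl⟩
  have he2 : sq e = N := by
    rw [sq_eq_dot, he]; simp [Real.mul_self_sqrt (Nat.cast_nonneg N)]
  have hf2 : sq f = N := by
    rw [sq_eq_dot, hf]; simp [Real.mul_self_sqrt (Nat.cast_nonneg N)]
  have hef : e ⬝ᵥ f = 0 := by rw [he, hf]; simp [hij]
  obtain ⟨O, hO1, hO2⟩ := exists_map_pair (u := Real.sqrt x • e) (v := Real.sqrt y • f)
    (by rw [sq_smul, he2, Real.sq_sqrt hx, hu]) (by rw [sq_smul, hf2, Real.sq_sqrt hy, hw])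
    (by simp [hef]) h
  exact ⟨act O e, act O f, by rw [sq_act, he2], by rw [sq_act, hf2], by rw [dot_act, hef],
    by rw [← hO1, act_smul], by rw [← hO2, act_smul]⟩

/-- The overlap of two configurations. -/
def ht_ov (s t : Fin N → Bool) : ℝ := (spin s ⬝ᵥ spin t) / N

lemma ht_ov_sq_sum (hN : 0 < N) (s t : Fin N → Bool) :
    sq ((2 : ℝ)⁻¹ • (spin s + spin t)) = (1 + ht_ov s t) / 2 * N ∧
    sq ((2 : ℝ)⁻¹ • (spin s - spin t)) = (1 - ht_ov s t) / 2 * N ∧
    ((2 : ℝ)⁻¹ • (spin s + spin t)) ⬝ᵥ ((2 : ℝ)⁻¹ • (spin s - spin t)) = 0 ∧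
    |ht_ov s t| ≤ 1 := by
  have hNR : (0 : ℝ) < N := Nat.cast_pos.2 hN
  have hd : ∀ r : Fin N → Bool, spin r ⬝ᵥ spin r = (N : ℝ) := fun r => by
    rw [← sq_eq_dot, sq_spin]
  have h1 : sq ((2 : ℝ)⁻¹ • (spin s + spin t)) = (1 + ht_ov s t) / 2 * N := by
    rw [sq_smul, sq_eq_dot, add_dotProduct, dotProduct_add, dotProduct_add, hd, hd,
      dotProduct_comm (spin t) (spin s), ht_ov]
    field_simp
    ring
  have h2 : sq ((2 : ℝ)⁻¹ • (spin s - spin t)) = (1 - ht_ov s t) / 2 * N := by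
    rw [sq_smul, sq_eq_dot, sub_dotProduct, dotProduct_sub, dotProduct_sub, hd, hd,
      dotProduct_comm (spin t) (spin s), ht_ov]
    field_simp
    ring
  refine ⟨h1, h2, ?_, abs_le.2 ⟨?_, ?_⟩⟩
  · rw [smul_dotProduct, dotProduct_smul, add_dotProduct, dotProduct_sub, dotProduct_sub, hd, hd,
      dotProduct_comm (spin t) (spin s)]
    simp
  · have h := sq_nonneg' ((2 : ℝ)⁻¹ • (spin s + spin t))
    rw [h1] at h
    have := (mul_nonneg_iff_of_pos_right hNR).1 h
    linarith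
  · have h := sq_nonneg' ((2 : ℝ)⁻¹ • (spin s - spin t))
    rw [h2] at h
    have := (mul_nonneg_iff_of_pos_right hNR).1 h
    linarith

/-- The pair weight in the frame of the pair. -/
lemma ht_pair_exponent (hN : 2 ≤ N) {β M : ℝ} (hβ : 0 ≤ β) {x : Fin N → ℝ} (hx : ∀ i, |x i| ≤ M)
    (s t : Fin N → Bool) :
    ∃ u w : Fin N → ℝ, sq u = N ∧ sq w = N ∧ u ⬝ᵥ w = 0 ∧ ∀ (U : OMat N) (r : ℝ),
      wt β x U s * wt β x U t ≤ Real.exp (β * M * |ht_ov s t - r| * N) *
        Real.exp ((∑ i, β * (1 + r) * x i * act U u i ^ 2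
          + ∑ i, β * (1 - r) * x i * act U w i ^ 2) / 2) := by
  obtain ⟨h1, h2, h3, h4⟩ := ht_ov_sq_sum (by omega : 0 < N) s t
  obtain ⟨q, hq⟩ : ∃ q, q = ht_ov s t := ⟨_, rfl⟩
  rw [← hq] at h1 h2 h4 ⊢
  obtain ⟨hq1, hq2⟩ := abs_le.1 h4
  obtain ⟨u, w, hu, hw, huw, hus, hws⟩ := ht_frame hN (x := (1 + q) / 2) (y := (1 - q) / 2)
    (by linarith) (by linarith) h1 h2 h3
  refine ⟨u, w, hu, hw, huw, fun U r => ?_⟩
  have hs : act U (spin s) = Real.sqrt ((1 + q) / 2) • act U u + Real.sqrt ((1 - q) / 2) • act U w := by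
    rw [← act_smul, ← act_smul, ← hus, ← hws, ← act_add]
    congr 1
    funext i
    simp
    ring
  have ht : act U (spin t) = Real.sqrt ((1 + q) / 2) • act U u - Real.sqrt ((1 - q) / 2) • act U w := by
    rw [sub_eq_add_neg, ← neg_smul, ← act_smul, ← act_smul, ← hus, neg_smul, ← hws, ← act_add]
    congr 1
    funext i
    simp
    ring
  rw [ht_wt_eq, ht_wt_eq, ← Real.exp_add, ← Real.exp_add]
  refine Real.exp_le_exp.2 ?_
  have e : ∀ i, β * x i * act U (spin s) i ^ 2 + β * x i * act U (spin t) i ^ 2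
      = β * (1 + q) * x i * act U u i ^ 2 + β * (1 - q) * x i * act U w i ^ 2 := fun i => by
    rw [hs, ht]
    simp only [Pi.add_apply, Pi.sub_apply, Pi.smul_apply, smul_eq_mul]
    have ha := Real.mul_self_sqrt (show 0 ≤ (1 + q) / 2 by linarith)
    have hb := Real.mul_self_sqrt (show 0 ≤ (1 - q) / 2 by linarith)
    linear_combination (2 * (β * x i * act U u i ^ 2)) * ha + (2 * (β * x i * act U w i ^ 2)) * hb
  rw [← add_div, ← Finset.sum_add_distrib]
  simp only [e, Finset.sum_add_distrib]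
  have hb : ∀ (v : Fin N → ℝ) (c : ℝ), sq v = N →
      ∑ i, c * x i * act U v i ^ 2 ≤ |c| * M * N := by
    intro v c hv
    rw [← hv, ← sq_act U v, sq, Finset.mul_sum]
    refine Finset.sum_le_sum fun i _ => mul_le_mul_of_nonneg_right ?_ (sq_nonneg _)
    calc c * x i ≤ |c * x i| := le_abs_self _
      _ = |c| * |x i| := abs_mul _ _
      _ ≤ |c| * M := mul_le_mul_of_nonneg_left (hx i) (abs_nonneg c)
  have hd1 := hb u (β * (q - r)) hu
  have hd2 := hb w (-(β * (q - r))) hw
  rw [abs_neg, abs_mul, abs_of_nonneg hβ] at hd2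
  rw [abs_mul, abs_of_nonneg hβ] at hd1
  have f1 : ∑ i, β * (1 + q) * x i * act U u i ^ 2 = ∑ i, β * (1 + r) * x i * act U u i ^ 2
      + ∑ i, β * (q - r) * x i * act U u i ^ 2 := by
    rw [← Finset.sum_add_distrib]; exact Finset.sum_congr rfl fun i _ => by ring
  have f2 : ∑ i, β * (1 - q) * x i * act U w i ^ 2 = ∑ i, β * (1 - r) * x i * act U w i ^ 2
      + ∑ i, -(β * (q - r)) * x i * act U w i ^ 2 := by
    rw [← Finset.sum_add_distrib]; exact Finset.sum_congr rfl fun i _ => by ring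
  rw [f1, f2]
  linarith

/-- A quadratic exponential moment of the overlap. -/
lemma ht_cube {k : ℝ} (hk : 0 ≤ k) (hk1 : k < 1) (hN : 0 < N) (s : Fin N → Bool) :
    ∑ t : Fin N → Bool, Real.exp (k * N * ht_ov s t ^ 2 / 2)
      ≤ 2 ^ N * Real.exp (-(Real.log (1 - k)) / 2) := by
  have hNR : (0 : ℝ) < N := Nat.cast_pos.2 hN
  obtain ⟨c, hc⟩ : ∃ c, c = Real.sqrt (k / N) := ⟨_, rfl⟩
  have hmgf : ∀ r : ℝ, ∫ g, Real.exp (r * g) ∂gaussianReal 0 1 = Real.exp (r ^ 2 / 2) := fun r => by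
    have := congrFun (mgf_id_gaussianReal (μ := 0) (v := 1)) r
    simpa [mgf] using this
  have hterm : ∀ t : Fin N → Bool, Real.exp (k * N * ht_ov s t ^ 2 / 2)
      = ∫ g, Real.exp (c * (spin s ⬝ᵥ spin t) * g) ∂gaussianReal 0 1 := fun t => by
    rw [hmgf, ht_ov, mul_pow, hc, Real.sq_sqrt (by positivity)]
    congr 1
    field_simp
  have hint : ∀ t : Fin N → Bool,
      Integrable (fun g => Real.exp (c * (spin s ⬝ᵥ spin t) * g)) (gaussianReal 0 1) := fun t =>
    integrable_exp_mul_gaussianReal _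
  simp only [hterm]
  rw [← integral_finsetSum _ fun t _ => hint t]
  obtain ⟨hi, he⟩ := gauss_one (q := -k) (by linarith)
  have hg : ∀ g : ℝ, ∑ t : Fin N → Bool, Real.exp (c * (spin s ⬝ᵥ spin t) * g)
      ≤ 2 ^ N * Real.exp (-(-k * g ^ 2) / 2) := by
    intro g
    calc ∑ t : Fin N → Bool, Real.exp (c * (spin s ⬝ᵥ spin t) * g)
        = ∑ t : Fin N → Bool, ∏ i, Real.exp (c * g * spin s i * (if t i then 1 else -1)) := by
          refine Finset.sum_congr rfl fun t _ => ?_
          rw [← Real.exp_sum, dotProduct, Finset.mul_sum, Finset.sum_mul]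
          exact congrArg Real.exp (Finset.sum_congr rfl fun i _ => by simp only [spin]; ring)
      _ = ∏ i, ∑ x : Bool, Real.exp (c * g * spin s i * (if x then 1 else -1)) :=
          (Fintype.prod_sum fun (i : Fin N) (x : Bool) =>
            Real.exp (c * g * spin s i * (if x then 1 else -1))).symm
      _ ≤ ∏ _i : Fin N, 2 * Real.exp ((c * g) ^ 2 / 2) := by
          refine Finset.prod_le_prod (fun i _ => Finset.sum_nonneg fun x _ => (Real.exp_pos _).le)
            fun i _ => ?_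
          have h1 : spin s i ^ 2 = 1 := by unfold spin; split_ifs <;> norm_num
          have h := Real.cosh_le_exp_half_sq (c * g * spin s i)
          rw [mul_pow, h1, mul_one, Real.cosh_eq] at h
          simp only [Fintype.sum_bool, if_true, Bool.false_eq_true, if_false, mul_one, mul_neg]
          linarith
      _ = 2 ^ N * Real.exp (-(-k * g ^ 2) / 2) := by
          rw [Finset.prod_const, Finset.card_univ, Fintype.card_fin, mul_pow, ← Real.exp_nat_mul,
            hc, mul_pow, Real.sq_sqrt (by positivity)]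
          congr 2
          field_simp
  refine (integral_mono (integrable_finsetSum _ fun t _ => hint t) (hi.const_mul _) hg).trans
    (le_of_eq ?_)
  rw [integral_const_mul, he, ← sub_eq_add_neg]

end Fixed

lemma ht_log_sum (x : ℝ) {z : ℝ} {N : ℕ} (y : Fin N → ℝ) (hx : 0 < x) (hy : ∀ i, y i < z) :
    ∑ i, Real.log (x * z - x * y i) = N * Real.log x + ∑ i, Real.log (z - y i) := by
  have : ∀ i, Real.log (x * z - x * y i) = Real.log x + Real.log (z - y i) := fun i => by
    rw [← mul_sub, Real.log_mul hx.ne' (sub_pos.2 (hy i)).ne']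
  simp [this, Finset.sum_add_distrib]

/-- The mean partition function from above. -/
lemma ht_upper (A : Admissible μ a b l) {β : ℝ} (hβ : 0 < β) {δ : ℝ} (hδ : 0 < δ) :
    ∀ᶠ N : ℕ in atTop, ∫ U, pressure β (l N) U ∂haarO N ≤ annealed μ b β + δ := by
  obtain ⟨z, hz, hzS⟩ := annealed_near A hβ (show 0 < δ / 3 by positivity)
  obtain ⟨M, -, hM⟩ := exists_bound A
  obtain ⟨ε, hε, N0, hsph⟩ := sph_upper (max (β * M) (|β * z|)) (δ / 3) (by positivity)
  filter_upwards [hM, eventually_le A (h := (z - b) / 2) (by linarith),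
    (tendsto_log A hz).eventually_const_lt (show logPot μ z - δ / 3 < logPot μ z by linarith),
    eventually_ge_atTop N0, eventually_gt_atTop 0] with N hMN hle hlog hN0 hN
  have hNR : (0 : ℝ) < N := Nat.cast_pos.2 hN
  have hlt : ∀ i, l N i < z := fun i => by linarith [hle i]
  refine (ht_mean_pressure_le β (l N) (E := N * (annealed μ b β + δ)) ?_).trans
    (le_of_eq (by field_simp))
  have hint : ∀ s, Integrable (fun U => wt β (l N) U s) (haarO N) := fun s =>
    integrable_of_continuous (continuous_wt β (l N) s)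
  unfold ht_part
  rw [integral_div, integral_finsetSum _ fun s _ => hint s, div_le_iff₀ (by positivity)]
  refine (Finset.sum_le_sum fun s _ => ?_).trans
    (le_of_eq (show ∑ _s : Fin N → Bool, Real.exp (N * (annealed μ b β + δ))
      = Real.exp (N * (annealed μ b β + δ)) * 2 ^ N by simp [mul_comm]))
  have h := hsph N hN0 (haarO N) ∅ sub_haar (by simp; positivity) (spin s) (by simp) (sq_spin s)
    (fun i => β * l N i) (β * z)
    (fun i => le_max_of_le_left (by
      rw [abs_mul, abs_of_pos hβ]; exact mul_le_mul_of_nonneg_left (hMN i) hβ.le))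
    (le_max_right _ _) (fun i _ => mul_lt_mul_of_pos_left (hlt i) hβ)
  simp only [Finset.compl_empty] at h
  simp only [ht_wt_eq]
  refine h.trans (Real.exp_le_exp.2 ?_)
  rw [ht_log_sum β (l N) hβ hlt]
  rw [lt_div_iff₀ hNR] at hlog
  have h2 := mul_le_mul_of_nonneg_left hzS hNR.le
  simp only [phi] at h2
  linarith [mul_pos hNR hδ]

/-- The mean partition function from below. -/
lemma ht_first (A : Admissible μ a b l) {β M zs : ℝ} (hβ : 0 < β) (hzs : b < zs)
    (hGzs : stieltjes μ zs = β) (hM : ∀ᶠ N : ℕ in atTop, ∀ i, |l N i| ≤ M) {S : ℝ}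
    (hS : S = phi μ β zs) {η : ℝ} (hη : 0 < η) :
    ∀ᶠ N : ℕ in atTop, Real.exp (N * (S - 2 * η)) ≤ ∫ U, ht_part β (l N) U ∂haarO N := by
  obtain ⟨M', hM', hM1, hM2, hM3⟩ : ∃ M', 0 < M' ∧ β * M ≤ M' ∧ |β * zs| ≤ M' ∧
      1 / (β * ((zs - b) / 2)) ≤ M' := by
    refine ⟨max (max (β * M) (|β * zs|)) (max 1 (1 / (β * ((zs - b) / 2)))), ?_, ?_, ?_, ?_⟩
    · exact lt_max_of_lt_right (lt_max_of_lt_left one_pos)
    · exact le_max_of_le_left (le_max_left _ _)
    · exact le_max_of_le_left (le_max_right _ _)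
    · exact le_max_of_le_right (le_max_right _ _)
  obtain ⟨η', hη', N2, hlow⟩ := sph_lower M' η hM' hη
  filter_upwards [hM, eventually_le A (h := (zs - b) / 2) (by linarith),
    (tendsto_log A hzs).eventually_lt_const (show logPot μ zs < logPot μ zs + η by linarith),
    (tendsto_inv A hzs).eventually (Metric.ball_mem_nhds _ (show 0 < β * η' by positivity)),
    eventually_ge_atTop N2, eventually_gt_atTop 0] with N hMN hle hlog hinv hN2 hN
  have hNR : (0 : ℝ) < N := Nat.cast_pos.2 hN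
  have hlt' : ∀ i, l N i < zs := fun i => by linarith [hle i]
  have hint : ∀ s, Integrable (fun U => wt β (l N) U s) (haarO N) := fun s =>
    integrable_of_continuous (continuous_wt β (l N) s)
  unfold ht_part
  rw [integral_div, integral_finsetSum _ fun s _ => hint s, le_div_iff₀ (by positivity)]
  refine (le_of_eq (show Real.exp (N * (S - 2 * η)) * 2 ^ N
    = ∑ _s : Fin N → Bool, Real.exp (N * (S - 2 * η)) by simp [mul_comm])).trans
    (Finset.sum_le_sum fun s _ => ?_)
  simp only [ht_wt_eq]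
  refine le_trans (Real.exp_le_exp.2 ?_) (hlow N hN2 (spin s) (sq_spin s) (fun i => β * l N i)
    (β * zs) (fun i => ?_) hM2 (fun i => ?_) ?_)
  · rw [ht_log_sum β (l N) hβ hlt', hS, phi]
    rw [div_lt_iff₀ hNR] at hlog
    linarith [mul_pos hNR hη]
  · rw [abs_mul, abs_of_pos hβ]
    exact (mul_le_mul_of_nonneg_left (hMN i) hβ.le).trans hM1
  · rw [← mul_sub]
    refine le_trans ?_ (mul_le_mul_of_nonneg_left
      (show (zs - b) / 2 ≤ zs - l N i by linarith [hle i]) hβ.le)
    rw [div_le_iff₀ hM']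
    rw [div_le_iff₀ (mul_pos hβ (by linarith))] at hM3
    linarith
  · have e : (∑ i, (β * zs - β * l N i)⁻¹) / N - 1
        = ((∑ i, (zs - l N i)⁻¹) / N - stieltjes μ zs) / β := by
      simp only [← mul_sub, mul_inv, ← Finset.mul_sum, hGzs]
      field_simp
    rw [Real.dist_eq] at hinv
    rw [e, abs_div, abs_of_pos hβ, div_le_iff₀ hβ]
    linarith [mul_comm β η']

/-- A finite set of overlaps inside `(-1, 1)`, dense to precision `2 ρ`. -/
lemma ht_grid {ρ : ℝ} (hρ : 0 < ρ) (hρ1 : ρ < 1) :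
    ∃ (n : ℕ) (grid : Fin n → ℝ), (∀ k, -1 < grid k ∧ grid k < 1) ∧
      ∀ q : ℝ, |q| ≤ 1 → ∃ k, |q - grid k| ≤ 2 * ρ := by
  obtain ⟨m, hm⟩ := exists_nat_gt (2 / ρ)
  have hm0 : (0 : ℝ) < m := lt_trans (by positivity) hm
  obtain ⟨grid, hgrid⟩ : ∃ g : Fin (m + 1) → ℝ, g = fun k => (1 - ρ) * (-1 + 2 * ((Fin.val k : ℕ) : ℝ) / m) :=
    ⟨_, rfl⟩
  have hg1 : ∀ k, -1 < grid k ∧ grid k < 1 := fun k => by
    have hk : ((Fin.val k : ℕ) : ℝ) / m ≤ 1 := (div_le_one hm0).2 (Nat.cast_le.2 (Nat.lt_succ_iff.1 k.2))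
    have hk0 : 0 ≤ ((Fin.val k : ℕ) : ℝ) / m := by positivity
    rw [hgrid]
    have e : (-1 : ℝ) + 2 * ((Fin.val k : ℕ) : ℝ) / m = -1 + 2 * (((Fin.val k : ℕ) : ℝ) / m) := by ring
    simp only [e]
    constructor <;> nlinarith
  have hcover : ∀ q : ℝ, |q| ≤ 1 → ∃ k, |q - grid k| ≤ 2 * ρ := by
    intro q hq
    obtain ⟨hq1, hq2⟩ := abs_le.1 hq
    have h0 : 0 ≤ (q + 1) / 2 * m := mul_nonneg (by linarith) hm0.le
    have hkm : ⌊(q + 1) / 2 * m⌋₊ < m + 1 :=
      Nat.lt_succ_of_le ((Nat.floor_le_floor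
        (mul_le_of_le_one_left hm0.le (by linarith))).trans (Nat.floor_natCast m).le)
    refine ⟨⟨_, hkm⟩, ?_⟩
    obtain ⟨f, hf⟩ : ∃ f : ℝ, f = (⌊(q + 1) / 2 * m⌋₊ : ℝ) / m := ⟨_, rfl⟩
    have hf1 : f ≤ (q + 1) / 2 := by rw [hf, div_le_iff₀ hm0]; exact Nat.floor_le h0
    have hf2 : (q + 1) / 2 < f + 1 / m := by
      rw [hf, ← add_div, lt_div_iff₀ hm0]; exact Nat.lt_floor_add_one _
    have hf0 : 0 ≤ f := by rw [hf]; positivity
    have hm2 : 1 / (m : ℝ) ≤ ρ / 2 := by
      rw [div_le_iff₀ hm0]; rw [div_lt_iff₀ hρ] at hm; linarith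
    have e : grid ⟨_, hkm⟩ = (1 - ρ) * (-1 + 2 * f) := by rw [hgrid, hf]; ring
    rw [e, abs_le]
    constructor <;> nlinarith
  exact ⟨m + 1, grid, hg1, hcover⟩

/-- The pair bound at one overlap. -/
lemma ht_one (A : Admissible μ a b l) {β M K zs : ℝ} (hβ : 0 < β)
    (hM : ∀ᶠ N : ℕ in atTop, ∀ i, |l N i| ≤ M) {S : ℝ} (hS : S = phi μ β zs)
    (hquad : ∀ x, 0 < x → ∃ z, b < z ∧ 2 * phi μ x z
      ≤ 2 * phi μ β zs + (zs - 1 / β) * (x - β) + K * (x - β) ^ 2 / 2)
    {η : ℝ} (hη : 0 < η) {r : ℝ} (hr1 : -1 < r) (hr2 : r < 1) :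
    ∀ᶠ N : ℕ in atTop, ∀ u w : Fin N → ℝ, sq u = N → sq w = N →
      u ⬝ᵥ w = 0 → ∫ U, Real.exp ((∑ i, β * (1 + r) * l N i * act U u i ^ 2
          + ∑ i, β * (1 - r) * l N i * act U w i ^ 2) / 2) ∂haarO N
        ≤ Real.exp (N * (2 * S + K * β ^ 2 * r ^ 2 / 2 + 2 * η)) := by
  have hp : 0 < β * (1 + r) := mul_pos hβ (by linarith [hr1])
  have hn : 0 < β * (1 - r) := mul_pos hβ (by linarith [hr2])
  obtain ⟨zp, hzp, hqp⟩ := hquad _ hp
  obtain ⟨zn, hzn, hqn⟩ := hquad _ hn
  obtain ⟨N3, hpair⟩ := sph2_upper (max (max (2 * β * M) (|β * (1 + r) * zp|))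
    (|β * (1 - r) * zn|)) η hη
  filter_upwards [hM, eventually_le A (h := min (zp - b) (zn - b) / 2)
      (by have := lt_min (sub_pos.2 hzp) (sub_pos.2 hzn); linarith),
    (tendsto_log A hzp).eventually_const_lt (show logPot μ zp - η < logPot μ zp by linarith),
    (tendsto_log A hzn).eventually_const_lt (show logPot μ zn - η < logPot μ zn by linarith),
    eventually_ge_atTop N3, eventually_gt_atTop 0] with N hMN hle hlp hln hN3 hN u w hu hw huw
  have hNR : (0 : ℝ) < N := Nat.cast_pos.2 hN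
  have hlp' : ∀ i, l N i < zp := fun i => by
    linarith [hle i, min_le_left (zp - b) (zn - b)]
  have hln' : ∀ i, l N i < zn := fun i => by
    linarith [hle i, min_le_right (zp - b) (zn - b)]
  have hb : ∀ c, 0 < c → c ≤ 2 * β → ∀ i, |c * l N i| ≤ max (max (2 * β * M)
      (|β * (1 + r) * zp|)) (|β * (1 - r) * zn|) := fun c hc hc2 i => by
    refine le_max_of_le_left (le_max_of_le_left ?_)
    rw [abs_mul, abs_of_pos hc]
    exact mul_le_mul hc2 (hMN i) (abs_nonneg _) (by positivity)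
  refine (hpair N hN3 u w hu hw huw (fun i => β * (1 + r) * l N i)
    (fun i => β * (1 - r) * l N i) (β * (1 + r) * zp) (β * (1 - r) * zn)
    (hb _ hp (by nlinarith [hr2])) (hb _ hn (by nlinarith [hr1]))
    (le_max_of_le_left (le_max_right _ _)) (le_max_right _ _)
    (fun i => mul_lt_mul_of_pos_left (hlp' i) hp)
    (fun i => mul_lt_mul_of_pos_left (hln' i) hn)).trans (Real.exp_le_exp.2 ?_)
  rw [ht_log_sum _ (l N) hp hlp', ht_log_sum _ (l N) hn hln']
  rw [lt_div_iff₀ hNR] at hlp hln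
  rw [← hS] at hqp hqn
  simp only [phi] at hqp hqn
  have h2 := mul_le_mul_of_nonneg_left (add_le_add hqp hqn) hNR.le
  linarith

/-- The second moment. -/
lemma ht_pairs {β M K S η ρ : ℝ} (hβ : 0 < β) (hKpos : 0 < K) (hK : β ^ 2 * K < 1) (hM0 : 0 < M)
    (hη : 0 < η) (hρd : (β * M + K * β ^ 2) * (2 * ρ) ≤ η)
    (hM : ∀ᶠ N : ℕ in atTop, ∀ i, |l N i| ≤ M) {n : ℕ} {grid : Fin n → ℝ}
    (hg1 : ∀ k, -1 < grid k ∧ grid k < 1)
    (hcover : ∀ q : ℝ, |q| ≤ 1 → ∃ k, |q - grid k| ≤ 2 * ρ)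
    (hone : ∀ k, ∀ᶠ N : ℕ in atTop, ∀ u w : Fin N → ℝ, sq u = N → sq w = N →
      u ⬝ᵥ w = 0 → ∫ U, Real.exp ((∑ i, β * (1 + grid k) * l N i * act U u i ^ 2
          + ∑ i, β * (1 - grid k) * l N i * act U w i ^ 2) / 2) ∂haarO N
        ≤ Real.exp (N * (2 * S + K * β ^ 2 * grid k ^ 2 / 2 + 2 * η))) :
    ∀ᶠ N : ℕ in atTop, ∫ U, ht_part β (l N) U ^ 2 ∂haarO N
      ≤ Real.exp (N * (2 * S + 4 * η)) * Real.exp (-(Real.log (1 - β ^ 2 * K)) / 2) := by
  filter_upwards [hM, eventually_all.2 hone, eventually_ge_atTop 2] with N hMN hone' hN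
  have hNR : (0 : ℝ) < N := Nat.cast_pos.2 (by omega)
  have hst : ∀ s t : Fin N → Bool, ∫ U, wt β (l N) U s * wt β (l N) U t ∂haarO N
      ≤ Real.exp (N * (2 * S + 4 * η)) * Real.exp (β ^ 2 * K * N * ht_ov s t ^ 2 / 2) := by
    intro s t
    obtain ⟨u, w, hu, hw, huw, hU⟩ := ht_pair_exponent hN hβ.le hMN s t
    obtain ⟨-, -, -, hq⟩ := ht_ov_sq_sum (by omega : 0 < N) s t
    obtain ⟨k, hk⟩ := hcover _ hq
    have hcont : Continuous fun U : OMat N => Real.exp ((∑ i, β * (1 + grid k) * l N i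
        * act U u i ^ 2 + ∑ i, β * (1 - grid k) * l N i * act U w i ^ 2) / 2) := by
      refine Real.continuous_exp.comp (((continuous_finsetSum _ fun i _ => ?_).add
        (continuous_finsetSum _ fun i _ => ?_)).div_const 2)
      · exact continuous_const.mul (((continuous_apply i).comp (continuous_act_left u)).pow 2)
      · exact continuous_const.mul (((continuous_apply i).comp (continuous_act_left w)).pow 2)
    refine (integral_mono (integrable_of_continuous ((continuous_wt _ _ s).mul (continuous_wt _ _ t)))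
      ((integrable_of_continuous hcont).const_mul _) fun U => hU U (grid k)).trans ?_
    rw [integral_const_mul]
    refine (mul_le_mul_of_nonneg_left (hone' k u w hu hw huw) (Real.exp_pos _).le).trans ?_
    rw [← Real.exp_add, ← Real.exp_add]
    refine Real.exp_le_exp.2 ?_
    obtain ⟨hq1, hq2⟩ := abs_le.1 hq
    have hsq : grid k ^ 2 ≤ ht_ov s t ^ 2 + 2 * (2 * ρ) := by
      obtain ⟨hk1, hk2⟩ := abs_le.1 hk
      nlinarith [(hg1 k).1, (hg1 k).2]
    have e1 : β * M * |ht_ov s t - grid k| * N ≤ β * M * (2 * ρ) * N :=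
      mul_le_mul_of_nonneg_right (mul_le_mul_of_nonneg_left hk (by positivity)) hNR.le
    have e2 := mul_le_mul_of_nonneg_left hsq (show 0 ≤ N * (K * β ^ 2 / 2) by positivity)
    have e3 := mul_le_mul_of_nonneg_left hρd hNR.le
    linarith [mul_pos hNR hη]
  have hint : ∀ s t, Integrable (fun U => wt β (l N) U s * wt β (l N) U t) (haarO N) :=
    fun s t => integrable_of_continuous ((continuous_wt _ _ s).mul (continuous_wt _ _ t))
  simp only [ht_part, div_pow, pow_two (∑ s, wt β (l N) _ s), Finset.sum_mul_sum]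
  rw [integral_div, integral_finsetSum _ fun s _ => integrable_finsetSum _ fun t _ => hint s t,
    div_le_iff₀ (by positivity)]
  simp only [integral_finsetSum _ fun t _ => hint _ t]
  refine (Finset.sum_le_sum fun s _ => (Finset.sum_le_sum fun t _ => hst s t).trans
    (le_of_eq_of_le (Finset.mul_sum _ _ _).symm (mul_le_mul_of_nonneg_left
      (ht_cube (by positivity) hK (by omega) s) (Real.exp_pos _).le))).trans (le_of_eq ?_)
  simp
  ring

/-- Second moment below the threshold. -/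
lemma ht_lower_strict (A : Admissible μ a b l) {β K z0 : ℝ} (hβ : 0 < β)
    (h1 : ∀ z, b < z → 1 / stieltjes μ z ^ 2 - 1 / stieltjes2 μ z ≤ K) (hz0 : b < z0)
    (hKG : 1 ≤ K * stieltjes μ z0 ^ 2) (hK : β ^ 2 * K < 1) {δ : ℝ} (hδ : 0 < δ) :
    ∀ᶠ N : ℕ in atTop, annealed μ b β - δ ≤ ∫ U, pressure β (l N) U ∂haarO N := by
  have hG0 := pot_stieltjes_pos A hz0
  have hKpos : 0 < K := by
    by_contra h
    have := mul_nonpos_of_nonpos_of_nonneg (not_lt.1 h) (pow_nonneg hG0.le 2)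
    linarith
  have hlt : β < stieltjes μ z0 := by
    refine lt_of_pow_lt_pow_left₀ 2 hG0.le (lt_of_mul_lt_mul_left ?_ hKpos.le)
    rw [mul_comm K (β ^ 2)]
    exact hK.trans_le hKG
  obtain ⟨zs, hzs, hGzs, hS, hquad⟩ := quad_bound A hβ h1 hz0 hKG hlt
  obtain ⟨M, hM0, hM⟩ := exists_bound A
  obtain ⟨η0, hη0, N1, htr⟩ := lower_transfer hβ.le M (δ / 2) (by positivity)
  obtain ⟨η, hη, hηd, hηe⟩ : ∃ η, 0 < η ∧ 6 * η ≤ δ ∧ 10 * η ≤ η0 :=
    ⟨min (δ / 6) (η0 / 10), by positivity, by linarith [min_le_left (δ / 6) (η0 / 10)],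
      by linarith [min_le_right (δ / 6) (η0 / 10)]⟩
  obtain ⟨S, hSdef⟩ : ∃ S, S = annealed μ b β := ⟨_, rfl⟩
  rw [← hSdef] at hS ⊢
  have hfirst := ht_first A hβ hzs hGzs hM hS hη
  obtain ⟨ρ, hρ, hρ1, hρd⟩ : ∃ ρ, 0 < ρ ∧ ρ < 1 ∧ (β * M + K * β ^ 2) * (2 * ρ) ≤ η := by
    refine ⟨min (1 / 2) (η / (2 * (β * M + K * β ^ 2) + 1)), by positivity,
      (min_le_left _ _).trans_lt (by norm_num), ?_⟩
    have h0 : 0 ≤ β * M + K * β ^ 2 := by positivity
    have := min_le_right (1 / 2) (η / (2 * (β * M + K * β ^ 2) + 1))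
    rw [le_div_iff₀ (by positivity)] at this
    nlinarith [le_min (show (0:ℝ) ≤ 1 / 2 by norm_num)
      (show 0 ≤ η / (2 * (β * M + K * β ^ 2) + 1) by positivity)]
  obtain ⟨n, grid, hg1, hcover⟩ := ht_grid hρ hρ1
  have hone := fun k => ht_one A hβ hM hS hquad hη (hg1 k).1 (hg1 k).2
  have hpairs := ht_pairs (l := l) hβ hKpos hK hM0 hη hρd hM hg1 hcover hone
  -- conclusion
  obtain ⟨C, hC0, hC⟩ : ∃ C, 0 < C ∧ C = Real.exp (-(Real.log (1 - β ^ 2 * K)) / 2) :=
    ⟨_, Real.exp_pos _, rfl⟩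
  rw [← hC] at hpairs
  obtain ⟨N4, hN4⟩ := exists_nat_gt (max (4 * C / η) (Real.log 2 / η))
  filter_upwards [hM, hfirst, hpairs, eventually_ge_atTop N1, eventually_ge_atTop N4,
    eventually_gt_atTop 0] with N hMN hf hp hN1 hN4' hN
  have hNR : (0 : ℝ) < N := Nat.cast_pos.2 hN
  have hbig : max (4 * C / η) (Real.log 2 / η) < (N : ℝ) := hN4.trans_le (Nat.cast_le.2 hN4')
  rw [max_lt_iff, div_lt_iff₀ hη, div_lt_iff₀ hη] at hbig
  have hpz := ht_paley (ht_continuous_part β (l N)) (Real.exp_pos _) (by positivity) hf hp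
  have hP : Real.exp (-(η0 * N))
      ≤ (haarO N).real {U | S - 3 * η ≤ pressure β (l N) U} := by
    refine le_trans ?_ (hpz.trans (measureReal_mono fun U hU => ?_))
    · rw [← Real.exp_nat_mul, le_div_iff₀ (by positivity)]
      calc Real.exp (-(η0 * N)) * (4 * (Real.exp (N * (2 * S + 4 * η)) * C))
          = 4 * C * (Real.exp (-(η0 * N)) * Real.exp (N * (2 * S + 4 * η))) := by ring
        _ ≤ Real.exp (η * N) * (Real.exp (-(η0 * N)) * Real.exp (N * (2 * S + 4 * η))) :=
            mul_le_mul_of_nonneg_right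
              (le_trans (by linarith [mul_comm η (N : ℝ)]) (Real.add_one_le_exp _)) (by positivity)
        _ ≤ _ := by
            rw [← Real.exp_add, ← Real.exp_add]
            refine Real.exp_le_exp.2 ?_
            have := mul_le_mul_of_nonneg_right hηe hNR.le
            push_cast
            linarith [mul_pos hη hNR]
    · simp only [Set.mem_ofPred_eq] at hU ⊢
      rw [ht_pressure_eq, le_div_iff₀ hNR]
      have h := Real.log_le_log (by positivity) hU
      rw [Real.log_div (Real.exp_ne_zero _) two_ne_zero, Real.log_exp] at h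
      linarith
  have := htr N hN1 (l N) hMN _ hP
  linarith

theorem high_limit (A : Admissible μ a b l) {β K : ℝ} (hβ : 0 < β)
    (h1 : ∀ z, b < z → 1 / stieltjes μ z ^ 2 - 1 / stieltjes2 μ z ≤ K)
    (h2 : ∀ ε > 0, ∃ z, b < z ∧ 1 ≤ (K + ε) * stieltjes μ z ^ 2) (hK : β ^ 2 * K ≤ 1) :
    ConvergesTo β l (annealed μ b β) := by
  have hK0 : 0 ≤ K := by
    by_contra h
    obtain ⟨z, -, hz⟩ := h2 (-K / 2) (by linarith)
    have := mul_nonpos_of_nonpos_of_nonneg (show K + -K / 2 ≤ 0 by linarith)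
      (sq_nonneg (stieltjes μ z))
    linarith
  obtain ⟨M, hM0, hM⟩ := exists_bound A
  rw [ConvergesTo, Metric.tendsto_atTop]
  intro δ hδ
  obtain ⟨S, hS⟩ : ∃ S, S = annealed μ b β := ⟨_, rfl⟩
  rw [← hS]
  -- slightly higher temperature
  obtain ⟨r0, hr0, hcont⟩ := annealed_cont A hβ (show 0 < δ / 6 by positivity)
  obtain ⟨r, hr, hr1, hrc, hrM⟩ : ∃ r, 0 < r ∧ r < 1 ∧ β * r < r0 ∧ β * M * r ≤ δ / 3 :=
    ⟨min (1 / 2) (min (r0 / (2 * β)) (δ / (3 * β * M))), by positivity,
      (min_le_left _ _).trans_lt (by norm_num), by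
        have h := (min_le_right (1 / 2) (min (r0 / (2 * β)) (δ / (3 * β * M)))).trans (min_le_left _ _)
        rw [le_div_iff₀ (by positivity)] at h
        linarith, by
        have h := (min_le_right (1 / 2) (min (r0 / (2 * β)) (δ / (3 * β * M)))).trans (min_le_right _ _)
        rw [le_div_iff₀ (by positivity)] at h
        linarith⟩
  obtain ⟨β', hβ', hpos, hK'⟩ : ∃ β', β' = β * (1 - r) ∧ 0 < β' ∧ β' ^ 2 * K < 1 := by
    refine ⟨_, rfl, mul_pos hβ (by linarith), ?_⟩
    rcases hK0.eq_or_lt with h | h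
    · rw [← h, mul_zero]; exact one_pos
    · refine lt_of_lt_of_le (mul_lt_mul_of_pos_right ?_ h) hK
      exact pow_lt_pow_left₀ (mul_lt_of_lt_one_right hβ (by linarith)) (by nlinarith) two_ne_zero
  obtain ⟨e, he, he1⟩ : ∃ e, 0 < e ∧ β' ^ 2 * (K + e) < 1 :=
    ⟨(1 - β' ^ 2 * K) / (2 * β' ^ 2), div_pos (by linarith) (by positivity), by
      rw [mul_add]
      have : β' ^ 2 * ((1 - β' ^ 2 * K) / (2 * β' ^ 2)) = (1 - β' ^ 2 * K) / 2 := by field_simp
      linarith⟩
  obtain ⟨z0, hz0, hKG⟩ := h2 e he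
  have hclose := hcont β' (by rw [hβ', show β * (1 - r) - β = -(β * r) by ring, abs_neg,
    abs_of_pos (by positivity)]; exact hrc)
  rw [← hS] at hclose
  obtain ⟨N0, hsa⟩ := self_averaging hβ.le M (δ / 8) (by positivity)
  have hev := (hM.and (ht_upper A hβ (show 0 < δ / 4 by positivity))).and
    ((ht_lower_strict A hpos (fun z hz => (h1 z hz).trans (by linarith)) hz0 hKG he1
      (show 0 < δ / 6 by positivity)).and (eventually_ge_atTop N0))
  obtain ⟨N', hN'⟩ := eventually_atTop.1 hev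
  refine ⟨N', fun N hN => ?_⟩
  obtain ⟨⟨hMN, hup⟩, hlo, hN0⟩ := hN' N hN
  rw [← hS] at hup
  have hP : ∀ U, pressure β' (l N) U ≤ pressure β (l N) U + β * M * r / 2 := by
    intro U
    have e : pressure β' (l N) U = pressure β (fun i => (1 - r) * l N i) U := by
      rw [pressure_eq, pressure_eq]
      congr 2
      refine congrArg₂ _ (Finset.sum_congr rfl fun s _ => ?_) rfl
      simp only [ht_wt_eq, hβ', mul_assoc]
    have h := (abs_le.1 (abs_pressure_sub_le hβ.le (show 0 ≤ r * M by positivity)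
      (x := fun i => (1 - r) * l N i) (y := l N) (fun i => by
        rw [show (1 - r) * l N i - l N i = -(r * l N i) by ring, abs_neg, abs_mul, abs_of_pos hr]
        exact mul_le_mul_of_nonneg_left (hMN i) hr.le) U)).2
    rw [e]
    linarith
  obtain ⟨E, hE⟩ : ∃ E, E = ∫ U, pressure β (l N) U ∂haarO N := ⟨_, rfl⟩
  have hmean : ∫ U, pressure β' (l N) U ∂haarO N ≤ E + β * M * r / 2 := by
    refine (integral_mono (integrable_of_continuous (continuous_pressure β' (l N)))
      ((integrable_of_continuous (continuous_pressure β (l N))).add (integrable_const _)) hP).trans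
      (le_of_eq ?_)
    simp only [Pi.add_apply]
    rw [integral_add (integrable_of_continuous (continuous_pressure β (l N))) (integrable_const _), ← hE]
    simp
  have hES : |E - S| ≤ δ / 2 := by
    obtain ⟨c1, c2⟩ := abs_le.1 hclose
    rw [← hE] at hup
    exact abs_le.2 ⟨by linarith, by linarith⟩
  have hsa' := hsa N hN0 (l N) hMN
  rw [← hE] at hsa'
  rw [Real.dist_eq, sub_zero, abs_of_nonneg (integral_nonneg fun _ => abs_nonneg _)]
  have hi := integrable_of_continuous (continuous_pressure β (l N))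
  refine lt_of_le_of_lt (integral_mono ((hi.sub (integrable_const S)).abs)
    (((hi.sub (integrable_const E)).abs).add (integrable_const |E - S|))
    fun U => abs_sub_le _ E S) ?_
  simp only [Pi.add_apply, Pi.sub_apply]
  rw [integral_add ((hi.sub' (integrable_const E)).abs) (integrable_const _)]
  simp only [integral_const, probReal_univ, smul_eq_mul, one_mul]
  linarith

end

end Vale.Agent.P166.High
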