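import Vale.Agent.P166.High.Sph
import Vale.Agent.P166.High.Pot
import Vale.Agent.P166.High.Bad

/-!
# P166 high temperature: the annealed value is not attained beyond the edge value of `G`
-/

namespace Vale.Agent.P166.High

open MeasureTheory Filter Topology

noncomputable section


variable {N : ℕ}

/-- The squared length on the coordinates in `W`. -/
def strict_mass (U : OMat N) (W : Finset (Fin N)) (s : Fin N → Bool) : ℝ :=
  ∑ i ∈ W, act U (spin s) i ^ 2

lemma strict_continuous_mass (W : Finset (Fin N)) (s : Fin N → Bool) :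
    Continuous fun U : OMat N => strict_mass U W s := by
  unfold strict_mass
  exact continuous_finsetSum _ fun i _ =>
    ((continuous_apply i).comp (continuous_act_left (spin s))).pow 2

lemma strict_sq_spin (s : Fin N → Bool) : sq (spin s) = N := by
  have hs : ∀ i, spin s i ^ 2 = 1 := fun i => by unfold spin; split_ifs <;> norm_num
  simp [sq, hs]

lemma strict_wt_le {β : ℝ} (hβ : 0 ≤ β) {l : Fin N → ℝ} {L : ℝ} (hl : ∀ i, l i ≤ L) (U : OMat N)
    (s : Fin N → Bool) : wt β l U s ≤ Real.exp (β / 2 * L * N) := by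
  rw [wt, mul_assoc]
  refine Real.exp_le_exp.2 (mul_le_mul_of_nonneg_left ?_ (by positivity))
  rw [← sum_coord U s, Finset.mul_sum]
  exact Finset.sum_le_sum fun i _ => mul_le_mul_of_nonneg_right (hl i) (coord_nonneg _ _ _)

lemma strict_measurable_card (W : Finset (Fin N)) (r : ℝ) :
    Measurable fun U : OMat N => ((big U W r).card : ℝ) := by
  have e : (fun U : OMat N => ((big U W r).card : ℝ)) = fun U => ∑ s : Fin N → Bool,
      {U : OMat N | r ^ 2 * N ≤ strict_mass U W s}.indicator (fun _ => (1 : ℝ)) U := by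
    funext U
    rw [big, Finset.card_filter, Nat.cast_sum]
    refine Finset.sum_congr rfl fun s _ => ?_
    by_cases h : r ^ 2 * N ≤ strict_mass U W s
    · rw [if_pos (by exact h),
        Set.indicator_of_mem (show U ∈ {U : OMat N | r ^ 2 * N ≤ strict_mass U W s} from h)]
      simp
    · rw [if_neg (by exact h),
        Set.indicator_of_notMem (show U ∉ {U : OMat N | r ^ 2 * N ≤ strict_mass U W s} from h)]
      simp
  rw [e]
  exact Finset.measurable_fun_sum _ fun s _ => measurable_const.indicator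
    (isClosed_le continuous_const (strict_continuous_mass W s)).measurableSet

/-- Averaging the Haar law over a law of right translations does not change it. -/
lemma strict_avg {ν : Measure (OMat N)} [IsProbabilityMeasure ν] {f : OMat N → ℝ}
    (hf : Measurable f) (hb : ∃ C, ∀ U, |f U| ≤ C) :
    ∫ U, f U ∂haarO N = ∫ U, ∫ R, f (R * U) ∂ν ∂haarO N := by
  obtain ⟨C, hC⟩ := hb
  have hm : Measurable fun p : OMat N × OMat N => f (p.2 * p.1) :=
    hf.comp (continuous_snd.mul continuous_fst).measurable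
  have hi : Integrable (Function.uncurry fun U R : OMat N => f (R * U)) ((haarO N).prod ν) :=
    Integrable.of_bound hm.aestronglyMeasurable C
      (ae_of_all _ fun p => by rw [Real.norm_eq_abs]; exact hC _)
  rw [integral_integral_swap hi]
  simp [integral_mul_left_eq_self f]

/-- The configurations which are small on `W`. -/
lemma strict_low {β M η θ τ h m ε : ℝ} (hβ : 0 ≤ β) (hτh : 0 ≤ τ + h) (_hm : 0 ≤ m) {l : Fin N → ℝ}
    {B : ℝ} (hl : ∀ i, l i ≤ B + h) (hε : 0 ≤ ε)
    (hsph : ∀ (ν : Measure (OMat N)) (W : Finset (Fin N)), Sub ν W →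
      (W.card : ℝ) ≤ ε * N → ∀ v : Fin N → ℝ, (∀ i ∈ W, v i = 0) → sq v = N →
      ∀ (c : Fin N → ℝ) (θ : ℝ), (∀ i, |c i| ≤ M) → |θ| ≤ M → (∀ i ∈ Wᶜ, c i < θ) →
        ∫ R, Real.exp ((∑ i ∈ Wᶜ, c i * act R v i ^ 2) / 2) ∂ν
          ≤ Real.exp (N * η + ((θ - 1) * N - ∑ i ∈ Wᶜ, Real.log (θ - c i)) / 2))
    (hc : ∀ i, |β * min (l i) (B - τ)| ≤ M) (hθ : |θ| ≤ M)
    (hlt : ∀ i, β * min (l i) (B - τ) < θ) :
    ∫ U, (∑ s : Fin N → Bool, {U : OMat N |
        strict_mass U (Finset.univ.filter fun i => B - τ < l i) s ≤ m * N}.indicator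
          (fun U => wt β l U s) U) / 2 ^ N ∂haarO N
      ≤ Real.exp (β / 2 * ((τ + h) * m * N) + (N * η + ((θ - 1) * N
          - ∑ i, Real.log (θ - β * min (l i) (B - τ))) / 2)) := by
  obtain ⟨W, hW⟩ : ∃ W, W = Finset.univ.filter fun i => B - τ < l i := ⟨_, rfl⟩
  rw [← hW]
  set K := Real.exp (β / 2 * ((τ + h) * m * N))
  set c : Fin N → ℝ := fun i => β * min (l i) (B - τ) with hcdef
  have hint : ∀ s : Fin N → Bool, Integrable
      (fun U : OMat N => Real.exp ((∑ i, c i * act U (spin s) i ^ 2) / 2)) (haarO N) := fun s =>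
    integrable_of_continuous (Real.continuous_exp.comp ((continuous_finsetSum _ fun i _ =>
      continuous_const.mul (((continuous_apply i).comp (continuous_act_left _)).pow 2)).div_const 2))
  have hpt : ∀ U : OMat N, ∀ s : Fin N → Bool,
      {U : OMat N | strict_mass U W s ≤ m * N}.indicator (fun U => wt β l U s) U
        ≤ K * Real.exp ((∑ i, c i * act U (spin s) i ^ 2) / 2) := by
    intro U s
    by_cases hU : U ∈ {U : OMat N | strict_mass U W s ≤ m * N}
    swap
    · rw [Set.indicator_of_notMem hU]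
      positivity
    rw [Set.indicator_of_mem hU]
    rw [wt, ← Real.exp_add]
    refine Real.exp_le_exp.2 ?_
    have h1 : ∑ i, (l i - min (l i) (B - τ)) * coord U s i ≤ (τ + h) * (m * N) := by
      calc ∑ i, (l i - min (l i) (B - τ)) * coord U s i
          = ∑ i ∈ W, (l i - min (l i) (B - τ)) * coord U s i := by
            refine (Finset.sum_subset (Finset.subset_univ W) fun i _ hi => ?_).symm
            rw [hW, Finset.mem_filter, not_and, not_lt] at hi
            rw [min_eq_left (hi (Finset.mem_univ i)), sub_self, zero_mul]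
        _ ≤ ∑ i ∈ W, (τ + h) * coord U s i := Finset.sum_le_sum fun i _ =>
            mul_le_mul_of_nonneg_right (by
              rcases min_choice (l i) (B - τ) with e | e <;> rw [e]
              · linarith
              · linarith [hl i]) (coord_nonneg _ _ _)
        _ ≤ _ := by
            rw [← Finset.mul_sum]
            exact mul_le_mul_of_nonneg_left hU hτh
    have h2 : β / 2 * ∑ i, l i * coord U s i
        = β / 2 * ∑ i, (l i - min (l i) (B - τ)) * coord U s i
          + (∑ i, c i * act U (spin s) i ^ 2) / 2 := by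
      simp only [hcdef, Finset.mul_sum, Finset.sum_div, ← Finset.sum_add_distrib]
      refine Finset.sum_congr rfl fun i _ => ?_
      rw [show coord U s i = act U (spin s) i ^ 2 from rfl]
      ring
    have h3 := mul_le_mul_of_nonneg_left h1 (show 0 ≤ β / 2 by positivity)
    rw [h2]
    linarith
  have hm' : ∀ s : Fin N → Bool, Integrable
      ({U : OMat N | strict_mass U W s ≤ m * N}.indicator fun U => wt β l U s) (haarO N) := fun s =>
    (integrable_of_continuous (continuous_wt β l s)).indicator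
      (isClosed_le (strict_continuous_mass W s) continuous_const).measurableSet
  rw [integral_div, integral_finsetSum _ fun s _ => hm' s, div_le_iff₀ (by positivity)]
  have hbound : ∀ s : Fin N → Bool,
      ∫ U, {U : OMat N | strict_mass U W s ≤ m * N}.indicator (fun U => wt β l U s) U ∂haarO N
      ≤ K * Real.exp (N * η + ((θ - 1) * N - ∑ i, Real.log (θ - c i)) / 2) := by
    intro s
    refine (integral_mono (hm' s) ((hint s).const_mul K) fun U => hpt U s).trans ?_
    rw [integral_const_mul]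
    refine mul_le_mul_of_nonneg_left ?_ (Real.exp_pos _).le
    simpa using hsph (haarO N) ∅ sub_haar (by simp; positivity) (spin s) (by simp) (strict_sq_spin s)
      c θ hc hθ (fun i _ => hlt i)
  refine (Finset.sum_le_sum fun s _ => hbound s).trans (le_of_eq ?_)
  rw [Real.exp_add (β / 2 * ((τ + h) * m * N))]
  simp
  ring

/-- The configurations in a band of squared length on `W`. -/
lemma strict_band {β M η ε z B h q Q L : ℝ} (hβ : 0 < β) (hQ : Q < 1)
    {l : Fin N → ℝ} {W : Finset (Fin N)} (hW : (W.card : ℝ) ≤ ε * N)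
    (hsph : ∀ (ν : Measure (OMat N)) (W : Finset (Fin N)), Sub ν W →
      (W.card : ℝ) ≤ ε * N → ∀ v : Fin N → ℝ, (∀ i ∈ W, v i = 0) → sq v = N →
      ∀ (c : Fin N → ℝ) (θ : ℝ), (∀ i, |c i| ≤ M) → |θ| ≤ M → (∀ i ∈ Wᶜ, c i < θ) →
        ∫ R, Real.exp ((∑ i ∈ Wᶜ, c i * act R v i ^ 2) / 2) ∂ν
          ≤ Real.exp (N * η + ((θ - 1) * N - ∑ i ∈ Wᶜ, Real.log (θ - c i)) / 2))
    (hl : ∀ i, l i ≤ B + h) (hzh : B + h < z) (hlM : ∀ i, β * |l i| ≤ M) (hzM : β * |z| ≤ M)
    (hW1 : ∀ i ∈ W, z - l i ≤ 1) (hL : |Real.log β| + |Real.log (1 - Q)| ≤ L) (hL0 : 0 ≤ L)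
    (hN : 0 < N) (_hq : 0 ≤ q) {C : ℝ} (hC : 0 ≤ C) :
    ∫ U, (∑ s : Fin N → Bool, {U : OMat N | ((big U W q).card : ℝ) ≤ C ∧
        q ^ 2 * N ≤ strict_mass U W s ∧ strict_mass U W s ≤ Q * N}.indicator
          (fun U => wt β l U s) U) ∂haarO N
      ≤ C * Real.exp (N * η + (β * z * N - N - N * Real.log β - N * Real.log (1 - Q)
          - ∑ i, Real.log (z - l i) + ε * N * L) / 2) := by
  obtain ⟨ν, hν⟩ := exists_sub W
  have := hν.prob
  set E : (Fin N → Bool) → Set (OMat N) := fun s => {U : OMat N | ((big U W q).card : ℝ) ≤ C ∧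
        q ^ 2 * N ≤ strict_mass U W s ∧ strict_mass U W s ≤ Q * N} with hE
  have hEm : ∀ s, MeasurableSet (E s) := fun s =>
    (measurableSet_le (strict_measurable_card W q) measurable_const).inter
      ((isClosed_le continuous_const (strict_continuous_mass W s)).measurableSet.inter
        (isClosed_le (strict_continuous_mass W s) continuous_const).measurableSet)
  set f : OMat N → ℝ := fun U => ∑ s, (E s).indicator (fun U => wt β l U s) U with hf
  have hfm : Measurable f := Finset.measurable_fun_sum _ fun s _ =>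
    (continuous_wt β l s).measurable.indicator (hEm s)
  have hfb : ∀ U, |f U| ≤ 2 ^ N * Real.exp (β / 2 * (B + h) * N) := by
    intro U
    have h0 : 0 ≤ f U := Finset.sum_nonneg fun s _ => Set.indicator_nonneg
      (fun U _ => (Real.exp_pos _).le) U
    rw [abs_of_nonneg h0]
    refine (Finset.sum_le_sum fun s _ => Set.indicator_le' (g := fun U => Real.exp
      (β / 2 * (B + h) * N)) (fun U _ => strict_wt_le hβ.le hl U s)
      (fun U _ => (Real.exp_pos _).le) U).trans (le_of_eq ?_)
    simp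
  set K := Real.exp (N * η + (β * z * N - N - N * Real.log β - N * Real.log (1 - Q)
          - ∑ i, Real.log (z - l i) + ε * N * L) / 2) with hK
  show ∫ U, f U ∂haarO N ≤ _
  rw [strict_avg (ν := ν) hfm ⟨_, hfb⟩]
  have key : ∀ U, ∫ R, f (R * U) ∂ν ≤ C * K := by
    intro U
    have hfix : ∀ᵐ R ∂ν, ∀ s, strict_mass (R * U) W s = strict_mass U W s := by
      filter_upwards [hν.fixes] with R hR s
      exact Finset.sum_congr rfl fun i hi => by rw [act_mul, hR i hi]
    by_cases hg : ((big U W q).card : ℝ) ≤ C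
    swap
    · refine le_trans (le_of_eq ?_) (mul_nonneg hC (Real.exp_pos _).le)
      refine integral_eq_zero_of_ae ?_
      filter_upwards [hfix] with R hR
      refine Finset.sum_eq_zero fun s _ => Set.indicator_of_notMem ?_ _
      rintro ⟨h1, -, -⟩
      refine hg (le_of_eq_of_le ?_ h1)
      congr 2
      exact Finset.filter_congr fun s' _ => by
        show q ^ 2 * N ≤ strict_mass U W s' ↔ q ^ 2 * N ≤ strict_mass (R * U) W s'
        rw [hR]
    set T := (Finset.univ : Finset (Fin N → Bool)).filter fun s =>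
      q ^ 2 * N ≤ strict_mass U W s ∧ strict_mass U W s ≤ Q * N
    have hle : ∀ᵐ R ∂ν, f (R * U) ≤ ∑ s ∈ T, wt β l (R * U) s := by
      filter_upwards [hfix] with R hR
      simp only [hf]
      rw [← Finset.sum_filter_add_sum_filter_not Finset.univ (fun s =>
        q ^ 2 * N ≤ strict_mass U W s ∧ strict_mass U W s ≤ Q * N)]
      have h0 : ∑ s ∈ Finset.univ.filter (fun s : Fin N → Bool =>
          ¬(q ^ 2 * N ≤ strict_mass U W s ∧ strict_mass U W s ≤ Q * N)),
          (E s).indicator (fun U => wt β l U s) (R * U) = 0 := by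
        refine Finset.sum_eq_zero fun s hs => Set.indicator_of_notMem ?_ _
        rintro ⟨-, h1, h2⟩
        exact (Finset.mem_filter.1 hs).2 ⟨hR s ▸ h1, hR s ▸ h2⟩
      rw [h0, add_zero]
      exact Finset.sum_le_sum fun s _ =>
        Set.indicator_le_self' (fun _ _ => (Real.exp_pos _).le) _
    have hwi : ∀ s, Integrable (fun R => wt β l (R * U) s) ν := fun s =>
      ((continuous_wt β l s).comp (continuous_id.mul continuous_const)).integrable_of_hasCompactSupport
        (HasCompactSupport.of_compactSpace _)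
    have hfi : Integrable (fun R => f (R * U)) ν :=
      Integrable.of_bound (hfm.comp (measurable_mul_const U)).aestronglyMeasurable _
        (ae_of_all _ fun R => by rw [Real.norm_eq_abs]; exact hfb _)
    refine (integral_mono_ae hfi (integrable_finsetSum _ fun s _ => hwi s) hle).trans ?_
    rw [integral_finsetSum _ fun s _ => hwi s]
    refine (Finset.sum_le_card_nsmul T _ K fun s hs => ?_).trans ?_
    swap
    · rw [nsmul_eq_mul]
      refine mul_le_mul_of_nonneg_right (le_trans ?_ hg) (Real.exp_pos _).le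
      have hsub : T ⊆ big U W q := fun s hs =>
        Finset.mem_filter.2 ⟨Finset.mem_univ _, (Finset.mem_filter.1 hs).2.1⟩
      exact_mod_cast Finset.card_le_card hsub
    obtain ⟨hq1, hQ1⟩ := (Finset.mem_filter.1 hs).2
    obtain ⟨x, hx⟩ : ∃ x, x = act U (spin s) := ⟨_, rfl⟩
    have hsx : sq x = N := by rw [hx, sq_act, strict_sq_spin]
    obtain ⟨m, hm⟩ : ∃ m, m = strict_mass U W s / N := ⟨_, rfl⟩
    have hN' : (0 : ℝ) < N := by exact_mod_cast hN
    have hmN : ∑ i ∈ W, x i ^ 2 = m * N := by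
      rw [hm, div_mul_cancel₀ _ hN'.ne', hx]; rfl
    have hmQ : m ≤ Q := by rw [hm, div_le_iff₀ hN']; exact hQ1
    have hm0 : 0 ≤ m := by
      rw [hm]
      exact div_nonneg (Finset.sum_nonneg fun _ _ => sq_nonneg _) hN'.le
    have hm1 : 0 < 1 - m := by linarith
    set xW : Fin N → ℝ := fun i => if i ∈ W then x i else 0
    set v' : Fin N → ℝ := fun i => if i ∈ W then 0 else x i
    set v := (Real.sqrt (1 - m))⁻¹ • v' with hv
    have hv0 : ∀ i ∈ W, v i = 0 := fun i hi => by simp [hv, v', hi]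
    have hsv' : sq v' = (1 - m) * N := by
      have : sq x = ∑ i ∈ W, x i ^ 2 + sq v' := by
        rw [sq, sq, ← Finset.sum_add_sum_compl W, ← Finset.sum_add_sum_compl W (fun i => v' i ^ 2)]
        rw [Finset.sum_eq_zero (s := W) (f := fun i => v' i ^ 2) fun i hi => by simp [v', hi],
          zero_add]
        congr 1
        exact Finset.sum_congr rfl fun i hi => by simp [v', Finset.mem_compl.1 hi]
      rw [hsx, hmN] at this
      linarith
    have hsv : sq v = N := by
      rw [hv, sq_smul, hsv', inv_pow, Real.sq_sqrt hm1.le]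
      field_simp
    set c : Fin N → ℝ := fun i => β * (1 - m) * l i
    set θ := β * (1 - m) * z
    have hcM : ∀ i, |c i| ≤ M := fun i => by
      refine le_trans ?_ (hlM i)
      rw [abs_mul, abs_mul, abs_of_pos hβ, abs_of_pos hm1, mul_assoc]
      exact mul_le_mul_of_nonneg_left (mul_le_of_le_one_left (abs_nonneg _) (by linarith)) hβ.le
    have hθM : |θ| ≤ M := by
      refine le_trans ?_ hzM
      rw [abs_mul, abs_mul, abs_of_pos hβ, abs_of_pos hm1, mul_assoc]
      exact mul_le_mul_of_nonneg_left (mul_le_of_le_one_left (abs_nonneg _) (by linarith)) hβ.le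
    have hlt : ∀ i ∈ Wᶜ, c i < θ := fun i _ =>
      mul_lt_mul_of_pos_left (lt_of_le_of_lt (hl i) hzh) (mul_pos hβ hm1)
    have hwle : ∀ᵐ R ∂ν, wt β l (R * U) s ≤ Real.exp (β / 2 * ((B + h) * (m * N))) *
        Real.exp ((∑ i ∈ Wᶜ, c i * act R v i ^ 2) / 2) := by
      filter_upwards [hν.fixes] with R hR
      rw [← Real.exp_add, wt]
      refine Real.exp_le_exp.2 (le_of_eq_of_le ?_ (add_le_add (mul_le_mul_of_nonneg_left
        (show ∑ i ∈ W, l i * x i ^ 2 ≤ (B + h) * (m * N) from ?_) (by positivity)) le_rfl))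
      · have hcoord : ∀ i, coord (R * U) s i = act R x i ^ 2 := fun i => by
          rw [hx, ← act_mul]; rfl
        simp only [hcoord]
        rw [← Finset.sum_add_sum_compl W, mul_add, Finset.sum_congr rfl fun i hi => by
          rw [hR i hi x]]
        congr 1
        have hxv : act R x = xW + Real.sqrt (1 - m) • act R v := by
          have e : x = xW + Real.sqrt (1 - m) • v := by
            funext i
            have hne := (Real.sqrt_pos.2 hm1).ne'
            by_cases hi : i ∈ W <;> simp [xW, hv, v', hi, hne]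
          conv_lhs => rw [e]
          rw [act_add, act_smul, act_fix_supp hR (fun i hi => by simp [xW, hi])]
        rw [Finset.mul_sum, Finset.sum_div]
        refine Finset.sum_congr rfl fun i hi => ?_
        rw [hxv]
        simp only [Pi.add_apply, Pi.smul_apply, smul_eq_mul, xW, if_neg (Finset.mem_compl.1 hi),
          zero_add, mul_pow, Real.sq_sqrt hm1.le, c]
        ring
      · rw [← hmN, Finset.mul_sum]
        exact Finset.sum_le_sum fun i _ => mul_le_mul_of_nonneg_right (hl i) (sq_nonneg _)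
    have hei : Integrable (fun R : OMat N => Real.exp ((∑ i ∈ Wᶜ, c i * act R v i ^ 2) / 2)) ν :=
      (Real.continuous_exp.comp ((continuous_finsetSum _ fun i _ => continuous_const.mul
        (((continuous_apply i).comp (continuous_act_left _)).pow 2)).div_const 2))
        |>.integrable_of_hasCompactSupport (HasCompactSupport.of_compactSpace _)
    refine (integral_mono_ae (hwi s) (hei.const_mul _) hwle).trans ?_
    rw [integral_const_mul]
    refine (mul_le_mul_of_nonneg_left (hsph ν W hν hW v hv0 hsv c θ hcM hθM hlt)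
      (Real.exp_pos _).le).trans ?_
    rw [← Real.exp_add, hK]
    refine Real.exp_le_exp.2 ?_
    have hlog : ∀ i, Real.log (θ - c i) = Real.log β + Real.log (1 - m) + Real.log (z - l i) :=
      fun i => by
        have hzl : 0 < z - l i := by linarith [hl i]
        rw [show θ - c i = β * (1 - m) * (z - l i) by simp only [θ, c]; ring,
          Real.log_mul (mul_pos hβ hm1).ne' hzl.ne', Real.log_mul hβ.ne' hm1.ne']
    have hsum : N * (Real.log β + Real.log (1 - Q)) + ∑ i, Real.log (z - l i) - ε * N * L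
        ≤ ∑ i ∈ Wᶜ, Real.log (θ - c i) := by
      have e : ∑ i ∈ Wᶜ, Real.log (θ - c i) = (N : ℝ) * (Real.log β + Real.log (1 - m))
          + ∑ i, Real.log (z - l i)
          - ((W.card : ℝ) * (Real.log β + Real.log (1 - m)) + ∑ i ∈ W, Real.log (z - l i)) := by
        simp only [hlog, Finset.sum_add_distrib, Finset.sum_const, nsmul_eq_mul,
          Finset.card_compl, Fintype.card_fin]
        rw [Nat.cast_sub ((Finset.card_le_univ W).trans (le_of_eq (Fintype.card_fin N))),
          ← Finset.sum_add_sum_compl W (fun i => Real.log (z - l i))]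
        ring
      have hWlog : ∑ i ∈ W, Real.log (z - l i) ≤ 0 := Finset.sum_nonpos fun i hi =>
        Real.log_nonpos (by linarith [hl i]) (hW1 i hi)
      have hmono : Real.log (1 - Q) ≤ Real.log (1 - m) := Real.log_le_log (by linarith) (by linarith)
      have hneg : Real.log (1 - m) ≤ 0 := Real.log_nonpos hm1.le (by linarith)
      have habs : Real.log β + Real.log (1 - m) ≤ L :=
        le_trans (by linarith [le_abs_self (Real.log β), abs_nonneg (Real.log (1 - Q))]) hL
      have hW' : (W.card : ℝ) * (Real.log β + Real.log (1 - m)) ≤ ε * N * L :=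
        (mul_le_mul_of_nonneg_left habs (Nat.cast_nonneg _)).trans
          (mul_le_mul_of_nonneg_right hW hL0)
      have hN2 : (N : ℝ) * (Real.log β + Real.log (1 - Q))
          ≤ N * (Real.log β + Real.log (1 - m)) :=
        mul_le_mul_of_nonneg_left (by linarith) hN'.le
      linarith
    have hmz : β * m * (B + h) * N ≤ β * m * z * N :=
      mul_le_mul_of_nonneg_right (mul_le_mul_of_nonneg_left hzh.le (mul_nonneg hβ.le hm0)) hN'.le
    simp only [θ]
    linarith
  refine (integral_mono_of_nonneg (ae_of_all _ fun U => integral_nonneg fun R =>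
    Finset.sum_nonneg fun s _ => Set.indicator_nonneg (fun U _ => (Real.exp_pos _).le) _)
    (integrable_const (C * K)) (ae_of_all _ key)).trans (le_of_eq ?_)
  simp

/-- The part of the partition function which is small on `W`. -/
def strict_small (β : ℝ) (l : Fin N → ℝ) (W : Finset (Fin N)) (m : ℝ) (U : OMat N) : ℝ :=
  (∑ s : Fin N → Bool, {U : OMat N | strict_mass U W s ≤ m * N}.indicator
    (fun U => wt β l U s) U) / 2 ^ N

/-- The part of the partition function in a band, where few configurations are that large. -/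
def strict_mid (β : ℝ) (l : Fin N → ℝ) (W : Finset (Fin N)) (C q Q : ℝ) (U : OMat N) : ℝ :=
  (∑ s : Fin N → Bool, {U : OMat N | ((big U W q).card : ℝ) ≤ C ∧
      q ^ 2 * N ≤ strict_mass U W s ∧ strict_mass U W s ≤ Q * N}.indicator
    (fun U => wt β l U s) U) / 2 ^ N

lemma strict_small_nonneg (β : ℝ) (l : Fin N → ℝ) (W : Finset (Fin N)) (m : ℝ) (U : OMat N) :
    0 ≤ strict_small β l W m U :=
  div_nonneg (Finset.sum_nonneg fun _ _ =>
    Set.indicator_nonneg (fun _ _ => (Real.exp_pos _).le) _) (by positivity)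

lemma strict_mid_nonneg (β : ℝ) (l : Fin N → ℝ) (W : Finset (Fin N)) (C q Q : ℝ) (U : OMat N) :
    0 ≤ strict_mid β l W C q Q U :=
  div_nonneg (Finset.sum_nonneg fun _ _ =>
    Set.indicator_nonneg (fun _ _ => (Real.exp_pos _).le) _) (by positivity)

lemma strict_small_integrable (β : ℝ) (l : Fin N → ℝ) (W : Finset (Fin N)) (m : ℝ) :
    Integrable (strict_small β l W m) (haarO N) :=
  (integrable_finsetSum _ fun s _ =>
    (integrable_of_continuous (continuous_wt β l s)).indicator
      (isClosed_le (strict_continuous_mass _ s) continuous_const).measurableSet).div_const _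

lemma strict_mid_integrable (β : ℝ) (l : Fin N → ℝ) (W : Finset (Fin N)) (C q Q : ℝ) :
    Integrable (strict_mid β l W C q Q) (haarO N) :=
  (integrable_finsetSum _ fun s _ =>
    (integrable_of_continuous (continuous_wt β l s)).indicator
      ((measurableSet_le (strict_measurable_card W _) measurable_const).inter
        ((isClosed_le continuous_const (strict_continuous_mass W s)).measurableSet.inter
          (isClosed_le (strict_continuous_mass W s) continuous_const).measurableSet))).div_const _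

lemma strict_low_exp {β M η ε B Ml κ τ h m c : ℝ} (hβ : 0 < β) (hκ : 0 < κ) (hκ1 : κ < 1)
    (hτ : 0 < τ) (hτ1 : τ ≤ 1 / 2) (hh : 0 < h) (hm : 0 ≤ m) {l : Fin N → ℝ}
    (hl : ∀ i, l i ≤ B + h) (hlM : ∀ i, |l i| ≤ Ml) (hMl : 0 ≤ Ml) (hM : β * (Ml + |B| + 1) ≤ M)
    (hε : 0 ≤ ε) (hN : 0 < N)
    (hsph : ∀ (ν : Measure (OMat N)) (W : Finset (Fin N)), Sub ν W →
      (W.card : ℝ) ≤ ε * N → ∀ v : Fin N → ℝ, (∀ i ∈ W, v i = 0) → sq v = N →
      ∀ (c : Fin N → ℝ) (θ : ℝ), (∀ i, |c i| ≤ M) → |θ| ≤ M → (∀ i ∈ Wᶜ, c i < θ) →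
        ∫ R, Real.exp ((∑ i ∈ Wᶜ, c i * act R v i ^ 2) / 2) ∂ν
          ≤ Real.exp (N * η + ((θ - 1) * N - ∑ i ∈ Wᶜ, Real.log (θ - c i)) / 2))
    (hc : β / 2 * ((τ + h) * m) + η + (β * (B - κ * τ) - 1 - Real.log β
          - (∑ i, Real.log (B - κ * τ - min (l i) (B - τ))) / N) / 2 ≤ c) :
    ∫ U, strict_small β l (Finset.univ.filter fun i => B - τ < l i) m U ∂haarO N
      ≤ Real.exp (N * c) := by
  have hN' : (0 : ℝ) < N := by exact_mod_cast hN
  have hb := le_abs_self B
  have hb' := neg_abs_le B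
  have h2 : 0 < (1 - κ) * τ := mul_pos (by linarith) hτ
  have hpos : ∀ i, 0 < B - κ * τ - min (l i) (B - τ) := fun i => by
    linarith [min_le_right (l i) (B - τ)]
  have hκτ1 : κ * τ ≤ 1 / 2 := (mul_le_of_le_one_left hτ.le hκ1.le).trans hτ1
  have hκτ0 : 0 ≤ κ * τ := by positivity
  refine (strict_low (θ := β * (B - κ * τ)) hβ.le (by linarith) hm hl hε hsph (fun i => ?_) ?_
    fun i => mul_lt_mul_of_pos_left (sub_pos.1 (hpos i)) hβ).trans (Real.exp_le_exp.2 ?_)
  · rw [abs_mul, abs_of_pos hβ]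
    refine le_trans (mul_le_mul_of_nonneg_left ?_ hβ.le) hM
    obtain ⟨h3, h4⟩ := abs_le.1 (hlM i)
    rw [abs_le]
    constructor
    · rcases min_choice (l i) (B - τ) with e | e <;> rw [e] <;> linarith
    · linarith [min_le_left (l i) (B - τ)]
  · rw [abs_mul, abs_of_pos hβ]
    refine le_trans (mul_le_mul_of_nonneg_left ?_ hβ.le) hM
    rw [abs_le]
    constructor <;> linarith
  · have hlog : ∑ i, Real.log (β * (B - κ * τ) - β * min (l i) (B - τ))
        = N * Real.log β + ∑ i, Real.log (B - κ * τ - min (l i) (B - τ)) := by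
      rw [Finset.sum_congr rfl fun i _ => by
        rw [← mul_sub, Real.log_mul hβ.ne' (hpos i).ne'], Finset.sum_add_distrib]
      simp
    rw [hlog]
    refine le_trans (le_of_eq ?_) (mul_le_mul_of_nonneg_left hc hN'.le)
    field_simp
    ring

lemma strict_band_exp {β M η ε z B Ml h q Q L K c : ℝ} (hβ : 0 < β) (hQ : Q < 1)
    {l : Fin N → ℝ} {W : Finset (Fin N)} (hW : (W.card : ℝ) ≤ ε * N)
    (hsph : ∀ (ν : Measure (OMat N)) (W : Finset (Fin N)), Sub ν W →
      (W.card : ℝ) ≤ ε * N → ∀ v : Fin N → ℝ, (∀ i ∈ W, v i = 0) → sq v = N →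
      ∀ (c : Fin N → ℝ) (θ : ℝ), (∀ i, |c i| ≤ M) → |θ| ≤ M → (∀ i ∈ Wᶜ, c i < θ) →
        ∫ R, Real.exp ((∑ i ∈ Wᶜ, c i * act R v i ^ 2) / 2) ∂ν
          ≤ Real.exp (N * η + ((θ - 1) * N - ∑ i ∈ Wᶜ, Real.log (θ - c i)) / 2))
    (hl : ∀ i, l i ≤ B + h) (hzh : B + h < z) (hlM : ∀ i, |l i| ≤ Ml) (hM : β * (Ml + |z|) ≤ M)
    (hMl : 0 ≤ Ml) (hW1 : ∀ i ∈ W, z - l i ≤ 1) (hL : |Real.log β| + |Real.log (1 - Q)| ≤ L)
    (hL0 : 0 ≤ L) (hN : 0 < N) (hq : 0 ≤ q)
    (hc : K + η + (β * z - 1 - Real.log β - Real.log (1 - Q)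
          - (∑ i, Real.log (z - l i)) / N + ε * L) / 2 ≤ c) :
    ∫ U, strict_mid β l W (2 ^ N * Real.exp (N * K)) q Q U ∂haarO N ≤ Real.exp (N * c) := by
  have hN' : (0 : ℝ) < N := by exact_mod_cast hN
  have h1 := strict_band (L := L) hβ hQ hW hsph hl hzh (fun i => le_trans
    (mul_le_mul_of_nonneg_left (le_add_of_le_of_nonneg (hlM i) (abs_nonneg z)) hβ.le) hM)
    (le_trans (mul_le_mul_of_nonneg_left (le_add_of_nonneg_left hMl) hβ.le) hM) hW1 hL hL0 hN hq
    (show 0 ≤ 2 ^ N * Real.exp (N * K) by positivity)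
  show ∫ U, (∑ s : Fin N → Bool, _) / 2 ^ N ∂haarO N ≤ _
  rw [integral_div]
  refine (div_le_div_of_nonneg_right h1 (by positivity)).trans ?_
  rw [mul_assoc, mul_div_cancel_left₀ _ (by positivity), ← Real.exp_add]
  refine Real.exp_le_exp.2 (le_trans (le_of_eq ?_) (mul_le_mul_of_nonneg_left hc hN'.le))
  field_simp
  ring

/-- The partition function is covered by the small part, the bands and the far part. -/
lemma strict_cover {β m r1 L K1 : ℝ} (hβ : 0 ≤ β) (hr1 : 0 ≤ r1) {l : Fin N → ℝ}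
    (hl : ∀ i, l i ≤ L) (W : Finset (Fin N)) (hN : 0 < N) {t : Finset ℝ} {e : ℝ → ℝ} {K : ℝ → ℝ}
    (hcov : Set.Icc (Real.sqrt m) r1 ⊆ ⋃ r ∈ t, Set.Ioo (r - e r) (r + e r))
    (hq0 : ∀ r ∈ t, 0 ≤ r - e r) (U : OMat N)
    (hbig : ∀ r ∈ t, ((big U W (r - e r)).card : ℝ) ≤ 2 ^ N * Real.exp (N * K r))
    (hfar : ((big U W r1).card : ℝ) ≤ 2 ^ N * Real.exp (N * K1)) :
    (∑ s, wt β l U s) / 2 ^ N ≤ strict_small β l W m U
      + (∑ r ∈ t, strict_mid β l W (2 ^ N * Real.exp (N * K r)) (r - e r) ((r + e r) ^ 2) U)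
      + Real.exp (N * (K1 + β / 2 * L)) := by
  have hN' : (0 : ℝ) < N := by exact_mod_cast hN
  have hfar' : (∑ s ∈ big U W r1, wt β l U s) / 2 ^ N ≤ Real.exp (N * (K1 + β / 2 * L)) := by
    rw [div_le_iff₀ (by positivity)]
    refine (Finset.sum_le_card_nsmul _ _ _ fun s _ => strict_wt_le hβ hl U s).trans ?_
    rw [nsmul_eq_mul]
    refine (mul_le_mul_of_nonneg_right hfar (Real.exp_pos _).le).trans (le_of_eq ?_)
    rw [mul_assoc, ← Real.exp_add, mul_comm (2 ^ N : ℝ)]
    ring_nf
  refine le_trans ?_ (add_le_add le_rfl hfar')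
  simp only [strict_small, strict_mid, ← Finset.sum_div, ← add_div]
  refine div_le_div_of_nonneg_right ?_ (by positivity)
  rw [Finset.sum_comm, big, Finset.sum_filter, ← Finset.sum_add_distrib,
    ← Finset.sum_add_distrib]
  refine Finset.sum_le_sum fun s _ => ?_
  have hw0 : 0 ≤ wt β l U s := (Real.exp_pos _).le
  have hw1 : 0 ≤ if r1 ^ 2 * N ≤ ∑ i ∈ W, act U (spin s) i ^ 2 then wt β l U s else 0 := by
    split_ifs <;> linarith
  have hnB : ∀ r ∈ t, 0 ≤ {U : OMat N |
      ((big U W (r - e r)).card : ℝ) ≤ 2 ^ N * Real.exp (N * K r) ∧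
        (r - e r) ^ 2 * N ≤ strict_mass U W s ∧ strict_mass U W s ≤ (r + e r) ^ 2 * N}.indicator
        (fun U => wt β l U s) U := fun r _ =>
    Set.indicator_nonneg (fun U _ => (Real.exp_pos _).le) U
  by_cases h1 : strict_mass U W s ≤ m * N
  · rw [Set.indicator_of_mem (by exact h1)]
    linarith [Finset.sum_nonneg hnB]
  have hnA : {U : OMat N | strict_mass U W s ≤ m * N}.indicator (fun U => wt β l U s) U = 0 :=
    Set.indicator_of_notMem (by exact h1) _
  by_cases h2 : r1 ^ 2 * N ≤ strict_mass U W s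
  · rw [if_pos (by exact h2)]
    linarith [Finset.sum_nonneg hnB]
  rw [not_le] at h1 h2
  set x := Real.sqrt (strict_mass U W s / N) with hxdef
  have hmN : 0 ≤ strict_mass U W s / N :=
    div_nonneg (Finset.sum_nonneg fun _ _ => sq_nonneg _) hN'.le
  have hx : x ∈ Set.Icc (Real.sqrt m) r1 := by
    refine ⟨Real.sqrt_le_sqrt ?_, (Real.sqrt_le_iff).2 ⟨hr1, ?_⟩⟩
    · rw [le_div_iff₀ hN']; linarith
    · rw [div_le_iff₀ hN']; linarith
  obtain ⟨r, hrt, hxr⟩ := Set.mem_iUnion₂.1 (hcov hx)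
  have hmass : strict_mass U W s = x ^ 2 * N := by
    rw [hxdef, Real.sq_sqrt hmN, div_mul_cancel₀ _ hN'.ne']
  have hmem : U ∈ {U : OMat N |
      ((big U W (r - e r)).card : ℝ) ≤ 2 ^ N * Real.exp (N * K r) ∧
        (r - e r) ^ 2 * N ≤ strict_mass U W s ∧ strict_mass U W s ≤ (r + e r) ^ 2 * N} := by
    refine ⟨hbig r hrt, ?_, ?_⟩
    · rw [hmass]
      exact mul_le_mul_of_nonneg_right (pow_le_pow_left₀ (hq0 r hrt) hxr.1.le 2) hN'.le
    · rw [hmass]
      exact mul_le_mul_of_nonneg_right (pow_le_pow_left₀ (Real.sqrt_nonneg _) hxr.2.le 2) hN'.le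
  have := Finset.single_le_sum hnB hrt
  rw [Set.indicator_of_mem hmem] at this
  linarith

/-- Markov outside a bad set. -/
lemma strict_markov {β p d : ℝ} (l : Fin N → ℝ) (hN : 0 < N) {bad : Set (OMat N)}
    {G : OMat N → ℝ} (hG : Integrable G (haarO N)) (hG0 : ∀ U, 0 ≤ G U) {K : ℝ}
    (hGle : ∫ U, G U ∂haarO N ≤ K * Real.exp (N * (p - d)))
    (hcov : ∀ U ∉ bad, (∑ s, wt β l U s) / 2 ^ N ≤ G U) :
    (haarO N).real {U | p ≤ pressure β l U}
      ≤ (haarO N).real bad + K * Real.exp (-(d * N)) := by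
  have hN' : (0 : ℝ) < N := by exact_mod_cast hN
  have hsub : {U | p ≤ pressure β l U} ⊆ bad ∪ {U | Real.exp (N * p) ≤ G U} := fun U hU => by
    by_cases hb : U ∈ bad
    · exact Or.inl hb
    · rw [Set.mem_setOf_eq, pressure_eq, le_div_iff₀ hN', Real.le_log_iff_exp_le
        (div_pos (sum_wt_pos β l U) (by positivity)), mul_comm] at hU
      exact Or.inr (hU.trans (hcov U hb))
  refine (measureReal_mono hsub).trans ((measureReal_union_le _ _).trans (add_le_add le_rfl ?_))
  refine le_of_mul_le_mul_left (((mul_meas_ge_le_integral_of_nonneg (μ := haarO N) (ae_of_all _ hG0)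
    hG (Real.exp (N * p))).trans hGle).trans (le_of_eq ?_)) (Real.exp_pos (N * p))
  rw [show N * (p - d) = N * p + -(d * N) by ring, Real.exp_add]
  ring

variable {μ : Measure ℝ} {a b : ℝ} {l : (N : ℕ) → Fin N → ℝ}

theorem strict_gap (A : Admissible μ a b l) {β γ : ℝ} (hγ : γ < β)
    (hG : ∀ z, b < z → stieltjes μ z ≤ γ) :
    ∃ δ > 0, Tendsto (fun N : ℕ => (haarO N).real {U | annealed μ b β - δ ≤ pressure β (l N) U})
      atTop (𝓝 0) := by
  have hprob := A.prob
  have hγ0 : 0 < γ :=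
    (pot_stieltjes_pos A (lt_add_one b)).trans_le (hG _ (lt_add_one b))
  have hβ : 0 < β := hγ0.trans hγ
  set S := annealed μ b β with hS
  -- constants of the small part
  set κ := (1 - γ / β) / 2 with hκdef
  have hγβ : γ / β < 1 := (div_lt_one hβ).2 hγ
  have hκ : 0 < κ := by rw [hκdef]; linarith
  have hκ1 : κ < 1 := by
    have : 0 < γ / β := div_pos hγ0 hβ
    rw [hκdef]; linarith
  set g := β - γ / (1 - κ) with hgdef
  have hg : 0 < g := by
    rw [hgdef, sub_pos, div_lt_iff₀ (by linarith), hκdef]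
    have e : β * (1 - (1 - γ / β) / 2) = (β + γ) / 2 := by field_simp; ring
    linarith
  set ms := min (1 / 2) (κ * g / (2 * β)) with hmsdef
  have hms : 0 < ms := lt_min one_half_pos (by positivity)
  have hms' : ms * (2 * β) ≤ κ * g := (le_div_iff₀ (by linarith)).1 (min_le_right _ _)
  set r0 := Real.sqrt ms with hr0def
  have hr0 : 0 < r0 := Real.sqrt_pos.2 hms
  -- the far part
  set E := ∫ g, |g| ∂ProbabilityTheory.gaussianReal 0 1 with hEdef
  have hE1 : E < 1 := abs_mean_lt
  have hE0 : 0 ≤ E := integral_nonneg fun g => abs_nonneg g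
  set r1 := (E + 1) / 2 with hr1def
  have hEr1 : E < r1 := by rw [hr1def]; linarith
  have hr11 : r1 < 1 := by rw [hr1def]; linarith
  set Λ := max 0 ((β * (|b| + 1) / 2 - S + 1) / (r1 - E)) with hΛdef
  have hΛ : 0 ≤ Λ := le_max_left _ _
  have hfar : β * (|b| + 1) / 2 + ell Λ - Λ * r1 ≤ S - 1 := by
    have h1 : ell Λ ≤ Λ * E := by
      have := ell_le Λ
      rwa [abs_of_nonneg hΛ] at this
    have h2 := (div_le_iff₀ (sub_pos.2 hEr1)).1
      (le_max_right 0 ((β * (|b| + 1) / 2 - S + 1) / (r1 - E)))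
    rw [← hΛdef] at h2
    linarith
  -- the bands
  set lam : ℝ → ℝ := fun r => r / (1 - r ^ 2) with hlamdef
  have hband : ∀ r ∈ Set.Icc r0 r1, ∃ e > 0, 0 ≤ r - e ∧ r + e < 1 ∧
      ell (lam r) - lam r * (r - e) - Real.log (1 - (r + e) ^ 2) / 2 < 0 := by
    intro r hr
    have hr' : 0 < r := hr0.trans_le hr.1
    have hr1' : r < 1 := hr.2.trans_lt hr11
    have h0 : ell (lam r) - lam r * (r - 0) - Real.log (1 - (r + 0) ^ 2) / 2 < 0 := by
      have := ell_lt hr' hr1'
      simp only [hlamdef, sub_zero, add_zero]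
      linarith
    have hne : 1 - (r + 0) ^ 2 ≠ 0 := by
      rw [add_zero]; nlinarith
    have hc : ContinuousAt
        (fun e => ell (lam r) - lam r * (r - e) - Real.log (1 - (r + e) ^ 2) / 2) 0 := by
      fun_prop (disch := exact hne)
    obtain ⟨e, ⟨h1, h2, h3⟩, he⟩ :=
      (((hc.tendsto.eventually (eventually_lt_nhds h0)).filter_mono nhdsWithin_le_nhds).and
        (((eventually_le_nhds hr').filter_mono nhdsWithin_le_nhds).and
          ((eventually_lt_nhds (show (0 : ℝ) < 1 - r by linarith)).filter_mono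
            nhdsWithin_le_nhds)) |>.and
        (eventually_mem_nhdsWithin : ∀ᶠ e in 𝓝[>] (0 : ℝ), e ∈ Set.Ioi 0)).exists
    exact ⟨e, he, by linarith, by linarith, h1⟩
  choose! e he hq0 hQ1 hgap using hband
  obtain ⟨t, htK, hcov⟩ := isCompact_Icc.elim_nhds_subcover (fun r => Set.Ioo (r - e r) (r + e r))
    fun r hr => Ioo_mem_nhds (by linarith [he r hr]) (by linarith [he r hr])
  set F := fun r => ell (lam r) - lam r * (r - e r) - Real.log (1 - (r + e r) ^ 2) / 2 with hFdef
  obtain ⟨g0, hg0F, hg0⟩ : ∃ g0, (∀ r ∈ t, F r ≤ -g0) ∧ g0 ∈ Set.Ioi (0 : ℝ) := by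
    refine ((t.eventually_all.2 fun r hr => ?_).and
      (eventually_mem_nhdsWithin : ∀ᶠ x in 𝓝[>] (0 : ℝ), x ∈ Set.Ioi 0)).exists
    refine ((eventually_le_nhds (show (0 : ℝ) < -F r from neg_pos.2 (hgap r (htK r hr)))).filter_mono
      nhdsWithin_le_nhds).mono fun x hx => by linarith
  rw [Set.mem_Ioi] at hg0
  set L := |Real.log β| + ∑ r ∈ t, |Real.log (1 - (r + e r) ^ 2)| with hLdef
  have hL0 : 0 ≤ L := add_nonneg (abs_nonneg _) (Finset.sum_nonneg fun _ _ => abs_nonneg _)
  -- the point `z`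
  set ηB := g0 / 10 with hηBdef
  have hηB : 0 < ηB := by positivity
  obtain ⟨z1, hz1, hz1'⟩ := annealed_near A hβ hηB
  set z := min z1 (b + 1 / 2) with hzdef
  have hz : b < z := lt_min hz1 (by linarith)
  have hzb : z ≤ b + 1 / 2 := min_le_right _ _
  have hphi : phi μ β z ≤ S + ηB := (phi_mono A hγ hG hz (min_le_left _ _)).trans hz1'
  obtain ⟨Ml, hMl0, hMl⟩ := exists_bound A
  set M := β * (Ml + |b| + |z| + 1) with hMdef
  obtain ⟨εs, hεs, N1, hsphB⟩ := sph_upper M ηB hηB
  have hlam0 : ∀ r ∈ t, 0 ≤ lam r := fun r hr => by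
    have hr' := htK r hr
    exact div_nonneg (hr0.le.trans hr'.1)
      (by nlinarith [hr0.trans_le hr'.1, hr'.2.trans_lt hr11])
  have hfew : ∀ (lam δ : ℝ), 0 ≤ lam → 0 < δ → ∀ᶠ ε in 𝓝[>] (0 : ℝ), ∃ c > 0, ∀ᶠ N : ℕ in atTop,
      ∀ W : Finset (Fin N), (W.card : ℝ) ≤ ε * N →
        (haarO N).real {U | ∃ r : ℝ, 0 ≤ r ∧ r ≤ 1 ∧
          2 ^ N * Real.exp (N * (ell lam + δ - lam * r)) < ((big U W r).card : ℝ)}
          ≤ Real.exp (-(c * N)) := by
    intro lam δ h1 h2
    obtain ⟨ε', hε', c, hc, N0, hN0⟩ := few_big lam δ h1 h2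
    filter_upwards [(eventually_le_nhds hε').filter_mono nhdsWithin_le_nhds] with ε hε
    refine ⟨c, hc, ?_⟩
    filter_upwards [eventually_ge_atTop N0] with N hN W hW
    exact hN0 N hN W (hW.trans (mul_le_mul_of_nonneg_right hε (Nat.cast_nonneg N)))
  obtain ⟨ε, ⟨⟨⟨hεf, hεΛ⟩, hεs', hεL⟩, hε⟩⟩ :=
    ((((t.eventually_all.2 fun r hr => hfew (lam r) (g0 / 4) (hlam0 r hr) (by positivity)).and
      (hfew Λ (1 / 4) hΛ (by norm_num))).and
      (((eventually_le_nhds hεs).filter_mono nhdsWithin_le_nhds).and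
        ((eventually_le_nhds (show 0 < g0 / (5 * (L + 1)) by positivity)).filter_mono
          nhdsWithin_le_nhds))).and
      (eventually_mem_nhdsWithin : ∀ᶠ x in 𝓝[>] (0 : ℝ), x ∈ Set.Ioi 0)).exists
  rw [Set.mem_Ioi] at hε
  have hεL' : ε * L ≤ g0 / 5 := by
    have h := (le_div_iff₀ (by positivity)).1 hεL
    linarith
  choose! cf hcf hcfN using hεf
  obtain ⟨cΛ, hcΛ, hcΛN⟩ := hεΛ
  -- the threshold
  set τ := min (1 / 2) (ε / (4 * γ)) with hτdef
  have hτ : 0 < τ := lt_min one_half_pos (by positivity)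
  have hτε : 2 * γ * τ + ε / 2 ≤ ε := by
    have := (le_div_iff₀ (by positivity)).1 (min_le_right (1 / 2) (ε / (4 * γ)))
    rw [← hτdef] at this
    linarith
  set GA := κ * τ * g / 4 with hGAdef
  have hGA : 0 < GA := by positivity
  obtain ⟨εA, hεA, N2, hsphA⟩ := sph_upper M (GA / 10) (by positivity)
  set δ := min (GA / 4) (min (g0 / 8) (1 / 4)) with hδdef
  have hδ : 0 < δ := lt_min (by positivity) (lt_min (by positivity) (by norm_num))
  refine ⟨δ, hδ, ?_⟩
  set h := min (min ((z - b) / 2) (GA / β)) (1 / 2) with hhdef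
  have hh : 0 < h := lt_min (lt_min (by linarith) (by positivity)) one_half_pos
  have hhz : b + h < z := by
    linarith [min_le_left ((z - b) / 2) (GA / β), min_le_left (min ((z - b) / 2) (GA / β)) (1 / 2)]
  have hhG : β * h ≤ GA := by
    have h1 := (min_le_left (min ((z - b) / 2) (GA / β)) (1 / 2)).trans (min_le_right _ _)
    rw [← hhdef, le_div_iff₀ hβ] at h1
    linarith
  have hfinal : Tendsto (fun N : ℕ => (∑ r ∈ t, Real.exp (-(cf r * N))) + Real.exp (-(cΛ * N))
      + ((1 : ℝ) + t.card + 1) * Real.exp (-(δ / 2 * N))) atTop (𝓝 0) := by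
    have hexp : ∀ c : ℝ, 0 < c → Tendsto (fun N : ℕ => Real.exp (-(c * N))) atTop (𝓝 0) :=
      fun c hc => Real.tendsto_exp_neg_atTop_nhds_zero.comp
        (tendsto_natCast_atTop_atTop.const_mul_atTop hc)
    simpa using ((tendsto_finsetSum t fun r hr => hexp (cf r) (hcf r hr)).add (hexp cΛ hcΛ)).add
      ((hexp (δ / 2) (half_pos hδ)).const_mul _)
  refine squeeze_zero' (Eventually.of_forall fun N => measureReal_nonneg) ?_ hfinal
  filter_upwards [eventually_ge_atTop N1, eventually_ge_atTop N2, eventually_gt_atTop 0,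
    eventually_le A hh, hMl, mass_edge_le A hG hτ (ε / 2) (half_pos hε),
    phi_clamp A hβ hγ hG hκ hκ1 hτ (GA / 10) (by positivity),
    (tendsto_log A hz).eventually (eventually_ge_nhds (show logPot μ z - 2 * ηB < logPot μ z by
      linarith)), t.eventually_all.2 hcfN, hcΛN]
    with N hN1 hN2 hN hlh hlM hWcard hclamp hlogz hfN hΛN
  obtain ⟨W, hWdef⟩ : ∃ W, W = Finset.univ.filter fun i => b - τ < l N i := ⟨_, rfl⟩
  have hW : (W.card : ℝ) ≤ ε * N := by
    rw [hWdef]; exact hWcard.trans (mul_le_mul_of_nonneg_right hτε (Nat.cast_nonneg N))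
  have hτ1 : τ ≤ 1 / 2 := min_le_left _ _
  have hW1 : ∀ i ∈ W, z - l N i ≤ 1 := fun i hi => by
    rw [hWdef, Finset.mem_filter] at hi
    linarith [hi.2]
  set K : ℝ → ℝ := fun r => ell (lam r) + g0 / 4 - lam r * (r - e r) with hKdef
  set bad : Set (OMat N) := (⋃ r ∈ t, {U | ∃ q : ℝ, 0 ≤ q ∧ q ≤ 1 ∧
      2 ^ N * Real.exp (N * (ell (lam r) + g0 / 4 - lam r * q)) < ((big U W q).card : ℝ)}) ∪
      {U | ∃ q : ℝ, 0 ≤ q ∧ q ≤ 1 ∧
      2 ^ N * Real.exp (N * (ell Λ + 1 / 4 - Λ * q)) < ((big U W q).card : ℝ)} with hbaddef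
  set G : OMat N → ℝ := fun U => strict_small β (l N) W ms U
      + (∑ r ∈ t, strict_mid β (l N) W (2 ^ N * Real.exp (N * K r)) (r - e r) ((r + e r) ^ 2) U)
      + Real.exp (N * (ell Λ + 1 / 4 - Λ * r1 + β / 2 * (b + h))) with hGdef
  have hcover : ∀ U ∉ bad, (∑ s, wt β (l N) U s) / 2 ^ N ≤ G U := by
    intro U hU
    simp only [hbaddef, Set.mem_union, Set.mem_iUnion, Set.mem_setOf_eq, not_or, not_exists,
      not_and, not_lt] at hU
    exact strict_cover hβ.le (by linarith) hlh W hN hcov (fun r hr => hq0 r (htK r hr)) U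
      (fun r hr => hU.1 r hr _ (hq0 r (htK r hr))
        (by linarith [he r (htK r hr), hQ1 r (htK r hr)]))
      (hU.2 r1 (by linarith) hr11.le)
  have hb1 : δ ≤ GA / 4 := min_le_left _ _
  have hb2 : δ ≤ g0 / 8 := (min_le_right _ _).trans (min_le_left _ _)
  have hb3 : δ ≤ 1 / 4 := (min_le_right _ _).trans (min_le_right _ _)
  have h1le : h ≤ 1 / 2 := min_le_right _ _
  have hMA : β * (Ml + |b| + 1) ≤ M :=
    mul_le_mul_of_nonneg_left (by linarith [abs_nonneg z]) hβ.le
  have hMB : β * (Ml + |z|) ≤ M :=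
    mul_le_mul_of_nonneg_left (by linarith [abs_nonneg b]) hβ.le
  have hEA : ∫ U, strict_small β (l N) W ms U ∂haarO N ≤ Real.exp (N * (S - δ - δ / 2)) := by
    rw [hWdef]
    refine strict_low_exp hβ hκ hκ1 hτ hτ1 hh hms.le hlh hlM hMl0.le hMA hεA.le hN (hsphA N hN2) ?_
    have h1 := mul_le_mul_of_nonneg_left hms' hτ.le
    have h2 := mul_le_mul hhG (min_le_left (1 / 2) (κ * g / (2 * β))) hms.le hGA.le
    rw [← hgdef] at hclamp
    rw [← hmsdef] at h2
    linarith
  have hEB : ∀ r ∈ t, ∫ U, strict_mid β (l N) W (2 ^ N * Real.exp (N * K r)) (r - e r)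
      ((r + e r) ^ 2) U ∂haarO N ≤ Real.exp (N * (S - δ - δ / 2)) := by
    intro r hrt
    have hr := htK r hrt
    have hQlt : (r + e r) ^ 2 < 1 :=
      pow_lt_one₀ (by linarith [hr.1, he r hr]) (hQ1 r hr) two_ne_zero
    refine strict_band_exp (L := L) hβ hQlt hW
      (fun ν W' hν hW' => hsphB N hN1 ν W' hν
        (hW'.trans (mul_le_mul_of_nonneg_right hεs' (Nat.cast_nonneg N))))
      hlh hhz hlM hMB hMl0.le hW1 ?_ hL0 hN (hq0 r hr) ?_
    · exact add_le_add le_rfl (Finset.single_le_sum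
        (f := fun r => |Real.log (1 - (r + e r) ^ 2)|) (fun _ _ => abs_nonneg _) hrt)
    · have h1 := hg0F r hrt
      have h2 : (β * z - 1 - Real.log β - (∑ i, Real.log (z - l N i)) / N) / 2
          ≤ S + 2 * ηB := by
        unfold phi at hphi
        linarith
      simp only [hFdef] at h1
      simp only [hKdef]
      linarith
  have hEC : Real.exp (N * (ell Λ + 1 / 4 - Λ * r1 + β / 2 * (b + h)))
      ≤ Real.exp (N * (S - δ - δ / 2)) := by
    refine Real.exp_le_exp.2 (mul_le_mul_of_nonneg_left ?_ (Nat.cast_nonneg N))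
    have := mul_le_mul_of_nonneg_left (show b + h ≤ |b| + 1 by linarith [le_abs_self b])
      (show 0 ≤ β / 2 by positivity)
    linarith
  have i1 := strict_small_integrable β (l N) W ms
  have i2 : Integrable (fun U => ∑ r ∈ t, strict_mid β (l N) W (2 ^ N * Real.exp (N * K r))
      (r - e r) ((r + e r) ^ 2) U) (haarO N) :=
    integrable_finsetSum _ fun r _ => strict_mid_integrable _ _ _ _ _ _
  have hiG : Integrable G (haarO N) := (i1.add i2).add (integrable_const _)
  have hG0 : ∀ U, 0 ≤ G U := fun U => add_nonneg (add_nonneg (strict_small_nonneg _ _ _ _ _)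
    (Finset.sum_nonneg fun r _ => strict_mid_nonneg _ _ _ _ _ _ _)) (Real.exp_pos _).le
  have hEG : ∫ U, G U ∂haarO N ≤ ((1 : ℝ) + t.card + 1) * Real.exp (N * (S - δ - δ / 2)) := by
    simp only [hGdef]
    rw [integral_add (f := fun U => strict_small β (l N) W ms U + ∑ r ∈ t, strict_mid β (l N) W
      (2 ^ N * Real.exp (N * K r)) (r - e r) ((r + e r) ^ 2) U) (i1.add i2) (integrable_const _),
      integral_add i1 i2,
      integral_finsetSum _ fun r _ => strict_mid_integrable _ _ _ _ _ _, integral_const,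
      probReal_univ, one_smul]
    have := Finset.sum_le_sum hEB
    rw [Finset.sum_const, nsmul_eq_mul] at this
    linarith
  refine (strict_markov (l N) hN hiG hG0 hEG hcover).trans (add_le_add ?_ le_rfl)
  refine (measureReal_union_le _ _).trans (add_le_add ?_ (hΛN W hW))
  exact (measureReal_biUnion_finset_le t _).trans (Finset.sum_le_sum fun r hr => hfN r hr W hW)

end

end Vale.Agent.P166.High
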