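import Vale.Agent.P166.High.HighTemp
import Vale.Agent.P166.High.Strict

/-!
# P166 high temperature: assembly
-/

namespace Vale.Agent.P166.High

open MeasureTheory Filter Topology

noncomputable section

variable {μ : Measure ℝ} {a b : ℝ} {l : (N : ℕ) → Fin N → ℝ}

theorem self_averaging_limit (A : Admissible μ a b l) {β : ℝ} (hβ : 0 ≤ β) :
    Tendsto (fun N : ℕ => ∫ U, |pressure β (l N) U - ∫ V, pressure β (l N) V ∂haarO N| ∂haarO N)
      atTop (𝓝 0) := by
  obtain ⟨M, -, hM⟩ := exists_bound A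
  rw [Metric.tendsto_atTop]
  intro δ hδ
  obtain ⟨N0, hN0⟩ := self_averaging hβ M (δ / 2) (by positivity)
  obtain ⟨N1, hN1⟩ := eventually_atTop.1 hM
  refine ⟨max N0 N1, fun N hN => ?_⟩
  have h := hN0 N (le_of_max_le_left hN) (l N) (hN1 N (le_of_max_le_right hN))
  rw [Real.dist_eq, sub_zero, abs_of_nonneg (integral_nonneg fun _ => abs_nonneg _)]
  linarith

/-- Convergence in mean puts all mass near the limit. -/
lemma not_converges_of_gap {β c δ : ℝ} (hδ : 0 < δ)
    (h : Tendsto (fun N : ℕ => (haarO N).real {U | c - δ ≤ pressure β (l N) U}) atTop (𝓝 0)) :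
    ¬ ConvergesTo β l c := by
  intro hc
  have h1 : ∀ᶠ N : ℕ in atTop, (haarO N).real {U | c - δ ≤ pressure β (l N) U} < 1 / 4 :=
    h.eventually_lt_const (by norm_num)
  have h2 : ∀ᶠ N : ℕ in atTop, ∫ U, |pressure β (l N) U - c| ∂haarO N < δ / 4 :=
    hc.eventually_lt_const (by positivity)
  obtain ⟨N, hN1, hN2⟩ := (h1.and h2).exists
  have hm := mul_meas_ge_le_integral_of_nonneg (μ := haarO N)
    (ae_of_all _ fun U => abs_nonneg (pressure β (l N) U - c))
    ((integrable_of_continuous (continuous_pressure β (l N))).sub (integrable_const c)).abs δ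
  have hset : MeasurableSet {U : OMat N | c - δ ≤ pressure β (l N) U} :=
    measurableSet_le measurable_const (continuous_pressure β (l N)).measurable
  have hsub : {U : OMat N | c - δ ≤ pressure β (l N) U}ᶜ
      ⊆ {U | δ ≤ |pressure β (l N) U - c|} := fun U hU => by
    simp only [Set.mem_compl_iff, Set.mem_ofPred_eq, not_le] at hU ⊢
    exact le_trans (by linarith) (neg_le_abs _)
  have hcompl := measureReal_mono (μ := haarO N) hsub
  rw [measureReal_compl hset, probReal_univ] at hcompl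
  nlinarith

theorem critical (A : Admissible μ a b l) {g : ℝ} (hg : IsLUB (stieltjes μ '' Set.Ioi b) g)
    (h1 : ∀ z, b < z → 1 / stieltjes μ z ^ 2 - 1 / stieltjes2 μ z ≤ 1 / g ^ 2)
    {β : ℝ} (hβ : 0 < β) :
    ConvergesTo β l (annealed μ b β) ↔ β ≤ g := by
  have hG : ∀ z, b < z → stieltjes μ z ≤ g := fun z hz => hg.1 ⟨z, hz, rfl⟩
  have hg0 : 0 < g :=
    (pot_stieltjes_pos A (lt_add_one b)).trans_le (hG _ (lt_add_one b))
  refine ⟨fun hc => not_lt.1 fun hlt => ?_, fun hle => high_limit A hβ h1 (fun ε hε => ?_) ?_⟩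
  · obtain ⟨δ, hδ, h⟩ := strict_gap A hlt hG
    exact not_converges_of_gap hδ h hc
  · obtain ⟨r, hr, hr1⟩ : ∃ r, 0 < r ∧ 1 ≤ (1 / g ^ 2 + ε) * r ^ 2 ∧ r < g := by
      refine ⟨g / Real.sqrt (1 + ε * g ^ 2), by positivity, le_of_eq ?_, ?_⟩
      · rw [div_pow, Real.sq_sqrt (by positivity)]
        field_simp
      · refine div_lt_self hg0 ((Real.lt_sqrt zero_le_one).2 ?_)
        rw [one_pow]
        exact lt_add_of_pos_right 1 (by positivity)
    obtain ⟨_, ⟨z, hz, rfl⟩, hzr, -⟩ := hg.exists_between hr1.2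
    exact ⟨z, hz, hr1.1.trans (mul_le_mul_of_nonneg_left
      (pow_le_pow_left₀ hr.le hzr.le 2) (by positivity))⟩
  · rw [← mul_div_assoc, mul_one, div_le_one (by positivity)]
    exact pow_le_pow_left₀ hβ.le hle 2

end

end Vale.Agent.P166.High
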