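import Vale.Agent.P166.High.Basic

/-!
# P166 high temperature: functions of symmetric matrices and the regularised polar factors
-/

namespace Vale.Agent.P166.High

open Matrix

noncomputable section

variable {ι κ : Type*} [Fintype ι] [Fintype κ]

/-- The squared Frobenius norm. -/
def frob (A : Matrix ι κ ℝ) : ℝ := ∑ i, ∑ j, A i j ^ 2

/-- A function of a symmetric matrix through its spectral decomposition. -/
def symFn [DecidableEq ι] (h : ℝ → ℝ) (A : Matrix ι ι ℝ) : Matrix ι ι ℝ :=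
  if hA : A.IsHermitian then
    (hA.eigenvectorUnitary : Matrix ι ι ℝ) * diagonal (h ∘ hA.eigenvalues)
      * (hA.eigenvectorUnitary : Matrix ι ι ℝ)ᵀ
  else 0

variable {N : ℕ}

/-- The symmetric dilation of a square matrix. -/
def dil (G : Matrix (Fin N) (Fin N) ℝ) : Matrix (Fin N ⊕ Fin N) (Fin N ⊕ Fin N) ℝ :=
  fromBlocks 0 G Gᵀ 0

/-- `G (GᵀG + a)^(-1/2)`. -/
def regB (a : ℝ) (G : Matrix (Fin N) (Fin N) ℝ) : Matrix (Fin N) (Fin N) ℝ :=
  (symFn (fun x => x / Real.sqrt (x ^ 2 + a)) (dil G)).toBlocks₁₂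

/-- `(GᵀG)^(1/2) (GᵀG + a)^(-1/2)`. -/
def regK (a : ℝ) (G : Matrix (Fin N) (Fin N) ℝ) : Matrix (Fin N) (Fin N) ℝ :=
  (symFn (fun x => |x| / Real.sqrt (x ^ 2 + a)) (dil G)).toBlocks₂₂


/-- A real orthogonal matrix, as a pair of identities. -/
structure IsOrth [DecidableEq ι] (P : Matrix ι ι ℝ) : Prop where
  left : Pᵀ * P = 1
  right : P * Pᵀ = 1

lemma IsOrth.transpose [DecidableEq ι] {P : Matrix ι ι ℝ} (h : IsOrth P) : IsOrth Pᵀ :=
  ⟨by rw [transpose_transpose]; exact h.right, by rw [transpose_transpose]; exact h.left⟩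

lemma IsOrth.mul [DecidableEq ι] {P Q : Matrix ι ι ℝ} (h : IsOrth P) (h' : IsOrth Q) :
    IsOrth (P * Q) := by
  constructor
  · rw [transpose_mul, Matrix.mul_assoc, ← Matrix.mul_assoc Pᵀ, h.left, Matrix.one_mul, h'.left]
  · rw [transpose_mul, Matrix.mul_assoc, ← Matrix.mul_assoc Q, h'.right, Matrix.one_mul, h.right]

lemma isOrth_OMat {N : ℕ} (U : OMat N) : IsOrth (U : Matrix (Fin N) (Fin N) ℝ) :=
  ⟨(mem_orthogonalGroup_iff' (n := Fin N) (R := ℝ)).1 U.2,
    (mem_orthogonalGroup_iff (n := Fin N) (R := ℝ)).1 U.2⟩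

lemma frob_trace (X : Matrix ι κ ℝ) : frob X = (Xᵀ * X).trace := by
  simp only [frob, trace, diag, mul_apply, transpose_apply, pow_two]
  exact Finset.sum_comm

lemma frob_transpose (X : Matrix ι κ ℝ) : frob Xᵀ = frob X := by
  simp only [frob, transpose_apply]
  exact Finset.sum_comm

lemma frob_nonneg (X : Matrix ι κ ℝ) : 0 ≤ frob X :=
  Finset.sum_nonneg fun _ _ => Finset.sum_nonneg fun _ _ => sq_nonneg _

lemma sq_entry_le_frob (X : Matrix ι κ ℝ) (i : ι) (j : κ) : X i j ^ 2 ≤ frob X :=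
  le_trans (Finset.single_le_sum (f := fun k => X i k ^ 2) (fun _ _ => sq_nonneg _)
      (Finset.mem_univ j))
    (Finset.single_le_sum (f := fun k => ∑ l, X k l ^ 2)
      (fun _ _ => Finset.sum_nonneg fun _ _ => sq_nonneg _) (Finset.mem_univ i))

lemma frob_blocks {α β : Type*} [Fintype α] [Fintype β] (A : Matrix α α ℝ) (B : Matrix α β ℝ)
    (C : Matrix β α ℝ) (D : Matrix β β ℝ) :
    frob (fromBlocks A B C D) = frob A + frob B + frob C + frob D := by
  simp only [frob, Fintype.sum_sum_type, fromBlocks_apply₁₁, fromBlocks_apply₁₂,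
    fromBlocks_apply₂₁, fromBlocks_apply₂₂, Finset.sum_add_distrib]
  ring

lemma frob_orth_left [DecidableEq ι] {P : Matrix ι ι ℝ} (h : IsOrth P) (X : Matrix ι κ ℝ) :
    frob (P * X) = frob X := by
  rw [frob_trace, frob_trace, transpose_mul, Matrix.mul_assoc, ← Matrix.mul_assoc Pᵀ, h.left,
    Matrix.one_mul]

lemma frob_orth_right [DecidableEq κ] {Q : Matrix κ κ ℝ} (h : IsOrth Q) (X : Matrix ι κ ℝ) :
    frob (X * Q) = frob X := by
  rw [← frob_transpose, transpose_mul, frob_orth_left h.transpose, frob_transpose]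

/-- The distance between two functions of symmetric matrices, in the two eigenbases. -/
lemma frob_diag_sub [DecidableEq ι] {P Q : Matrix ι ι ℝ} (hP : IsOrth P) (hQ : IsOrth Q)
    (u v : ι → ℝ) :
    frob (P * diagonal u * Pᵀ - Q * diagonal v * Qᵀ)
      = ∑ i, ∑ j, (u i - v j) ^ 2 * (Pᵀ * Q) i j ^ 2 := by
  rw [← frob_orth_left hP.transpose, ← frob_orth_right hQ]
  have e : Pᵀ * (P * diagonal u * Pᵀ - Q * diagonal v * Qᵀ) * Q
      = diagonal u * (Pᵀ * Q) - Pᵀ * Q * diagonal v := by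
    rw [Matrix.mul_sub, Matrix.sub_mul]
    congr 1
    · simp only [← Matrix.mul_assoc, hP.left, Matrix.one_mul]
    · simp only [Matrix.mul_assoc, hQ.left, Matrix.mul_one]
  rw [e]
  refine Finset.sum_congr rfl fun i _ => Finset.sum_congr rfl fun j _ => ?_
  rw [Matrix.sub_apply, diagonal_mul, mul_diagonal]
  ring

lemma isHermitian_diag [DecidableEq ι] (P : Matrix ι ι ℝ) (u : ι → ℝ) :
    (P * diagonal u * Pᵀ).IsHermitian := by
  simp [IsHermitian, conjTranspose_eq_transpose_of_trivial, transpose_mul, Matrix.mul_assoc]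

lemma isOrth_eig [DecidableEq ι] {A : Matrix ι ι ℝ} (hA : A.IsHermitian) :
    IsOrth (hA.eigenvectorUnitary : Matrix ι ι ℝ) :=
  ⟨(mem_orthogonalGroup_iff' (n := ι) (R := ℝ)).1 hA.eigenvectorUnitary.2,
    (mem_orthogonalGroup_iff (n := ι) (R := ℝ)).1 hA.eigenvectorUnitary.2⟩

lemma eig_decomp [DecidableEq ι] {A : Matrix ι ι ℝ} (hA : A.IsHermitian) :
    A = (hA.eigenvectorUnitary : Matrix ι ι ℝ) * diagonal hA.eigenvalues
      * (hA.eigenvectorUnitary : Matrix ι ι ℝ)ᵀ := by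
  have h := hA.spectral_theorem
  rw [Unitary.conjStarAlgAut_apply, star_eq_conjTranspose,
    conjTranspose_eq_transpose_of_trivial] at h
  exact h

lemma symFn_def [DecidableEq ι] (f : ℝ → ℝ) {A : Matrix ι ι ℝ} (hA : A.IsHermitian) :
    symFn f A = (hA.eigenvectorUnitary : Matrix ι ι ℝ) * diagonal (f ∘ hA.eigenvalues)
      * (hA.eigenvectorUnitary : Matrix ι ι ℝ)ᵀ := by
  rw [symFn, dif_pos hA]

/-- `symFn` does not depend on the decomposition. -/
lemma symFn_eq [DecidableEq ι] (f : ℝ → ℝ) {A P : Matrix ι ι ℝ} (hP : IsOrth P) (u : ι → ℝ)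
    (h : A = P * diagonal u * Pᵀ) : symFn f A = P * diagonal (f ∘ u) * Pᵀ := by
  have hA : A.IsHermitian := h ▸ isHermitian_diag P u
  have h0 := frob_diag_sub (isOrth_eig hA) hP hA.eigenvalues u
  rw [← eig_decomp hA, ← h, sub_self] at h0
  have hz : ∀ i j, (hA.eigenvalues i - u j) ^ 2
      * ((hA.eigenvectorUnitary : Matrix ι ι ℝ)ᵀ * P) i j ^ 2 = 0 := by
    intro i j
    have h1 := h0.symm
    simp only [frob, Matrix.zero_apply, ne_eq, OfNat.ofNat_ne_zero, not_false_eq_true, zero_pow,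
      Finset.sum_const_zero] at h1
    have h2 := (Finset.sum_eq_zero_iff_of_nonneg
      (fun _ _ => Finset.sum_nonneg fun _ _ => by positivity)).1 h1 i (Finset.mem_univ i)
    exact (Finset.sum_eq_zero_iff_of_nonneg (fun _ _ => by positivity)).1 h2 j (Finset.mem_univ j)
  have h3 : frob (symFn f A - P * diagonal (f ∘ u) * Pᵀ) = 0 := by
    rw [symFn_def f hA, frob_diag_sub (isOrth_eig hA) hP]
    refine Finset.sum_eq_zero fun i _ => Finset.sum_eq_zero fun j _ => ?_
    rcases mul_eq_zero.1 (hz i j) with e | e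
    · rw [sq_eq_zero_iff, sub_eq_zero] at e
      simp [e]
    · rw [e, mul_zero]
  ext i j
  have h4 := sq_entry_le_frob (symFn f A - P * diagonal (f ∘ u) * Pᵀ) i j
  rw [h3, Matrix.sub_apply] at h4
  exact sub_eq_zero.1 (sq_eq_zero_iff.1 (le_antisymm h4 (sq_nonneg _)))

lemma frob_symFn_sub_le [DecidableEq ι] (f : ℝ → ℝ) {c : ℝ}
    (hf : ∀ x y, (f x - f y) ^ 2 ≤ c * (x - y) ^ 2) {A B : Matrix ι ι ℝ} (hA : A.IsHermitian)
    (hB : B.IsHermitian) : frob (symFn f A - symFn f B) ≤ c * frob (A - B) := by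
  have h0 := frob_diag_sub (isOrth_eig hA) (isOrth_eig hB) hA.eigenvalues hB.eigenvalues
  rw [← eig_decomp hA, ← eig_decomp hB] at h0
  rw [h0, symFn_def f hA, symFn_def f hB, frob_diag_sub (isOrth_eig hA) (isOrth_eig hB),
    Finset.mul_sum]
  refine Finset.sum_le_sum fun i _ => ?_
  rw [Finset.mul_sum]
  refine Finset.sum_le_sum fun j _ => ?_
  rw [← mul_assoc]
  exact mul_le_mul_of_nonneg_right (hf _ _) (sq_nonneg _)

lemma symFn_isHermitian [DecidableEq ι] (f : ℝ → ℝ) {A : Matrix ι ι ℝ} (hA : A.IsHermitian) :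
    (symFn f A).IsHermitian := by
  rw [symFn_def f hA]; exact isHermitian_diag _ _

lemma symFn_conj [DecidableEq ι] (f : ℝ → ℝ) {A W : Matrix ι ι ℝ} (hA : A.IsHermitian)
    (hW : IsOrth W) : symFn f (W * A * Wᵀ) = W * symFn f A * Wᵀ := by
  rw [symFn_eq f (hW.mul (isOrth_eig hA)) hA.eigenvalues, symFn_def f hA]
  · simp only [transpose_mul, Matrix.mul_assoc]
  · conv_lhs => rw [eig_decomp hA]
    simp only [transpose_mul, Matrix.mul_assoc]

lemma symFn_congr [DecidableEq ι] {f g : ℝ → ℝ} {A : Matrix ι ι ℝ} (hA : A.IsHermitian)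
    (h : ∀ i, f (hA.eigenvalues i) = g (hA.eigenvalues i)) : symFn f A = symFn g A := by
  rw [symFn_def f hA, symFn_def g hA, show f ∘ hA.eigenvalues = g ∘ hA.eigenvalues from funext h]

lemma symFn_mul [DecidableEq ι] (f g : ℝ → ℝ) {A : Matrix ι ι ℝ} (hA : A.IsHermitian) :
    symFn f A * symFn g A = symFn (fun x => f x * g x) A := by
  rw [symFn_def f hA, symFn_def g hA, symFn_def (fun x => f x * g x) hA]
  generalize hP : (hA.eigenvectorUnitary : Matrix ι ι ℝ) = P
  have h : Pᵀ * P = 1 := hP ▸ (isOrth_eig hA).left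
  rw [Matrix.mul_assoc (P * _), ← Matrix.mul_assoc Pᵀ, ← Matrix.mul_assoc Pᵀ, h, Matrix.one_mul,
    Matrix.mul_assoc P, ← Matrix.mul_assoc (diagonal _), diagonal_mul_diagonal, Matrix.mul_assoc]
  rfl

lemma symFn_id [DecidableEq ι] {A : Matrix ι ι ℝ} (hA : A.IsHermitian) :
    symFn (fun x => x) A = A := by
  rw [symFn_def _ hA]; exact (eig_decomp hA).symm

lemma symFn_one [DecidableEq ι] {A : Matrix ι ι ℝ} (hA : A.IsHermitian) :
    symFn (fun _ => 1) A = 1 := by
  rw [symFn_def _ hA, show ((fun _ : ℝ => (1:ℝ)) ∘ hA.eigenvalues) = fun _ => (1:ℝ) from rfl,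
    diagonal_one, Matrix.mul_one, (isOrth_eig hA).right]

lemma symFn_sq [DecidableEq ι] (f : ℝ → ℝ) {A : Matrix ι ι ℝ} (hA : A.IsHermitian) :
    symFn f (A * A) = symFn (fun x => f (x * x)) A := by
  rw [symFn_eq f (isOrth_eig hA) (fun i => hA.eigenvalues i * hA.eigenvalues i), symFn_def _ hA]
  · rfl
  · conv_lhs => rw [← symFn_id hA, symFn_mul _ _ hA, symFn_def _ hA]
    rfl

lemma symFn_blocks {α β : Type*} [Fintype α] [Fintype β] [DecidableEq α] [DecidableEq β]
    (f : ℝ → ℝ) {X : Matrix α α ℝ} {Y : Matrix β β ℝ} (hX : X.IsHermitian) (hY : Y.IsHermitian) :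
    symFn f (fromBlocks X 0 0 Y) = fromBlocks (symFn f X) 0 0 (symFn f Y) := by
  have hP : IsOrth (fromBlocks (hX.eigenvectorUnitary : Matrix α α ℝ) 0 0
      (hY.eigenvectorUnitary : Matrix β β ℝ)) := by
    constructor <;>
      simp [fromBlocks_transpose, fromBlocks_multiply, (isOrth_eig hX).left, (isOrth_eig hY).left,
        (isOrth_eig hX).right, (isOrth_eig hY).right]
  rw [symFn_eq f hP (Sum.elim hX.eigenvalues hY.eigenvalues), symFn_def f hX, symFn_def f hY,
    Sum.comp_elim, ← fromBlocks_diagonal, fromBlocks_transpose, fromBlocks_multiply,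
    fromBlocks_multiply]
  · simp
  · rw [← fromBlocks_diagonal, fromBlocks_transpose, fromBlocks_multiply, fromBlocks_multiply]
    simp [← eig_decomp hX, ← eig_decomp hY]

variable {N : ℕ}

lemma dil_isHermitian (G : Matrix (Fin N) (Fin N) ℝ) : (dil G).IsHermitian := by
  simp [IsHermitian, dil, conjTranspose_eq_transpose_of_trivial, fromBlocks_transpose]

lemma gram_isHermitian (G : Matrix (Fin N) (Fin N) ℝ) : (Gᵀ * G).IsHermitian := by
  simp [IsHermitian, conjTranspose_eq_transpose_of_trivial, transpose_mul]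

lemma gram_nonneg {G : Matrix (Fin N) (Fin N) ℝ} (hG : (Gᵀ * G).IsHermitian) (i : Fin N) :
    0 ≤ hG.eigenvalues i :=
  Matrix.PosSemidef.eigenvalues_nonneg
    (by simpa [conjTranspose_eq_transpose_of_trivial] using posSemidef_conjTranspose_mul_self G) i

lemma symFn_dil_sq (f : ℝ → ℝ) (G : Matrix (Fin N) (Fin N) ℝ) :
    symFn (fun x => f (x * x)) (dil G)
      = fromBlocks (symFn f (G * Gᵀ)) 0 0 (symFn f (Gᵀ * G)) := by
  have e : dil G * dil G = fromBlocks (G * Gᵀ) 0 0 (Gᵀ * G) := by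
    simp [dil, fromBlocks_multiply]
  rw [← symFn_sq f (dil_isHermitian G), e, symFn_blocks f ?_ (gram_isHermitian G)]
  simpa using gram_isHermitian Gᵀ

lemma regK_eq (a : ℝ) (G : Matrix (Fin N) (Fin N) ℝ) :
    regK a G = symFn (fun y => Real.sqrt y / Real.sqrt (y + a)) (Gᵀ * G) := by
  have e : (fun x : ℝ => |x| / Real.sqrt (x ^ 2 + a))
      = fun x => (fun y => Real.sqrt y / Real.sqrt (y + a)) (x * x) := by
    funext x
    simp [Real.sqrt_mul_self_eq_abs, pow_two]
  rw [regK, e]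
  show (symFn (fun x => Real.sqrt (x * x) / Real.sqrt (x * x + a)) (dil G)).toBlocks₂₂ = _
  rw [symFn_dil_sq (fun y => Real.sqrt y / Real.sqrt (y + a)) G, toBlocks_fromBlocks₂₂]

lemma regB_eq (a : ℝ) (G : Matrix (Fin N) (Fin N) ℝ) :
    regB a G = G * symFn (fun y => (Real.sqrt (y + a))⁻¹) (Gᵀ * G) := by
  have e : (fun x : ℝ => x / Real.sqrt (x ^ 2 + a))
      = fun x => (fun x : ℝ => x) x * (fun x => (fun y => (Real.sqrt (y + a))⁻¹) (x * x)) x := by
    funext x
    simp [div_eq_mul_inv, pow_two]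
  rw [regB, e, ← symFn_mul _ _ (dil_isHermitian G), symFn_id (dil_isHermitian G)]
  show (dil G * symFn (fun x => (Real.sqrt (x * x + a))⁻¹) (dil G)).toBlocks₁₂ = _
  rw [symFn_dil_sq (fun y => (Real.sqrt (y + a))⁻¹) G]
  simp [dil, fromBlocks_multiply]

lemma lip_scalar {a : ℝ} (ha : 0 < a) (x y : ℝ) :
    (x / Real.sqrt (x ^ 2 + a) - y / Real.sqrt (y ^ 2 + a)) ^ 2 ≤ a⁻¹ * (x - y) ^ 2 := by
  set u := Real.sqrt (x ^ 2 + a) with hu
  set v := Real.sqrt (y ^ 2 + a) with hv
  have hu2 : u * u = x ^ 2 + a := Real.mul_self_sqrt (by positivity)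
  have hv2 : v * v = y ^ 2 + a := Real.mul_self_sqrt (by positivity)
  have hu0 : 0 < u := Real.sqrt_pos.2 (by positivity)
  have hv0 : 0 < v := Real.sqrt_pos.2 (by positivity)
  rw [div_sub_div _ _ hu0.ne' hv0.ne', div_pow, div_le_iff₀ (by positivity), mul_comm a⁻¹]
  have key : (x * v - u * y) ^ 2 * a ≤ (x - y) ^ 2 * (u * v) ^ 2 := by
    have huv : a * a ≤ (u * v) ^ 2 := by
      rw [mul_pow, pow_two u, pow_two v, hu2, hv2]
      exact mul_le_mul (by nlinarith) (by nlinarith) ha.le (by positivity)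
    rcases le_or_gt 0 (x * y) with hxy | hxy
    · rcases eq_or_ne (x + y) 0 with h0 | h0
      · have hx : x = 0 := by nlinarith [mul_self_nonneg x]
        have hy : y = 0 := by linarith
        simp [hx, hy]
      · have hid : (x * v - u * y) * (x * v + u * y) = a * ((x - y) * (x + y)) := by
          have : (x * v - u * y) * (x * v + u * y) = x ^ 2 * (v * v) - y ^ 2 * (u * u) := by ring
          rw [this, hu2, hv2]; ring
        have hden : a * (x + y) ^ 2 ≤ (x * v + u * y) ^ 2 := by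
          have h1 : a ≤ u * v := by nlinarith [mul_pos hu0 hv0]
          have h2 : (x * v + u * y) ^ 2
              = x ^ 2 * (v * v) + y ^ 2 * (u * u) + 2 * (x * y) * (u * v) := by ring
          rw [h2, hu2, hv2]
          nlinarith [mul_le_mul_of_nonneg_left h1 hxy, mul_nonneg (sq_nonneg x) (sq_nonneg y)]
        have hpos : 0 < a * (x + y) ^ 2 := mul_pos ha (by positivity)
        refine le_of_mul_le_mul_right ?_ hpos
        calc (x * v - u * y) ^ 2 * a * (a * (x + y) ^ 2)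
            ≤ (x * v - u * y) ^ 2 * a * (x * v + u * y) ^ 2 :=
              mul_le_mul_of_nonneg_left hden (by positivity)
          _ = a * (a * ((x - y) * (x + y))) ^ 2 := by rw [← hid]; ring
          _ = a * (x + y) ^ 2 * ((x - y) ^ 2 * (a * a)) := by ring
          _ ≤ a * (x + y) ^ 2 * ((x - y) ^ 2 * (u * v) ^ 2) :=
              mul_le_mul_of_nonneg_left (mul_le_mul_of_nonneg_left huv (sq_nonneg _)) hpos.le
          _ = (x - y) ^ 2 * (u * v) ^ 2 * (a * (x + y) ^ 2) := by ring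
    · have h2 : (x * v - u * y) ^ 2
          = x ^ 2 * (v * v) + y ^ 2 * (u * u) + 2 * (-(x * y)) * (u * v) := by ring
      rw [h2, show (x - y) ^ 2 = x ^ 2 + y ^ 2 + 2 * (-(x * y)) by ring]
      have huv' : a ≤ u * v := by nlinarith [mul_pos hu0 hv0]
      have h3 : (u * v) ^ 2 = (x ^ 2 + a) * (y ^ 2 + a) := by
        rw [mul_pow, pow_two u, pow_two v, hu2, hv2]
      have t1 : x ^ 2 * (v * v) * a ≤ x ^ 2 * (u * v) ^ 2 := by
        rw [h3, hv2]
        nlinarith [mul_nonneg (sq_nonneg x) (mul_nonneg (sq_nonneg x) (show (0:ℝ) ≤ y ^ 2 + a by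
          positivity))]
      have t2 : y ^ 2 * (u * u) * a ≤ y ^ 2 * (u * v) ^ 2 := by
        rw [h3, hu2]
        nlinarith [mul_nonneg (sq_nonneg y) (mul_nonneg (sq_nonneg y) (show (0:ℝ) ≤ x ^ 2 + a by
          positivity))]
      have t3 : (-(x * y)) * (u * v) * a ≤ (-(x * y)) * (u * v) ^ 2 := by
        rw [pow_two, mul_assoc]
        exact mul_le_mul_of_nonneg_left (mul_le_mul_of_nonneg_left huv' (by positivity))
          (by linarith)
      nlinarith
  rw [mul_assoc, inv_mul_eq_div, ← mul_div_assoc, le_div_iff₀ ha]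
  linarith

lemma lip_scalar_abs {a : ℝ} (ha : 0 < a) (x y : ℝ) :
    (|x| / Real.sqrt (x ^ 2 + a) - |y| / Real.sqrt (y ^ 2 + a)) ^ 2 ≤ a⁻¹ * (x - y) ^ 2 := by
  have h := lip_scalar ha |x| |y|
  rw [sq_abs, sq_abs] at h
  refine h.trans (mul_le_mul_of_nonneg_left ?_ (by positivity))
  exact sq_le_sq.2 (abs_abs_sub_abs_le_abs_sub x y)

lemma frob_dil_sub (G H : Matrix (Fin N) (Fin N) ℝ) :
    frob (dil G - dil H) = 2 * frob (G - H) := by
  have e : dil G - dil H = fromBlocks 0 (G - H) (G - H)ᵀ 0 := by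
    ext i j
    rcases i with i | i <;> rcases j with j | j <;> simp [dil]
  rw [e, frob_blocks, frob_transpose]
  simp [frob]
  ring

lemma continuous_of_frob_le {f : Matrix (Fin N) (Fin N) ℝ → Matrix (Fin N) (Fin N) ℝ} {C : ℝ}
    (h : ∀ G H, frob (f G - f H) ≤ C * frob (G - H)) : Continuous f := by
  refine continuous_matrix fun i j => continuous_iff_continuousAt.2 fun H => ?_
  have hc : Continuous fun G : Matrix (Fin N) (Fin N) ℝ => Real.sqrt (C * frob (G - H)) := by
    unfold frob; fun_prop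
  have h0 : Filter.Tendsto (fun G : Matrix (Fin N) (Fin N) ℝ => Real.sqrt (C * frob (G - H)))
      (nhds H) (nhds 0) := by simpa [frob] using hc.tendsto H
  refine tendsto_iff_dist_tendsto_zero.2 (squeeze_zero (fun _ => dist_nonneg) (fun G => ?_) h0)
  rw [Real.dist_eq, ← Real.sqrt_sq_eq_abs]
  exact Real.sqrt_le_sqrt ((sq_entry_le_frob (f G - f H) i j).trans (h G H))

theorem regB_lip {a : ℝ} (ha : 0 < a) (G H : Matrix (Fin N) (Fin N) ℝ) :
    frob (regB a G - regB a H) ≤ frob (G - H) / a := by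
  set f : ℝ → ℝ := fun x => x / Real.sqrt (x ^ 2 + a)
  set E := symFn f (dil G) - symFn f (dil H) with hE
  have h1 : frob E ≤ a⁻¹ * frob (dil G - dil H) :=
    frob_symFn_sub_le f (lip_scalar ha) (dil_isHermitian G) (dil_isHermitian H)
  have hs : Eᵀ = E := by
    have h := ((symFn_isHermitian f (dil_isHermitian G)).sub
      (symFn_isHermitian f (dil_isHermitian H))).eq
    rwa [← hE, conjTranspose_eq_transpose_of_trivial] at h
  have h12 : E.toBlocks₂₁ = (E.toBlocks₁₂)ᵀ := by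
    ext i j
    have h := congrFun (congrFun hs (Sum.inl j)) (Sum.inr i)
    rw [transpose_apply] at h
    simpa [toBlocks₂₁, toBlocks₁₂] using h
  have h2 : 2 * frob (regB a G - regB a H) ≤ frob E := by
    rw [show regB a G - regB a H = E.toBlocks₁₂ from rfl]
    conv_rhs => rw [← fromBlocks_toBlocks E]
    rw [frob_blocks, h12, frob_transpose]
    linarith [frob_nonneg E.toBlocks₁₁, frob_nonneg E.toBlocks₂₂]
  rw [frob_dil_sub] at h1
  rw [div_eq_inv_mul]
  linarith

theorem regK_lip {a : ℝ} (ha : 0 < a) (G H : Matrix (Fin N) (Fin N) ℝ) :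
    frob (regK a G - regK a H) ≤ 2 * frob (G - H) / a := by
  set f : ℝ → ℝ := fun x => |x| / Real.sqrt (x ^ 2 + a)
  set E := symFn f (dil G) - symFn f (dil H) with hE
  have h1 : frob E ≤ a⁻¹ * frob (dil G - dil H) :=
    frob_symFn_sub_le f (lip_scalar_abs ha) (dil_isHermitian G) (dil_isHermitian H)
  rw [show regK a G - regK a H = E.toBlocks₂₂ from rfl, div_eq_inv_mul]
  rw [frob_dil_sub] at h1
  refine le_trans ?_ h1
  conv_rhs => rw [← fromBlocks_toBlocks E]
  rw [frob_blocks]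
  linarith [frob_nonneg E.toBlocks₁₁, frob_nonneg E.toBlocks₁₂, frob_nonneg E.toBlocks₂₁]

theorem regB_left {a : ℝ} (ha : 0 < a) (U : OMat N) (G : Matrix (Fin N) (Fin N) ℝ) :
    regB a ((U : Matrix (Fin N) (Fin N) ℝ) * G)
      = (U : Matrix (Fin N) (Fin N) ℝ) * regB a G := by
  obtain ⟨A, hA⟩ : ∃ A : Matrix (Fin N) (Fin N) ℝ, A = (U : Matrix (Fin N) (Fin N) ℝ) := ⟨_, rfl⟩
  have h : Aᵀ * A = 1 := hA ▸ (isOrth_OMat U).left
  rw [← hA, regB_eq, regB_eq, transpose_mul, Matrix.mul_assoc Gᵀ, ← Matrix.mul_assoc Aᵀ, h,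
    Matrix.one_mul, Matrix.mul_assoc]

theorem regK_right {a : ℝ} (ha : 0 < a) (U : OMat N) (G : Matrix (Fin N) (Fin N) ℝ) :
    regK a (G * (U : Matrix (Fin N) (Fin N) ℝ))
      = (U : Matrix (Fin N) (Fin N) ℝ)ᵀ * regK a G * (U : Matrix (Fin N) (Fin N) ℝ) := by
  rw [regK_eq, regK_eq, transpose_mul]
  have h := symFn_conj (fun y => Real.sqrt y / Real.sqrt (y + a)) (gram_isHermitian G)
    (isOrth_OMat U).transpose
  rw [transpose_transpose] at h
  rw [← h]
  simp only [Matrix.mul_assoc]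

theorem regK_spectral {a : ℝ} (ha : 0 < a) (G : Matrix (Fin N) (Fin N) ℝ) :
    ∃ (R : OMat N) (d : Fin N → ℝ), (∀ i, 0 ≤ d i ∧ d i ≤ 1) ∧
      regK a G = (R : Matrix (Fin N) (Fin N) ℝ)ᵀ * diagonal d * (R : Matrix (Fin N) (Fin N) ℝ) := by
  set hA := gram_isHermitian G
  have hU : (hA.eigenvectorUnitary : Matrix (Fin N) (Fin N) ℝ)ᵀ ∈ Matrix.orthogonalGroup (Fin N) ℝ :=
    (mem_orthogonalGroup_iff (n := Fin N) (R := ℝ)).2
      (by rw [transpose_transpose]; exact (isOrth_eig hA).left)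
  refine ⟨⟨_, hU⟩, fun i => Real.sqrt (hA.eigenvalues i) / Real.sqrt (hA.eigenvalues i + a),
    fun i => ⟨by positivity, ?_⟩, ?_⟩
  · have h0 := gram_nonneg hA i
    rw [div_le_one (Real.sqrt_pos.2 (by linarith))]
    exact Real.sqrt_le_sqrt (by linarith)
  · rw [regK_eq, symFn_def _ hA, transpose_transpose]
    rfl

theorem regB_polar {a : ℝ} (ha : 0 < a) (G : Matrix (Fin N) (Fin N) ℝ) :
    ∃ O : OMat N, regB a G = (O : Matrix (Fin N) (Fin N) ℝ) * regK a G := by
  set S : Set (Matrix (Fin N) (Fin N) ℝ) :=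
    {H | ∃ O : OMat N, regB a H = (O : Matrix (Fin N) (Fin N) ℝ) * regK a H}
  have hBc : Continuous (regB (N := N) a) :=
    continuous_of_frob_le (C := a⁻¹) fun G H => (regB_lip ha G H).trans_eq (div_eq_inv_mul _ _)
  have hKc : Continuous (regK (N := N) a) :=
    continuous_of_frob_le (C := 2 * a⁻¹) fun G H =>
      (regK_lip ha G H).trans_eq (by rw [div_eq_inv_mul]; ring)
  have hcl : IsClosed S := by
    have hS : S = Prod.fst '' {p : Matrix (Fin N) (Fin N) ℝ × OMat N |
        regB a p.1 = (p.2 : Matrix (Fin N) (Fin N) ℝ) * regK a p.1} := by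
      ext H; simp [S]
    rw [hS]
    refine isClosedMap_fst_of_compactSpace _ (isClosed_eq (hBc.comp continuous_fst) ?_)
    exact (continuous_subtype_val.comp continuous_snd).matrix_mul (hKc.comp continuous_fst)
  have hinv : ∀ H : Matrix (Fin N) (Fin N) ℝ, H.det ≠ 0 → H ∈ S := by
    intro H hH
    have hA := gram_isHermitian H
    have hpos : ∀ i, 0 < hA.eigenvalues i := by
      intro i
      refine lt_of_le_of_ne (gram_nonneg hA i) fun h => ?_
      have hd := hA.det_eq_prod_eigenvalues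
      rw [det_mul, det_transpose,
        Finset.prod_eq_zero (Finset.mem_univ i) (by simp [← h])] at hd
      exact hH (mul_self_eq_zero.1 hd)
    set T := symFn (fun y => (Real.sqrt y)⁻¹) (Hᵀ * H) with hT
    have hTs : Tᵀ = T := by
      simpa [IsHermitian, conjTranspose_eq_transpose_of_trivial] using symFn_isHermitian _ hA
    have h1 : (H * T)ᵀ * (H * T) = 1 := by
      calc (H * T)ᵀ * (H * T) = T * symFn (fun x => x) (Hᵀ * H) * T := by
            rw [transpose_mul, hTs, symFn_id hA]; simp only [Matrix.mul_assoc]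
        _ = symFn (fun _ => 1) (Hᵀ * H) := by
            rw [hT, symFn_mul _ _ hA, symFn_mul _ _ hA]
            refine symFn_congr hA fun i => ?_
            have h := Real.mul_self_sqrt (hpos i).le
            have h' := (Real.sqrt_pos.2 (hpos i)).ne'
            field_simp
            linarith
        _ = 1 := symFn_one hA
    refine ⟨⟨H * T, (mem_orthogonalGroup_iff' (n := Fin N) (R := ℝ)).2 h1⟩, ?_⟩
    show regB a H = H * T * regK a H
    rw [regB_eq, regK_eq, hT, Matrix.mul_assoc, symFn_mul _ _ hA]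
    congr 1
    refine symFn_congr hA fun i => ?_
    have h' := (Real.sqrt_pos.2 (hpos i)).ne'
    field_simp
  obtain ⟨t, ht0, htdet⟩ : ∃ t : ℕ → ℝ, Filter.Tendsto t Filter.atTop (nhds 0) ∧
      ∀ k, (G + t k • (1 : Matrix (Fin N) (Fin N) ℝ)).det ≠ 0 := by
    have hfin : {s : ℝ | (G + s • (1 : Matrix (Fin N) (Fin N) ℝ)).det = 0}.Finite := by
      refine (Polynomial.finite_setOf_isRoot (Matrix.charpoly_monic (-G)).ne_zero).subset
        fun s hs => ?_
      simp only [Set.mem_setOf_eq, Polynomial.IsRoot.def, Matrix.eval_charpoly]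
      rw [sub_neg_eq_add, add_comm, Matrix.scalar_apply, ← Matrix.smul_one_eq_diagonal]
      simpa using hs
    have hd : Dense {s : ℝ | (G + s • (1 : Matrix (Fin N) (Fin N) ℝ)).det = 0}ᶜ :=
      hfin.countable.dense_compl ℝ
    obtain ⟨t, ht, hlim⟩ := mem_closure_iff_seq_limit.1 (hd 0)
    exact ⟨t, hlim, fun k => ht k⟩
  have hlim : Filter.Tendsto (fun k => G + t k • (1 : Matrix (Fin N) (Fin N) ℝ)) Filter.atTop
      (nhds G) := by
    simpa using tendsto_const_nhds.add (ht0.smul_const (1 : Matrix (Fin N) (Fin N) ℝ))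
  exact hcl.mem_of_tendsto hlim (Filter.Eventually.of_forall fun k => hinv _ (htdet k))

theorem frob_defect_le {a : ℝ} (ha : 0 < a) (G : Matrix (Fin N) (Fin N) ℝ)
    (hG : (Gᵀ * G).IsHermitian) :
    frob (1 - regK a G) ≤ ∑ i, a / (hG.eigenvalues i + a) := by
  set P : Matrix (Fin N) (Fin N) ℝ :=
    (hG.eigenvectorUnitary : Matrix (Fin N) (Fin N) ℝ) with hP'
  have hP : IsOrth P := isOrth_eig hG
  set k : ℝ → ℝ := fun y => Real.sqrt y / Real.sqrt (y + a)
  have e : 1 - regK a G = P * diagonal (fun i => 1 - k (hG.eigenvalues i)) * Pᵀ := by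
    have hd : diagonal (fun i => 1 - k (hG.eigenvalues i)) = 1 - diagonal (k ∘ hG.eigenvalues) := by
      rw [← diagonal_one, diagonal_sub]; rfl
    rw [regK_eq, symFn_def _ hG, hd, Matrix.mul_sub, Matrix.sub_mul, Matrix.mul_one, hP.right]
  rw [e, frob_orth_right hP.transpose, frob_orth_left hP]
  refine Finset.sum_le_sum fun i _ => ?_
  rw [Finset.sum_eq_single i (fun j _ hj => by simp [Ne.symm hj]) (by simp), diagonal_apply_eq]
  have h0 := gram_nonneg hG i
  have hs : 0 < Real.sqrt (hG.eigenvalues i + a) := Real.sqrt_pos.2 (by linarith)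
  have hk0 : 0 ≤ k (hG.eigenvalues i) := by positivity
  have hk1 : k (hG.eigenvalues i) ≤ 1 := by
    rw [div_le_one hs]; exact Real.sqrt_le_sqrt (by linarith)
  have hk2 : k (hG.eigenvalues i) ^ 2 = 1 - a / (hG.eigenvalues i + a) := by
    rw [div_pow, Real.sq_sqrt h0, Real.sq_sqrt (by linarith)]
    field_simp; ring
  nlinarith

end

end Vale.Agent.P166.High
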