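import Vale.Agent.P166.High.Group
import Vale.Agent.P166.High.Conc

/-!
# P166 high temperature: spherical integrals through Gaussian vectors
-/

namespace Vale.Agent.P166.High

open MeasureTheory ProbabilityTheory Matrix

noncomputable section

/-! ### Gaussian integrals of exponentials of weighted squares -/

lemma ind_le {X : Type*} {s : Set X} {f : X → ℝ} {x : X} {b : ℝ} (h1 : x ∈ s → f x ≤ b)
    (h2 : 0 ≤ b) : s.indicator f x ≤ b := by
  by_cases hx : x ∈ s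
  · rw [Set.indicator_of_mem hx]; exact h1 hx
  · rw [Set.indicator_of_notMem hx]; exact h2

section Tilt

variable {ι : Type*} [Fintype ι]

/-- The weighted sum of squares. -/
def quad (q x : ι → ℝ) : ℝ := ∑ i, q i * x i ^ 2

/-- The exponential of a weighted sum of squares. -/
def tilt (q x : ι → ℝ) : ℝ := Real.exp (-(quad q x) / 2)

@[fun_prop]
lemma continuous_quad (q : ι → ℝ) : Continuous (quad q) := by unfold quad; fun_prop

@[fun_prop]
lemma continuous_tilt (q : ι → ℝ) : Continuous (tilt q) := by unfold tilt; fun_prop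

lemma abs_quad_le {q : ι → ℝ} {K : ℝ} (hq : ∀ i, |q i| ≤ K) (x : ι → ℝ) :
    |quad q x| ≤ K * sq x := by
  rw [sq, Finset.mul_sum]
  refine (Finset.abs_sum_le_sum_abs _ _).trans (Finset.sum_le_sum fun i _ => ?_)
  rw [abs_mul, abs_of_nonneg (sq_nonneg (x i))]
  exact mul_le_mul_of_nonneg_right (hq i) (sq_nonneg _)

lemma quad_smul (q : ι → ℝ) (r : ℝ) (x : ι → ℝ) : quad q (r • x) = r ^ 2 * quad q x := by
  simp only [quad, Pi.smul_apply, smul_eq_mul, Finset.mul_sum]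
  exact Finset.sum_congr rfl fun i _ => by ring

lemma abs_quad_add_le {q : ι → ℝ} {K : ℝ} (hq : ∀ i, |q i| ≤ K) (a : ℝ) (x y : ι → ℝ) :
    |quad q (x + a • y) - quad q x| ≤ K * (|a| * (sq x + sq y) + a ^ 2 * sq y) := by
  simp only [quad, sq, Pi.add_apply, Pi.smul_apply, smul_eq_mul, ← Finset.sum_sub_distrib,
    Finset.mul_sum, ← Finset.sum_add_distrib]
  refine (Finset.abs_sum_le_sum_abs _ _).trans (Finset.sum_le_sum fun i _ => ?_)
  rw [show q i * (x i + a * y i) ^ 2 - q i * x i ^ 2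
    = q i * (a * (2 * x i * y i) + a ^ 2 * y i ^ 2) by ring, abs_mul]
  refine mul_le_mul (hq i) ((abs_add_le _ _).trans ?_) (abs_nonneg _)
    ((abs_nonneg _).trans (hq i))
  rw [abs_mul a, abs_of_nonneg (by positivity : (0 : ℝ) ≤ a ^ 2 * y i ^ 2)]
  refine add_le_add_left ?_ _
  refine mul_le_mul_of_nonneg_left ?_ (abs_nonneg a)
  exact abs_le.2 ⟨by nlinarith [sq_nonneg (x i + y i)], by nlinarith [sq_nonneg (x i - y i)]⟩

lemma gauss_one {q : ℝ} (hq : -1 < q) :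
    Integrable (fun x => Real.exp (-(q * x ^ 2) / 2)) (gaussianReal 0 1) ∧
      ∫ x, Real.exp (-(q * x ^ 2) / 2) ∂gaussianReal 0 1 = Real.exp (-(Real.log (1 + q)) / 2) := by
  have h0 : 0 < 1 + q := by linarith
  have hval : ∫ x, Real.exp (-(q * x ^ 2) / 2) ∂gaussianReal 0 1
      = Real.exp (-(Real.log (1 + q)) / 2) := by
    have hf : (fun x : ℝ => gaussianPDFReal 0 1 x • Real.exp (-(q * x ^ 2) / 2))
        = fun x => (Real.sqrt (2 * Real.pi))⁻¹ * Real.exp (-((1 + q) / 2) * x ^ 2) := by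
      funext x
      simp only [gaussianPDFReal, smul_eq_mul, NNReal.coe_one, mul_one, sub_zero, mul_assoc,
        ← Real.exp_add]
      congr 2
      ring
    rw [integral_gaussianReal_eq_integral_smul one_ne_zero, hf, integral_const_mul,
      integral_gaussian, Real.exp_half, Real.exp_neg, Real.exp_log h0, ← Real.sqrt_inv,
      ← Real.sqrt_mul (by positivity)]
    congr 1
    field_simp
  refine ⟨?_, hval⟩
  by_contra h
  rw [integral_undef h] at hval
  exact absurd hval.symm (Real.exp_ne_zero _)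

lemma gauss_tilt {q : ι → ℝ} (hq : ∀ i, -1 < q i) :
    Integrable (tilt q) (gauss ι) ∧
      ∫ x, tilt q x ∂gauss ι = Real.exp (-(∑ i, Real.log (1 + q i)) / 2) := by
  have hp : tilt q = fun x => ∏ i, Real.exp (-(q i * x i ^ 2) / 2) := by
    funext x
    rw [tilt, quad, ← Real.exp_sum, ← Finset.sum_div, Finset.sum_neg_distrib]
  constructor
  · rw [hp]
    exact Integrable.fintype_prod fun i => (gauss_one (hq i)).1
  · rw [hp, integral_fintype_prod_eq_prod (f := fun i x => Real.exp (-(q i * x ^ 2) / 2)),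
      Finset.prod_congr rfl fun i _ => (gauss_one (hq i)).2, ← Real.exp_sum, ← Finset.sum_div,
      Finset.sum_neg_distrib]

/-- The exponential Chebyshev bound. -/
lemma gauss_quad_ge {r : ι → ℝ} (hr : ∀ i, r i < 1) (t : ℝ) :
    (gauss ι).real {x | t ≤ quad r x}
      ≤ Real.exp (-t / 2 - (∑ i, Real.log (1 - r i)) / 2) := by
  obtain ⟨hi, he⟩ := gauss_tilt (q := fun i => -r i) fun i => by linarith [hr i]
  have h1 : ∀ x, {x | t ≤ quad r x}.indicator (fun _ => (1 : ℝ)) x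
      ≤ Real.exp (-t / 2) * tilt (fun i => -r i) x := fun x => by
    refine ind_le (fun hx => ?_) (mul_pos (Real.exp_pos _) (Real.exp_pos _)).le
    rw [tilt, show quad (fun i => -r i) x = -quad r x by simp [quad, Finset.sum_neg_distrib],
      ← Real.exp_add]
    exact Real.one_le_exp (by have : t ≤ quad r x := hx; linarith)
  have hm : MeasurableSet {x | t ≤ quad r x} :=
    measurableSet_le measurable_const (continuous_quad r).measurable
  have := integral_mono (μ := gauss ι) ((integrable_const (1 : ℝ)).indicator hm) (hi.const_mul _) h1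
  rw [integral_indicator_const _ hm, smul_eq_mul, mul_one, integral_const_mul, he,
    ← Real.exp_add] at this
  simpa [← sub_eq_add_neg, neg_div] using this

lemma log_one_sub_ge {x : ℝ} (hx : x ≤ 1 / 2) : -x - 2 * x ^ 2 ≤ Real.log (1 - x) := by
  refine le_trans ?_ (Real.one_sub_inv_le_log_of_pos (by linarith))
  rw [inv_eq_one_div, show 1 - 1 / (1 - x) = -x / (1 - x) by
    rw [one_sub_div (by linarith)]; congr 1; ring, le_div_iff₀ (by linarith)]
  nlinarith [mul_nonneg (sq_nonneg x) (show (0 : ℝ) ≤ 1 - 2 * x by linarith)]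

/-- Concentration of a partial squared length. -/
lemma gauss_sq_tail (S : Finset ι) {N δ : ℝ} (hS : (S.card : ℝ) ≤ N) (hδ : 0 < δ) (hδ1 : δ ≤ 1) :
    (gauss ι).real {x | δ * N ≤ |∑ i ∈ S, x i ^ 2 - S.card|}
      ≤ 2 * Real.exp (-(δ ^ 2 / 16 * N)) := by
  classical
  have key : ∀ s : ℝ, |s| = δ / 4 →
      (gauss ι).real {x | |s| * (δ * N) + s * S.card ≤ s * ∑ i ∈ S, x i ^ 2}
        ≤ Real.exp (-(δ ^ 2 / 16 * N)) := fun s hs => by
    have hs1 : s ≤ 1 / 2 := (le_abs_self s).trans (by linarith)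
    have hq : ∀ x : ι → ℝ, quad (fun i => if i ∈ S then s else 0) x = s * ∑ i ∈ S, x i ^ 2 := by
      intro x
      simp [quad, ite_mul, Finset.sum_ite_mem, Finset.mul_sum]
    have h := gauss_quad_ge (r := fun i => if i ∈ S then s else 0)
      (fun i => by split_ifs <;> linarith) (|s| * (δ * N) + s * S.card)
    simp only [hq] at h
    refine h.trans (Real.exp_le_exp.2 ?_)
    have hlog : (∑ i, Real.log (1 - if i ∈ S then s else 0)) = S.card * Real.log (1 - s) := by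
      rw [← Finset.sum_add_sum_compl S, Finset.sum_congr rfl fun i hi => by rw [if_pos hi],
        Finset.sum_eq_zero (s := Sᶜ) fun i hi => by
          rw [if_neg (Finset.mem_compl.1 hi), sub_zero, Real.log_one]]
      simp
    rw [hlog]
    have h2 := mul_le_mul_of_nonneg_left (log_one_sub_ge hs1) (Nat.cast_nonneg (α := ℝ) S.card)
    have h3 : (S.card : ℝ) * (δ / 4) ^ 2 ≤ N * (δ / 4) ^ 2 :=
      mul_le_mul_of_nonneg_right hS (sq_nonneg _)
    have h4 : s ^ 2 = (δ / 4) ^ 2 := by rw [← sq_abs, hs]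
    rw [hs]
    nlinarith
  have h4 : |δ / 4| = δ / 4 := abs_of_pos (by linarith)
  refine ((measureReal_mono (s₂ := {x | |δ / 4| * (δ * N) + δ / 4 * S.card
    ≤ δ / 4 * ∑ i ∈ S, x i ^ 2} ∪ {x | |-(δ / 4)| * (δ * N) + -(δ / 4) * S.card
    ≤ -(δ / 4) * ∑ i ∈ S, x i ^ 2}) fun x hx => ?_).trans (measureReal_union_le _ _)).trans ?_
  · simp only [Set.mem_union, Set.mem_ofPred_eq, abs_neg, h4] at hx ⊢
    rcases le_abs.1 hx with h | h
    · left; nlinarith
    · right; nlinarith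
  · rw [two_mul]
    exact add_le_add (key _ h4) (key _ (by rw [abs_neg, h4]))

/-- The exponential moment of a linear form. -/
lemma gauss_dot_tail {N δ : ℝ} (hδ : 0 < δ) {a : ι → ℝ} (ha : sq a ≤ 2 * N) :
    (gauss ι).real {x | δ * N ≤ a ⬝ᵥ x} ≤ Real.exp (-(δ ^ 2 / 4 * N)) := by
  have hp : (fun x : ι → ℝ => Real.exp (δ / 2 * (a ⬝ᵥ x)))
      = fun x => ∏ i, Real.exp (δ / 2 * a i * x i) := by
    funext x
    rw [dotProduct, ← Real.exp_sum, Finset.mul_sum]
    exact congrArg Real.exp (Finset.sum_congr rfl fun i _ => by ring)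
  have hi : Integrable (fun x : ι → ℝ => Real.exp (δ / 2 * (a ⬝ᵥ x))) (gauss ι) := by
    rw [hp]
    exact Integrable.fintype_prod fun i => integrable_exp_mul_gaussianReal _
  have h1 : ∀ t : ℝ, ∫ x, Real.exp (t * x) ∂gaussianReal 0 1 = Real.exp (t ^ 2 / 2) := fun t => by
    have := congrFun (mgf_id_gaussianReal (μ := 0) (v := 1)) t
    simpa [mgf] using this
  have hv : ∫ x, Real.exp (δ / 2 * (a ⬝ᵥ x)) ∂gauss ι = Real.exp (δ ^ 2 / 8 * sq a) := by
    rw [hp, integral_fintype_prod_eq_prod (f := fun i x => Real.exp (δ / 2 * a i * x)),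
      Finset.prod_congr rfl fun i _ => h1 _, ← Real.exp_sum, sq, Finset.mul_sum]
    exact congrArg Real.exp (Finset.sum_congr rfl fun i _ => by ring)
  have h2 := mul_meas_ge_le_integral_of_nonneg
    (Filter.Eventually.of_forall fun x => (Real.exp_pos _).le) hi (Real.exp (δ ^ 2 / 2 * N))
  rw [hv, mul_comm, ← le_div_iff₀ (Real.exp_pos _), ← Real.exp_sub] at h2
  refine (measureReal_mono fun x (hx : δ * N ≤ a ⬝ᵥ x) => Real.exp_le_exp.2 ?_).trans
    (h2.trans (Real.exp_le_exp.2 ?_))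
  · nlinarith
  · nlinarith [mul_le_mul_of_nonneg_left ha (show (0 : ℝ) ≤ δ ^ 2 / 8 by positivity)]

end Tilt

/-! ### Averaging over orthogonal matrices -/

lemma integrable_of_cont {N : ℕ} (ν : Measure (OMat N)) [IsFiniteMeasure ν] {f : OMat N → ℝ}
    (hf : Continuous f) : Integrable f ν :=
  hf.integrable_of_hasCompactSupport (HasCompactSupport.of_compactSpace f)

/-- A bounded function is averaged over any invariant family of maps without changing its
integral. -/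
lemma avg_eq {X : Type*} [MeasurableSpace X] {N : ℕ} (γ : Measure X) [IsFiniteMeasure γ]
    (ν : Measure (OMat N)) [IsProbabilityMeasure ν] (T : OMat N → X → X)
    (hT : Measurable fun p : X × OMat N => T p.2 p.1) (hinv : ∀ R, γ.map (T R) = γ)
    {G : X → ℝ} (hG : Measurable G) {C : ℝ} (hC : ∀ x, |G x| ≤ C) :
    Integrable (fun x => ∫ R, G (T R x) ∂ν) γ ∧
      ∫ x, ∫ R, G (T R x) ∂ν ∂γ = ∫ x, G x ∂γ := by
  have hi : Integrable (fun p : X × OMat N => G (T p.2 p.1)) (γ.prod ν) :=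
    (integrable_const C).mono' (hG.comp hT).aestronglyMeasurable
      (Filter.Eventually.of_forall fun p => hC _)
  refine ⟨hi.integral_prod_left, ?_⟩
  rw [integral_integral_swap hi]
  have h : ∀ R, ∫ x, G (T R x) ∂γ = ∫ x, G x ∂γ := fun R => by
    conv_rhs => rw [← hinv R]
    exact (integral_map (hT.comp (measurable_id.prodMk measurable_const)).aemeasurable
      hG.aestronglyMeasurable).symm
  simp [h]

lemma avg_lower {X : Type*} [MeasurableSpace X] {N : ℕ} (γ : Measure X) [IsFiniteMeasure γ]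
    (ν : Measure (OMat N)) [IsProbabilityMeasure ν] (T : OMat N → X → X)
    (hT : Measurable fun p : X × OMat N => T p.2 p.1) (hinv : ∀ R, γ.map (T R) = γ)
    {G : X → ℝ} (hG : Measurable G) {C : ℝ} (hC : ∀ x, |G x| ≤ C) (hG0 : ∀ x, 0 ≤ G x)
    {S : Set X} (hS : MeasurableSet S) {B : ℝ} (hB : ∀ x ∈ S, B ≤ ∫ R, G (T R x) ∂ν) :
    B * γ.real S ≤ ∫ x, G x ∂γ := by
  obtain ⟨hi, he⟩ := avg_eq γ ν T hT hinv hG hC
  rw [← he]
  have := integral_mono ((integrable_const B).indicator hS) hi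
    fun x => Set.indicator_le' hB (fun y _ => integral_nonneg fun R => hG0 _) x
  rwa [integral_indicator_const _ hS, smul_eq_mul, mul_comm] at this

lemma N_large {a : ℝ} {N : ℕ} (h : ⌈a⌉₊ + 1 ≤ N) : a < N :=
  lt_of_lt_of_le (lt_of_le_of_lt (Nat.le_ceil _) (by push_cast; linarith)) (Nat.cast_le.2 h)

lemma abs_tilt_param {M θ c : ℝ} (hθ : |θ| ≤ M) (hc : |c| ≤ M) :
    |θ - c - 1| ≤ 2 * |M| + 1 := by
  have := le_abs_self M
  exact abs_le.2 ⟨by linarith [(abs_le.1 hθ).1, (abs_le.1 hc).2],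
    by linarith [(abs_le.1 hθ).2, (abs_le.1 hc).1]⟩

lemma quad_param {N : ℕ} (c : Fin N → ℝ) (θ : ℝ) {x : Fin N → ℝ} (hx : sq x = N) :
    quad (fun i => θ - c i - 1) x = (θ - 1) * N - ∑ i, c i * x i ^ 2 := by
  rw [← hx, sq, quad, Finset.mul_sum, ← Finset.sum_sub_distrib]
  exact Finset.sum_congr rfl fun i _ => by ring

lemma abs_ind_tilt_le {ι : Type*} [Fintype ι] {q : ι → ℝ} {K B : ℝ} (hK : 0 ≤ K)
    (hq : ∀ i, |q i| ≤ K) {s : Set (ι → ℝ)} (hs : ∀ x ∈ s, sq x ≤ 2 * B) (x : ι → ℝ) :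
    |s.indicator (tilt q) x| ≤ Real.exp (K * B) := by
  rw [abs_of_nonneg (Set.indicator_nonneg (f := tilt q) (fun y _ => (Real.exp_pos _).le) x)]
  exact ind_le (fun hx => Real.exp_le_exp.2 (by
    linarith [neg_abs_le (quad q x), abs_quad_le hq x, mul_le_mul_of_nonneg_left (hs x hx) hK]))
    (Real.exp_pos _).le

/-- Rescaling a vector of squared length about `N` moves a weighted sum of squares little. -/
lemma quad_scale_le {ι : Type*} [Fintype ι] {q : ι → ℝ} {K ρ δ B : ℝ} (hq : ∀ i, |q i| ≤ K)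
    {x : ι → ℝ} (hx : sq x = B) (hρ : |ρ - 1| ≤ δ) :
    |ρ * quad q x - quad q x| ≤ δ * (K * B) := by
  rw [show ρ * quad q x - quad q x = (ρ - 1) * quad q x by ring, abs_mul]
  exact mul_le_mul hρ ((abs_quad_le hq x).trans (by rw [hx])) (abs_nonneg _)
    ((abs_nonneg _).trans hρ)

lemma abs_div_sub_one_le {a B δ : ℝ} (hB : 0 < B) (h : |a - B| ≤ δ * B) : |a / B - 1| ≤ δ := by
  rwa [div_sub_one hB.ne', abs_div, abs_of_pos hB, div_le_iff₀ hB]

/-- The window on the squared length off `W`. -/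
def upWin {N : ℕ} (W : Finset (Fin N)) (δ : ℝ) : Set (Fin N → ℝ) :=
  {g | |(∑ i ∈ Wᶜ, g i ^ 2) - (N : ℝ)| ≤ δ * N}

lemma upWin_measurable {N : ℕ} (W : Finset (Fin N)) (δ : ℝ) : MeasurableSet (upWin W δ) :=
  measurableSet_le
    (by fun_prop : Continuous fun g : Fin N → ℝ => |(∑ i ∈ Wᶜ, g i ^ 2) - (N : ℝ)|).measurable
    measurable_const

lemma upWin_half {N : ℕ} (W : Finset (Fin N)) {δ : ℝ} (hδ : 0 < δ) (hδ1 : δ ≤ 1)
    (hW : (W.card : ℝ) ≤ δ / 2 * N) (hN : 256 ≤ δ ^ 2 * N) :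
    1 / 2 ≤ (gauss (Fin N)).real (upWin W δ) := by
  have hcard : ((Wᶜ : Finset (Fin N)).card : ℝ) = N - W.card := by
    rw [Finset.card_compl, Fintype.card_fin, Nat.cast_sub (by simpa using Finset.card_le_univ W)]
  have h := gauss_sq_tail Wᶜ (N := (N : ℝ)) (δ := δ / 2)
    (by rw [hcard]; linarith [Nat.cast_nonneg (α := ℝ) W.card]) (by positivity) (by linarith)
  have hsub : (upWin W δ)ᶜ ⊆
      {x : Fin N → ℝ | δ / 2 * N ≤ |∑ i ∈ Wᶜ, x i ^ 2 - ((Wᶜ : Finset (Fin N)).card : ℝ)|} := by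
    intro x hx
    rw [upWin, Set.mem_compl_iff, Set.mem_ofPred_eq, not_le] at hx
    rw [Set.mem_ofPred_eq, hcard]
    rcases lt_abs.1 hx with h | h
    · exact le_abs.2 (Or.inl (by linarith [Nat.cast_nonneg (α := ℝ) W.card]))
    · exact le_abs.2 (Or.inr (by linarith))
  have h1 := (measureReal_mono hsub).trans h
  rw [probReal_compl_eq_one_sub (upWin_measurable W δ)] at h1
  have h2 : Real.exp (-((δ / 2) ^ 2 / 16 * N)) ≤ 1 / 4 := by
    rw [Real.exp_neg, one_div]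
    refine inv_anti₀ (by norm_num) ?_
    linarith [Real.add_one_le_exp ((δ / 2) ^ 2 / 16 * N)]
  linarith

/-- The lower bound for the average of the tilt over the matrices fixing `W`. -/
lemma upper_avg {N : ℕ} (hN : 0 < (N : ℝ)) {ν : Measure (OMat N)} {W : Finset (Fin N)}
    (hν : Sub ν W) {v : Fin N → ℝ} (hv : ∀ i ∈ W, v i = 0) (hvN : sq v = N) {δ K : ℝ}
    (c : Fin N → ℝ) (θ : ℝ) {q : Fin N → ℝ} (hq : q = fun i => if i ∈ W then 0 else θ - c i - 1)
    (hqK : ∀ i, |q i| ≤ K) {g : Fin N → ℝ} (hg : g ∈ upWin W δ) :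
    Real.exp (-(δ * K * N) / 2 - (θ - 1) * N / 2)
        * ∫ R, Real.exp ((∑ i ∈ Wᶜ, c i * act R v i ^ 2) / 2) ∂ν
      ≤ ∫ R, (upWin W δ).indicator (tilt q) (act R g) ∂ν := by
  have := hν.prob
  have hqW : ∀ x, quad q x = ∑ i ∈ Wᶜ, (θ - c i - 1) * x i ^ 2 := fun x => by
    rw [quad, ← Finset.sum_add_sum_compl W, hq, Finset.sum_eq_zero fun i hi => by simp [hi],
      zero_add]
    exact Finset.sum_congr rfl fun i hi => by simp [Finset.mem_compl.1 hi]
  have hsum : ∀ x : Fin N → ℝ, (∀ i ∈ W, x i = 0) → ∑ i ∈ Wᶜ, x i ^ 2 = sq x := fun x hx => by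
    rw [sq, ← Finset.sum_add_sum_compl W (fun i => x i ^ 2),
      Finset.sum_eq_zero (s := W) fun i hi => by rw [hx i hi]; ring, zero_add]
  obtain ⟨g', hg'⟩ : ∃ g' : Fin N → ℝ, g' = fun i => if i ∈ W then 0 else g i := ⟨_, rfl⟩
  have hg'W : ∀ i ∈ W, g' i = 0 := fun i hi => by simp [hg', hi]
  have hsg : sq g' = ∑ i ∈ Wᶜ, g i ^ 2 := by
    rw [← hsum g' hg'W]
    exact Finset.sum_congr rfl fun i hi => by simp [hg', Finset.mem_compl.1 hi]
  obtain ⟨ρ, hρ⟩ : ∃ ρ, ρ = sq g' / N := ⟨_, rfl⟩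
  have hρ1 : |ρ - 1| ≤ δ := hρ ▸ abs_div_sub_one_le hN (by rw [hsg]; exact hg)
  have hρ0 : 0 ≤ ρ := hρ ▸ div_nonneg (sq_nonneg' _) hN.le
  have hae : ∀ᵐ R ∂ν, (upWin W δ).indicator (tilt q) (act R g) = tilt q (act R g') := by
    filter_upwards [hν.fixes] with R hR
    have hsplit : ∀ i ∈ Wᶜ, act R g i = act R g' i := fun i hi => by
      have h0 : act R (g - g') = g - g' :=
        act_fix_supp hR fun j hj => by simp [hg', hj]
      have h1 := congrFun (act_add R g' (g - g')) i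
      rw [add_sub_cancel, h0] at h1
      simpa [hg', Finset.mem_compl.1 hi] using h1
    have e1 : ∑ i ∈ Wᶜ, act R g i ^ 2 = sq g' := by
      rw [← sq_act R g', ← hsum (act R g') fun i hi => by rw [hR i hi, hg'W i hi]]
      exact Finset.sum_congr rfl fun i hi => by rw [hsplit i hi]
    have hmem : act R g ∈ upWin W δ := by
      show |_ - (N : ℝ)| ≤ δ * N
      rw [e1, hsg]; exact hg
    rw [Set.indicator_of_mem hmem, tilt, tilt, hqW, hqW,
      Finset.sum_congr rfl fun i hi => by rw [hsplit i hi]]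
  rw [integral_congr_ae hae, sub_vec_invariant hν hg'W (w := Real.sqrt ρ • v)
    (fun i hi => by simp [hv i hi])
    (by rw [sq_smul, Real.sq_sqrt hρ0, hvN, hρ, div_mul_cancel₀ _ hN.ne']) _
    (continuous_tilt q), ← integral_const_mul]
  refine integral_mono_ae ((integrable_of_cont ν (by fun_prop)).const_mul _)
    (integrable_of_cont ν (by fun_prop)) ?_
  filter_upwards [hν.fixes] with R hR
  have hQ : quad q (act R v) = (θ - 1) * N - ∑ i ∈ Wᶜ, c i * act R v i ^ 2 := by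
    rw [hqW, ← hvN, ← sq_act R v,
      ← hsum (act R v) fun i hi => by rw [hR i hi, hv i hi], Finset.mul_sum,
      ← Finset.sum_sub_distrib]
    exact Finset.sum_congr rfl fun i _ => by ring
  have hb := quad_scale_le hqK (x := act R v) (by rw [sq_act, hvN]) hρ1
  rw [act_smul, tilt, quad_smul, Real.sq_sqrt hρ0, ← Real.exp_add]
  refine Real.exp_le_exp.2 ?_
  linarith [(abs_le.1 hb).2]

theorem sph_upper (M η : ℝ) (hη : 0 < η) :
    ∃ ε > 0, ∃ N0 : ℕ, ∀ N ≥ N0, ∀ (ν : Measure (OMat N)) (W : Finset (Fin N)), Sub ν W →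
      (W.card : ℝ) ≤ ε * N → ∀ v : Fin N → ℝ, (∀ i ∈ W, v i = 0) → sq v = N →
      ∀ (c : Fin N → ℝ) (θ : ℝ), (∀ i, |c i| ≤ M) → |θ| ≤ M → (∀ i ∈ Wᶜ, c i < θ) →
        ∫ R, Real.exp ((∑ i ∈ Wᶜ, c i * act R v i ^ 2) / 2) ∂ν
          ≤ Real.exp (N * η + ((θ - 1) * N - ∑ i ∈ Wᶜ, Real.log (θ - c i)) / 2) := by
  obtain ⟨K, hK⟩ : ∃ K, K = 2 * |M| + 1 := ⟨_, rfl⟩
  have hK0 : 0 < K := hK ▸ (by positivity : (0 : ℝ) < 2 * |M| + 1)
  obtain ⟨δ, hδdef⟩ : ∃ δ, δ = min 1 (η / K) := ⟨_, rfl⟩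
  have hδ : 0 < δ := hδdef ▸ lt_min one_pos (by positivity)
  have hδ1 : δ ≤ 1 := hδdef ▸ min_le_left _ _
  have hδK : δ * K ≤ η := (le_div_iff₀ hK0).1 (hδdef ▸ min_le_right _ _)
  refine ⟨δ / 2, by positivity, ⌈256 / δ ^ 2 + 2 / η⌉₊ + 1,
    fun N hN ν W hν hW v hv hvN c θ hc hθ hlt => ?_⟩
  have hN' := N_large hN
  have hN0 : (0 : ℝ) < N := lt_trans (by positivity) hN'
  have hN1 : 256 ≤ δ ^ 2 * N := by
    rw [← div_le_iff₀' (by positivity)]; linarith [show (0 : ℝ) < 2 / η by positivity]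
  have hN2 : 2 ≤ η * N := by
    rw [← div_le_iff₀' hη]; linarith [show (0 : ℝ) < 256 / δ ^ 2 by positivity]
  have := hν.prob
  obtain ⟨q, hq⟩ : ∃ q : Fin N → ℝ, q = fun i => if i ∈ W then 0 else θ - c i - 1 := ⟨_, rfl⟩
  have hq1 : ∀ i, -1 < q i := fun i => by
    rw [hq]; dsimp only; split_ifs with h
    · norm_num
    · linarith [hlt i (Finset.mem_compl.2 h)]
  have hqK : ∀ i, |q i| ≤ K := fun i => by
    rw [hq]; dsimp only; split_ifs with h
    · simpa using hK0.le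
    · exact hK ▸ abs_tilt_param hθ (hc i)
  have hlog : ∑ i, Real.log (1 + q i) = ∑ i ∈ Wᶜ, Real.log (θ - c i) := by
    rw [← Finset.sum_add_sum_compl W, hq, Finset.sum_eq_zero fun i hi => by simp [hi], zero_add]
    exact Finset.sum_congr rfl fun i hi => by simp [Finset.mem_compl.1 hi]
  obtain ⟨hFi, hFe⟩ := gauss_tilt hq1
  obtain ⟨P, hP⟩ : ∃ P, P = -(δ * K * N) / 2 - (θ - 1) * N / 2 := ⟨_, rfl⟩
  obtain ⟨I, hI⟩ : ∃ I, I = ∫ R, Real.exp ((∑ i ∈ Wᶜ, c i * act R v i ^ 2) / 2) ∂ν := ⟨_, rfl⟩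
  have hG0 : ∀ x, 0 ≤ (upWin W δ).indicator (tilt q) x := fun x =>
    Set.indicator_nonneg (fun y _ => (Real.exp_pos _).le) x
  have hGb : ∀ x, |(upWin W δ).indicator (tilt q) x| ≤ Real.exp (K * N) := fun x => by
    rw [abs_of_nonneg (hG0 x)]
    refine ind_le (fun hx => Real.exp_le_exp.2 ?_) (Real.exp_pos _).le
    have h1 : |quad q x| ≤ K * ∑ i ∈ Wᶜ, x i ^ 2 := by
      rw [quad, ← Finset.sum_add_sum_compl W, Finset.sum_eq_zero fun i hi => by simp [hq, hi],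
        zero_add, Finset.mul_sum]
      refine (Finset.abs_sum_le_sum_abs _ _).trans (Finset.sum_le_sum fun i _ => ?_)
      rw [abs_mul, abs_of_nonneg (sq_nonneg (x i))]
      exact mul_le_mul_of_nonneg_right (hqK i) (sq_nonneg _)
    have h2 : ∑ i ∈ Wᶜ, x i ^ 2 ≤ 2 * N := by
      have := (abs_le.1 (show |(∑ i ∈ Wᶜ, x i ^ 2) - (N : ℝ)| ≤ δ * N from hx)).2
      linarith [mul_le_mul_of_nonneg_right hδ1 hN0.le]
    linarith [neg_abs_le (quad q x), mul_le_mul_of_nonneg_left h2 hK0.le]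
  have key : Real.exp P * I * (gauss (Fin N)).real (upWin W δ)
      ≤ ∫ x, (upWin W δ).indicator (tilt q) x ∂gauss (Fin N) :=
    avg_lower (gauss (Fin N)) ν act continuous_act.measurable gauss_act
      ((continuous_tilt q).measurable.indicator (upWin_measurable W δ)) hGb hG0
      (upWin_measurable W δ) fun g hg => by
        rw [hP, hI]; exact upper_avg hN0 hν hv hvN c θ hq hqK hg
  have hle : ∫ x, (upWin W δ).indicator (tilt q) x ∂gauss (Fin N)
      ≤ ∫ x, tilt q x ∂gauss (Fin N) :=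
    integral_mono (hFi.indicator (upWin_measurable W δ)) hFi
      fun x => ind_le (fun _ => le_rfl) (Real.exp_pos _).le
  obtain ⟨L, hL⟩ : ∃ L, L = ∑ i ∈ Wᶜ, Real.log (θ - c i) := ⟨_, rfl⟩
  rw [hFe, hlog, ← hL] at hle
  have hI0 : 0 ≤ I := hI ▸ integral_nonneg fun R => (Real.exp_pos _).le
  rw [← hI, ← hL]
  have h3 : Real.exp P * I * (1 / 2) ≤ Real.exp (-L / 2) :=
    ((mul_le_mul_of_nonneg_left (upWin_half W hδ hδ1 hW hN1)
      (mul_nonneg (Real.exp_pos _).le hI0)).trans key).trans hle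
  have h4 : I ≤ 2 * Real.exp (-L / 2 - P) := by
    rw [Real.exp_sub, mul_div_assoc', le_div_iff₀ (Real.exp_pos _)]
    linarith
  refine h4.trans ((mul_le_mul_of_nonneg_right (b := 2) (c := Real.exp (η * N / 2))
    ?_ (Real.exp_pos _).le).trans ?_)
  · linarith [Real.add_one_le_exp (η * N / 2)]
  rw [← Real.exp_add, hP]
  refine Real.exp_le_exp.2 ?_
  linarith [mul_le_mul_of_nonneg_right hδK hN0.le]

/-- The window for a pair of Gaussian vectors. -/
def pairWin (N : ℕ) (δ : ℝ) : Set ((Fin N → ℝ) × (Fin N → ℝ)) :=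
  {x | |sq x.1 - (N : ℝ)| ≤ δ * N ∧ |sq x.2 - (N : ℝ)| ≤ δ * N ∧ |x.1 ⬝ᵥ x.2| ≤ δ * N}

@[fun_prop]
lemma continuous_sq {ι : Type*} [Fintype ι] : Continuous fun x : ι → ℝ => sq x := by
  unfold sq; fun_prop

lemma pairWin_measurable (N : ℕ) (δ : ℝ) : MeasurableSet (pairWin N δ) := by
  have hdot : Continuous fun x : (Fin N → ℝ) × (Fin N → ℝ) => |x.1 ⬝ᵥ x.2| := by
    unfold dotProduct; fun_prop
  exact (measurableSet_le ((continuous_sq.comp continuous_fst).sub continuous_const).abs.measurable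
    measurable_const).inter ((measurableSet_le
    ((continuous_sq.comp continuous_snd).sub continuous_const).abs.measurable
    measurable_const).inter (measurableSet_le hdot.measurable measurable_const))

lemma pairWin_half {N : ℕ} {δ : ℝ} (hδ : 0 < δ) (hδ1 : δ ≤ 1) (hN : 64 ≤ δ ^ 2 * N) :
    1 / 2 ≤ ((gauss (Fin N)).prod (gauss (Fin N))).real (pairWin N δ) := by
  obtain ⟨A, hA⟩ : ∃ A : Set (Fin N → ℝ), A = {x | δ * N ≤ |sq x - (N : ℝ)|} := ⟨_, rfl⟩
  have hAb : (gauss (Fin N)).real A ≤ 2 * Real.exp (-(δ ^ 2 / 16 * N)) := by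
    have := gauss_sq_tail (Finset.univ : Finset (Fin N)) (N := (N : ℝ)) (by simp) hδ hδ1
    simpa [hA, sq] using this
  obtain ⟨D, hD⟩ : ∃ D : Set ((Fin N → ℝ) × (Fin N → ℝ)),
      D = {x | sq x.1 ≤ 2 * N ∧ δ * N ≤ |x.1 ⬝ᵥ x.2|} := ⟨_, rfl⟩
  have hdot : Continuous fun x : (Fin N → ℝ) × (Fin N → ℝ) => |x.1 ⬝ᵥ x.2| := by
    unfold dotProduct; fun_prop
  have hDm : MeasurableSet D := hD ▸ (measurableSet_le
    (continuous_sq.comp continuous_fst).measurable measurable_const).inter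
      (measurableSet_le measurable_const hdot.measurable)
  have hDb : ((gauss (Fin N)).prod (gauss (Fin N))).real D
      ≤ 2 * Real.exp (-(δ ^ 2 / 4 * N)) := by
    refine ENNReal.toReal_le_of_le_ofReal (by positivity) ?_
    rw [Measure.prod_apply hDm]
    refine (lintegral_mono (g := fun _ => ENNReal.ofReal (2 * Real.exp (-(δ ^ 2 / 4 * N))))
      fun g => ?_).trans (le_of_eq (by simp))
    rw [← ofReal_measureReal]
    refine ENNReal.ofReal_le_ofReal ?_
    rcases le_or_gt (sq g) (2 * N) with hg | hg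
    · refine ((measureReal_mono (s₂ := {h | δ * N ≤ g ⬝ᵥ h} ∪ {h | δ * N ≤ (-g) ⬝ᵥ h})
        fun h hh => ?_).trans (measureReal_union_le _ _)).trans ?_
      · simp only [hD, Set.mem_preimage, Set.mem_ofPred_eq] at hh
        simp only [Set.mem_union, Set.mem_ofPred_eq, neg_dotProduct]
        exact le_abs.1 hh.2
      · rw [two_mul]
        exact add_le_add (gauss_dot_tail hδ hg) (gauss_dot_tail hδ (by simpa [sq] using hg))
    · have : Prod.mk g ⁻¹' D = ∅ := Set.eq_empty_of_forall_notMem fun h hh => by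
        simp only [hD, Set.mem_preimage, Set.mem_ofPred_eq] at hh
        linarith [hh.1]
      rw [this, measureReal_empty]
      positivity
  have hsub : (pairWin N δ)ᶜ ⊆ A ×ˢ Set.univ ∪ Set.univ ×ˢ A ∪ D := by
    intro x hx
    simp only [pairWin, Set.mem_compl_iff, Set.mem_ofPred_eq, not_and_or, not_le] at hx
    simp only [Set.mem_union, Set.mem_prod, Set.mem_univ, and_true, true_and, hA, hD,
      Set.mem_ofPred_eq]
    rcases hx with h | h | h
    · exact Or.inl (Or.inl h.le)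
    · exact Or.inl (Or.inr h.le)
    · rcases le_or_gt (δ * N) |sq x.1 - (N : ℝ)| with h' | h'
      · exact Or.inl (Or.inl h')
      · refine Or.inr ⟨?_, h.le⟩
        linarith [(abs_lt.1 h').2, mul_le_mul_of_nonneg_right hδ1 (Nat.cast_nonneg (α := ℝ) N)]
  have h1 := (measureReal_mono (μ := (gauss (Fin N)).prod (gauss (Fin N))) hsub).trans
    ((measureReal_union_le _ _).trans (add_le_add (measureReal_union_le _ _) le_rfl))
  rw [probReal_compl_eq_one_sub (pairWin_measurable N δ), measureReal_prod_prod,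
    measureReal_prod_prod, probReal_univ, mul_one, one_mul] at h1
  have h2 : Real.exp (-(δ ^ 2 / 4 * N)) ≤ Real.exp (-(δ ^ 2 / 16 * N)) :=
    Real.exp_le_exp.2 (by linarith)
  have h3 : Real.exp (-(δ ^ 2 / 16 * N)) ≤ 1 / 12 := by
    rw [Real.exp_neg, one_div]
    refine inv_anti₀ (by norm_num) ?_
    have h4 : (4 : ℝ) ≤ δ ^ 2 / 16 * N := by linarith
    linarith [Real.quadratic_le_exp_of_nonneg (show (0 : ℝ) ≤ δ ^ 2 / 16 * N by linarith),
      pow_le_pow_left₀ (by norm_num) h4 2]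
  linarith

/-- A nearly orthogonal pair is close to a scaled orthogonal frame. -/
lemma pair_perturb {N : ℕ} (hN : 0 < (N : ℝ)) {δ K : ℝ} (hδ : 0 < δ) (hδ4 : δ ≤ 1 / 4)
    (hK : 0 ≤ K) {q p : Fin N → ℝ} (hqK : ∀ i, |q i| ≤ K) (hpK : ∀ i, |p i| ≤ K)
    {g h : Fin N → ℝ} (hw : (g, h) ∈ pairWin N δ) :
    ∃ g₀ h₀ : Fin N → ℝ, sq g₀ = N ∧ sq h₀ = N ∧ g₀ ⬝ᵥ h₀ = 0 ∧ ∀ U : OMat N,
      quad q (act U g) + quad p (act U h)
        ≤ quad q (act U g₀) + quad p (act U h₀) + 10 * δ * K * N := by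
  obtain ⟨hg, hh, hgh⟩ := hw
  dsimp only at hg hh hgh
  have hδN := mul_le_mul_of_nonneg_right hδ4 hN.le
  have hg1 : 3 / 4 * (N : ℝ) ≤ sq g := by linarith [(abs_le.1 hg).1]
  have hg2 : sq g ≤ 5 / 4 * N := by linarith [(abs_le.1 hg).2]
  have hg0 : 0 < sq g := by linarith
  obtain ⟨a, ha⟩ : ∃ a, a = (g ⬝ᵥ h) / sq g := ⟨_, rfl⟩
  obtain ⟨h₁, hh₁⟩ : ∃ h₁, h₁ = h - a • g := ⟨_, rfl⟩
  have ha2 : |a| ≤ 2 * δ := by
    rw [ha, abs_div, abs_of_pos hg0, div_le_iff₀ hg0]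
    linarith [mul_le_mul_of_nonneg_left hg1 hδ.le, mul_pos hδ hN]
  have hh1o : g ⬝ᵥ h₁ = 0 := by
    rw [hh₁, dotProduct_sub, dotProduct_smul, ← sq_eq_dot, smul_eq_mul, ha,
      div_mul_cancel₀ _ hg0.ne', sub_self]
  have hh1sq : sq h₁ = sq h - a * (g ⬝ᵥ h) := by
    rw [sq_eq_dot h₁]
    conv_lhs => arg 1; rw [hh₁]
    rw [sub_dotProduct, smul_dotProduct, hh1o, smul_zero, sub_zero, hh₁, dotProduct_sub,
      dotProduct_smul, ← sq_eq_dot, smul_eq_mul, dotProduct_comm h g]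
  have hh1b : |sq h₁ - N| ≤ 2 * δ * N := by
    have h5 : |a * (g ⬝ᵥ h)| ≤ 2 * δ * (δ * N) := by
      rw [abs_mul]; exact mul_le_mul ha2 hgh (abs_nonneg _) (by positivity)
    have h6 : 2 * δ * (δ * N) ≤ δ * N := by
      linarith [mul_le_mul_of_nonneg_left hδN (mul_nonneg zero_le_two hδ.le), mul_pos hδ hN]
    obtain ⟨h7, h8⟩ := abs_le.1 h5
    obtain ⟨h9, h10⟩ := abs_le.1 hh
    rw [hh1sq]
    exact abs_le.2 ⟨by linarith, by linarith⟩
  obtain ⟨ρ, hρ⟩ : ∃ ρ, ρ = sq g / N := ⟨_, rfl⟩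
  obtain ⟨σ, hσ⟩ : ∃ σ, σ = sq h₁ / N := ⟨_, rfl⟩
  have hρ1 : |ρ - 1| ≤ δ := hρ ▸ abs_div_sub_one_le hN hg
  have hσ1 : |σ - 1| ≤ 2 * δ := hσ ▸ abs_div_sub_one_le hN hh1b
  have hρ0 : 0 < ρ := hρ ▸ div_pos hg0 hN
  have hσ0 : 0 < σ := by linarith [(abs_le.1 hσ1).1]
  have hh10 : 0 < sq h₁ := by linarith [(abs_le.1 hh1b).1]
  refine ⟨(Real.sqrt ρ)⁻¹ • g, (Real.sqrt σ)⁻¹ • h₁, ?_, ?_, ?_, fun U => ?_⟩
  · rw [sq_smul, inv_pow, Real.sq_sqrt hρ0.le, hρ, inv_div, div_mul_cancel₀ _ hg0.ne']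
  · rw [sq_smul, inv_pow, Real.sq_sqrt hσ0.le, hσ, inv_div, div_mul_cancel₀ _ hh10.ne']
  · rw [smul_dotProduct, dotProduct_smul, hh1o, smul_zero, smul_zero]
  have b1 := quad_scale_le hqK (x := act U ((Real.sqrt ρ)⁻¹ • g)) (B := N)
    (by rw [sq_act, sq_smul, inv_pow, Real.sq_sqrt hρ0.le, hρ, inv_div,
      div_mul_cancel₀ _ hg0.ne']) hρ1
  have b2 := quad_scale_le hpK (x := act U ((Real.sqrt σ)⁻¹ • h₁)) (B := N)
    (by rw [sq_act, sq_smul, inv_pow, Real.sq_sqrt hσ0.le, hσ, inv_div,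
      div_mul_cancel₀ _ hh10.ne']) hσ1
  have e1 : ρ * quad q (act U ((Real.sqrt ρ)⁻¹ • g)) = quad q (act U g) := by
    rw [act_smul, quad_smul, inv_pow, Real.sq_sqrt hρ0.le, ← mul_assoc,
      mul_inv_cancel₀ hρ0.ne', one_mul]
  have e2 : σ * quad p (act U ((Real.sqrt σ)⁻¹ • h₁)) = quad p (act U h₁) := by
    rw [act_smul, quad_smul, inv_pow, Real.sq_sqrt hσ0.le, ← mul_assoc,
      mul_inv_cancel₀ hσ0.ne', one_mul]
  rw [e1] at b1
  rw [e2] at b2
  have e3 : act U h₁ + a • act U g = act U h := by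
    rw [← act_smul, ← act_add, hh₁, sub_add_cancel]
  have b3 := abs_quad_add_le hpK a (act U h₁) (act U g)
  rw [e3, sq_act, sq_act] at b3
  have b4 : |a| * (sq h₁ + sq g) + a ^ 2 * sq g ≤ 7 * δ * N := by
    have b5 : |a| * (sq h₁ + sq g) ≤ 2 * δ * (11 / 4 * N) :=
      mul_le_mul ha2 (by linarith [(abs_le.1 hh1b).2])
        (add_nonneg (sq_nonneg' _) (sq_nonneg' _)) (by positivity)
    have b6 : a ^ 2 ≤ δ := by
      rw [← sq_abs]
      exact (pow_le_pow_left₀ (abs_nonneg a) ha2 2).trans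
        (by linarith [mul_le_mul_of_nonneg_left hδ4 hδ.le])
    linarith [mul_le_mul b6 hg2 (sq_nonneg' _) hδ.le, mul_pos hδ hN]
  have b8 := mul_le_mul_of_nonneg_left b4 hK
  linarith [(abs_le.1 b1).2, (abs_le.1 b2).2, (abs_le.1 b3).2]

/-- The lower bound for the average of the pair tilt. -/
lemma pair_avg {N : ℕ} (hN : 0 < (N : ℝ)) {u v : Fin N → ℝ} (huN : sq u = N) (hvN : sq v = N)
    (huv : u ⬝ᵥ v = 0) {δ K : ℝ} (hδ : 0 < δ) (hδ4 : δ ≤ 1 / 4) (hK : 0 ≤ K)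
    (c d : Fin N → ℝ) (θ θ' : ℝ) (hq : ∀ i, |θ - c i - 1| ≤ K) (hp : ∀ i, |θ' - d i - 1| ≤ K)
    {g h : Fin N → ℝ} (hw : (g, h) ∈ pairWin N δ) :
    Real.exp (-(5 * δ * K * N) - ((θ - 1) * N + (θ' - 1) * N) / 2)
        * ∫ U, Real.exp ((∑ i, c i * act U u i ^ 2 + ∑ i, d i * act U v i ^ 2) / 2) ∂haarO N
      ≤ ∫ U, (pairWin N δ).indicator
          (fun x => tilt (fun i => θ - c i - 1) x.1 * tilt (fun i => θ' - d i - 1) x.2)
          (act U g, act U h) ∂haarO N := by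
  obtain ⟨q, hq'⟩ : ∃ q : Fin N → ℝ, q = fun i => θ - c i - 1 := ⟨_, rfl⟩
  obtain ⟨p, hp'⟩ : ∃ p : Fin N → ℝ, p = fun i => θ' - d i - 1 := ⟨_, rfl⟩
  rw [← hq', ← hp']
  obtain ⟨g₀, h₀, hg₀, hh₀, hgh₀, hQ⟩ := pair_perturb hN hδ hδ4 hK
    (q := q) (p := p) (hq' ▸ hq) (hp' ▸ hp) hw
  have hTx : ∀ U : OMat N, (pairWin N δ).indicator (fun x => tilt q x.1 * tilt p x.2)
      (act U g, act U h) = tilt q (act U g) * tilt p (act U h) := fun U => by
    rw [Set.indicator_of_mem]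
    simp only [pairWin, Set.mem_ofPred_eq, sq_act, dot_act]
    exact hw
  simp only [hTx]
  have e0 : ∀ U : OMat N, Real.exp (-(5 * δ * K * N) - ((θ - 1) * N + (θ' - 1) * N) / 2)
      * Real.exp ((∑ i, c i * act U u i ^ 2 + ∑ i, d i * act U v i ^ 2) / 2)
      = Real.exp (-(5 * δ * K * N) - (quad q (act U u) + quad p (act U v)) / 2) := fun U => by
    rw [hq', hp', quad_param c θ (by rw [sq_act, huN]), quad_param d θ' (by rw [sq_act, hvN]),
      ← Real.exp_add]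
    congr 1
    ring
  rw [← integral_const_mul]
  simp only [e0]
  rw [← haar_pair_invariant (u := g₀) (v := h₀) (u' := u) (v' := v) (by rw [hg₀, huN])
    (by rw [hh₀, hvN]) hgh₀ huv
    (fun x y => Real.exp (-(5 * δ * K * N) - (quad q x + quad p y) / 2)) (by fun_prop)]
  refine integral_mono (integrable_of_cont _ (by fun_prop)) (integrable_of_cont _ (by fun_prop))
    fun U => ?_
  simp only [tilt, ← Real.exp_add]
  exact Real.exp_le_exp.2 (by linarith [hQ U])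

theorem sph2_upper (M η : ℝ) (hη : 0 < η) :
    ∃ N0 : ℕ, ∀ N ≥ N0, ∀ u v : Fin N → ℝ, sq u = N → sq v = N → u ⬝ᵥ v = 0 →
      ∀ (c d : Fin N → ℝ) (θ θ' : ℝ), (∀ i, |c i| ≤ M) → (∀ i, |d i| ≤ M) → |θ| ≤ M → |θ'| ≤ M →
        (∀ i, c i < θ) → (∀ i, d i < θ') →
        ∫ U, Real.exp ((∑ i, c i * act U u i ^ 2 + ∑ i, d i * act U v i ^ 2) / 2) ∂haarO N
          ≤ Real.exp (N * η + ((θ - 1) * N - ∑ i, Real.log (θ - c i)) / 2
              + ((θ' - 1) * N - ∑ i, Real.log (θ' - d i)) / 2) := by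
  obtain ⟨K, hK⟩ : ∃ K, K = 2 * |M| + 1 := ⟨_, rfl⟩
  have hK0 : 0 < K := hK ▸ (by positivity : (0 : ℝ) < 2 * |M| + 1)
  obtain ⟨δ, hδdef⟩ : ∃ δ, δ = min (1 / 4) (η / (10 * K)) := ⟨_, rfl⟩
  have hδ : 0 < δ := hδdef ▸ lt_min (by norm_num) (by positivity)
  have hδ4 : δ ≤ 1 / 4 := hδdef ▸ min_le_left _ _
  have hδK : δ * (10 * K) ≤ η := (le_div_iff₀ (by positivity)).1 (hδdef ▸ min_le_right _ _)
  refine ⟨⌈64 / δ ^ 2 + 2 / η⌉₊ + 1, fun N hN u v huN hvN huv c d θ θ' hc hd hθ hθ' hlt hlt' => ?_⟩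
  have hN' := N_large hN
  have hN0 : (0 : ℝ) < N := lt_trans (by positivity) hN'
  have hN1 : 64 ≤ δ ^ 2 * N := by
    rw [← div_le_iff₀' (by positivity)]; linarith [show (0 : ℝ) < 2 / η by positivity]
  have hN2 : 2 ≤ η * N := by
    rw [← div_le_iff₀' hη]; linarith [show (0 : ℝ) < 64 / δ ^ 2 by positivity]
  have hq : ∀ i, |θ - c i - 1| ≤ K := fun i => hK ▸ abs_tilt_param hθ (hc i)
  have hp : ∀ i, |θ' - d i - 1| ≤ K := fun i => hK ▸ abs_tilt_param hθ' (hd i)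
  obtain ⟨hqi, hqe⟩ := gauss_tilt (q := fun i => θ - c i - 1) fun i => by linarith [hlt i]
  obtain ⟨hpi, hpe⟩ := gauss_tilt (q := fun i => θ' - d i - 1) fun i => by linarith [hlt' i]
  simp only [add_sub_cancel] at hqe hpe
  obtain ⟨γ, hγ⟩ : ∃ γ, γ = (gauss (Fin N)).prod (gauss (Fin N)) := ⟨_, rfl⟩
  have hTm : Measurable fun z : ((Fin N → ℝ) × (Fin N → ℝ)) × OMat N =>
      (act z.2 z.1.1, act z.2 z.1.2) :=
    (continuous_act.measurable.comp ((measurable_fst.comp measurable_fst).prodMk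
      measurable_snd)).prodMk (continuous_act.measurable.comp
      ((measurable_snd.comp measurable_fst).prodMk measurable_snd))
  have hinv : ∀ R, ((gauss (Fin N)).prod (gauss (Fin N))).map (fun x => (act R x.1, act R x.2))
      = (gauss (Fin N)).prod (gauss (Fin N)) := fun R => by
    have := Measure.map_prod_map (gauss (Fin N)) (gauss (Fin N))
      (continuous_act_right R).measurable (continuous_act_right R).measurable
    rw [gauss_act R] at this
    exact this.symm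
  obtain ⟨F, hF⟩ : ∃ F : (Fin N → ℝ) × (Fin N → ℝ) → ℝ,
      F = fun x => tilt (fun i => θ - c i - 1) x.1 * tilt (fun i => θ' - d i - 1) x.2 :=
    ⟨_, rfl⟩
  have hF0 : ∀ x, 0 ≤ F x := fun x => hF ▸ (mul_pos (Real.exp_pos _) (Real.exp_pos _)).le
  have hFm : Measurable F := hF ▸ ((continuous_tilt _).measurable.comp measurable_fst).mul
      ((continuous_tilt _).measurable.comp measurable_snd)
  have hFi : Integrable F ((gauss (Fin N)).prod (gauss (Fin N))) := hF ▸ hqi.mul_prod hpi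
  have hGb : ∀ x, |(pairWin N δ).indicator F x| ≤ Real.exp (K * N) * Real.exp (K * N) := fun x => by
    rw [abs_of_nonneg (Set.indicator_nonneg (fun y _ => hF0 y) x)]
    refine ind_le (fun hx => ?_) (by positivity)
    have h2 : ∀ a : ℝ, |a - N| ≤ δ * N → K * a ≤ K * (2 * N) := fun a ha =>
      mul_le_mul_of_nonneg_left
        (by linarith [(abs_le.1 ha).2, mul_le_mul_of_nonneg_right hδ4 hN0.le]) hK0.le
    rw [hF]
    refine mul_le_mul (Real.exp_le_exp.2 ?_) (Real.exp_le_exp.2 ?_) (Real.exp_pos _).le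
      (Real.exp_pos _).le
    · linarith [neg_abs_le (quad (fun i => θ - c i - 1) x.1), abs_quad_le hq x.1, h2 _ hx.1]
    · linarith [neg_abs_le (quad (fun i => θ' - d i - 1) x.2), abs_quad_le hp x.2, h2 _ hx.2.1]
  obtain ⟨P, hP⟩ : ∃ P, P = -(5 * δ * K * N) - ((θ - 1) * N + (θ' - 1) * N) / 2 := ⟨_, rfl⟩
  obtain ⟨I, hI⟩ : ∃ I, I = ∫ U, Real.exp ((∑ i, c i * act U u i ^ 2
      + ∑ i, d i * act U v i ^ 2) / 2) ∂haarO N := ⟨_, rfl⟩
  have key : Real.exp P * I * ((gauss (Fin N)).prod (gauss (Fin N))).real (pairWin N δ)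
      ≤ ∫ x, (pairWin N δ).indicator F x ∂(gauss (Fin N)).prod (gauss (Fin N)) :=
    avg_lower _ (haarO N) (fun U x => (act U x.1, act U x.2)) hTm hinv
      (hFm.indicator (pairWin_measurable N δ)) hGb
      (fun x => Set.indicator_nonneg (fun y _ => hF0 y) x) (pairWin_measurable N δ)
      fun x hx => by
        rw [hP, hI, hF]
        exact pair_avg hN0 huN hvN huv hδ hδ4 hK0.le c d θ θ' hq hp (g := x.1) (h := x.2) hx
  have hle : ∫ x, (pairWin N δ).indicator F x ∂(gauss (Fin N)).prod (gauss (Fin N))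
      ≤ ∫ x, F x ∂(gauss (Fin N)).prod (gauss (Fin N)) :=
    integral_mono (hFi.indicator (pairWin_measurable N δ)) hFi
      fun x => ind_le (fun _ => le_rfl) (hF0 x)
  obtain ⟨A, hA⟩ : ∃ A, A = ∑ i, Real.log (θ - c i) := ⟨_, rfl⟩
  obtain ⟨B, hB⟩ : ∃ B, B = ∑ i, Real.log (θ' - d i) := ⟨_, rfl⟩
  have hFe : ∫ x, F x ∂(gauss (Fin N)).prod (gauss (Fin N))
      = Real.exp (-A / 2 + -B / 2) := by
    rw [hF, integral_prod_mul, hqe, hpe, ← hA, ← hB, ← Real.exp_add]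
  rw [← hI, ← hA, ← hB]
  have hI0 : 0 ≤ I := hI ▸ integral_nonneg fun U => (Real.exp_pos _).le
  have h3 : Real.exp P * I * (1 / 2) ≤ Real.exp (-A / 2 + -B / 2) :=
    ((mul_le_mul_of_nonneg_left (pairWin_half hδ (by linarith) hN1)
      (mul_nonneg (Real.exp_pos _).le hI0)).trans key).trans (hle.trans hFe.le)
  have h4 : I ≤ 2 * Real.exp (-A / 2 + -B / 2 - P) := by
    rw [Real.exp_sub, mul_div_assoc', le_div_iff₀ (Real.exp_pos _)]
    linarith
  refine h4.trans ((mul_le_mul_of_nonneg_right (b := 2) (c := Real.exp (η * N / 2))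
    ?_ (Real.exp_pos _).le).trans ?_)
  · linarith [Real.add_one_le_exp (η * N / 2)]
  rw [← Real.exp_add, hP]
  refine Real.exp_le_exp.2 ?_
  linarith [mul_le_mul_of_nonneg_right hδK hN0.le]

/-- The exponential correction outside the window. -/
lemma tilt_shift {N : ℕ} {M δ s σ θ : ℝ} {c : Fin N → ℝ} (hM : 0 < M) (hδM : δ ≤ M)
    (hs : 0 < s) (hsM : s * M ^ 2 = δ / 8) (hσ : |σ| = 1) (hgap : ∀ i, 1 / M ≤ θ - c i)
    (hav : |∑ i, (θ - c i)⁻¹ - (N : ℝ)| ≤ δ / 2 * N) :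
    Integrable (tilt fun i => θ - c i - 1 - σ * s) (gauss (Fin N)) ∧
      Real.exp (-(σ * s * ((1 + σ * δ) * N)) / 2)
          * ∫ x, tilt (fun i => θ - c i - 1 - σ * s) x ∂gauss (Fin N)
        ≤ Real.exp (-(∑ i, Real.log (θ - c i)) / 2 - s * δ / 8 * N) := by
  have hgap0 : ∀ i, 0 < θ - c i := fun i => lt_of_lt_of_le (by positivity) (hgap i)
  have hx : ∀ i, |σ * s * (θ - c i)⁻¹| ≤ s * M := fun i => by
    rw [abs_mul, abs_mul, hσ, one_mul, abs_of_pos hs, abs_of_pos (inv_pos.2 (hgap0 i))]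
    refine mul_le_mul_of_nonneg_left ?_ hs.le
    rw [inv_le_iff_one_le_mul₀ (hgap0 i)]
    have := mul_le_mul_of_nonneg_left (hgap i) hM.le
    rwa [mul_one_div_cancel hM.ne'] at this
  have hsM2 : s * M ≤ 1 / 2 := by
    have : s * M * M ≤ 1 / 2 * M := by rw [mul_assoc, ← pow_two, hsM]; linarith
    exact le_of_mul_le_mul_right this hM
  have hlt : ∀ i, 0 < 1 - σ * s * (θ - c i)⁻¹ := fun i => by
    linarith [(abs_le.1 (hx i)).2]
  have hfac : ∀ i, 1 + (θ - c i - 1 - σ * s) = (θ - c i) * (1 - σ * s * (θ - c i)⁻¹) :=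
    fun i => by
      have := hgap0 i
      field_simp; ring
  obtain ⟨hi, he⟩ := gauss_tilt (q := fun i => θ - c i - 1 - σ * s) fun i => by
    linarith [hfac i, mul_pos (hgap0 i) (hlt i)]
  refine ⟨hi, ?_⟩
  rw [he, ← Real.exp_add]
  refine Real.exp_le_exp.2 ?_
  have h1 : (∑ i, Real.log (θ - c i)) - σ * s * ∑ i, (θ - c i)⁻¹ - 2 * (N * (s * M) ^ 2)
      ≤ ∑ i, Real.log (1 + (θ - c i - 1 - σ * s)) := by
    rw [Finset.mul_sum, ← Finset.sum_sub_distrib,
      show 2 * ((N : ℝ) * (s * M) ^ 2) = ∑ _i : Fin N, 2 * (s * M) ^ 2 by simp; ring,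
      ← Finset.sum_sub_distrib]
    refine Finset.sum_le_sum fun i _ => ?_
    rw [hfac, Real.log_mul (hgap0 i).ne' (hlt i).ne']
    have h2 := log_one_sub_ge ((le_abs_self _).trans ((hx i).trans hsM2))
    have h3 : (σ * s * (θ - c i)⁻¹) ^ 2 ≤ (s * M) ^ 2 := by
      rw [← sq_abs]
      exact pow_le_pow_left₀ (abs_nonneg _) (hx i) 2
    linarith
  have h5 : |σ * s * (∑ i, (θ - c i)⁻¹ - N)| ≤ s * (δ / 2 * N) := by
    rw [abs_mul, abs_mul, hσ, one_mul, abs_of_pos hs]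
    exact mul_le_mul_of_nonneg_left hav hs.le
  have h6 : σ * σ = 1 := by rw [← abs_mul_abs_self, hσ, one_mul]
  have h7 : (N : ℝ) * (s * M) ^ 2 = s * δ / 8 * N := by
    rw [mul_pow, pow_two s, mul_assoc, hsM]; ring
  have h8 : σ * s * ((1 + σ * δ) * N) = σ * s * N + s * δ * N := by
    linear_combination (s * δ * N) * h6
  rw [h8]
  linarith [(abs_le.1 h5).2]

/-- Inside the window the Gaussian integral is bounded by the spherical one. -/
lemma lower_inside {N : ℕ} (hN : 0 < (N : ℝ)) {v : Fin N → ℝ} (hvN : sq v = N) {δ K : ℝ}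
    (hδ1 : δ ≤ 1) (hK : 0 ≤ K) (c : Fin N → ℝ) (θ : ℝ) (hq : ∀ i, |θ - c i - 1| ≤ K) :
    ∫ x, {x : Fin N → ℝ | |sq x - (N : ℝ)| ≤ δ * N}.indicator (tilt fun i => θ - c i - 1) x
        ∂gauss (Fin N)
      ≤ Real.exp (δ * K * N / 2 - (θ - 1) * N / 2)
        * ∫ U, Real.exp ((∑ i, c i * act U v i ^ 2) / 2) ∂haarO N := by
  obtain ⟨q, hq'⟩ : ∃ q : Fin N → ℝ, q = fun i => θ - c i - 1 := ⟨_, rfl⟩
  rw [← hq']
  obtain ⟨win, hwin⟩ : ∃ win : Set (Fin N → ℝ), win = {x | |sq x - (N : ℝ)| ≤ δ * N} := ⟨_, rfl⟩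
  rw [← hwin]
  have hqK : ∀ i, |q i| ≤ K := hq' ▸ hq
  have hwm : MeasurableSet win := hwin ▸ measurableSet_le
    ((continuous_sq.sub continuous_const).abs).measurable measurable_const
  have hmem : ∀ (U : OMat N) g, act U g ∈ win ↔ g ∈ win := fun U g => by
    simp only [hwin, Set.mem_ofPred_eq, sq_act]
  obtain ⟨hai, hae⟩ := avg_eq (gauss (Fin N)) (haarO N) act continuous_act.measurable gauss_act
    ((continuous_tilt q).measurable.indicator hwm) (abs_ind_tilt_le hK hqK (B := (N : ℝ))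
      fun x hx => by
        rw [hwin, Set.mem_ofPred_eq] at hx
        linarith [(abs_le.1 hx).2, mul_le_mul_of_nonneg_right hδ1 hN.le])
  rw [← hae]
  refine (integral_mono hai (integrable_const (Real.exp (δ * K * N / 2 - (θ - 1) * N / 2)
    * ∫ U, Real.exp ((∑ i, c i * act U v i ^ 2) / 2) ∂haarO N)) fun g => ?_).trans
    (le_of_eq (by simp))
  by_cases hg : g ∈ win
  · simp only [Set.indicator_of_mem ((hmem _ g).2 hg)]
    rw [hwin, Set.mem_ofPred_eq] at hg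
    obtain ⟨ρ, hρ⟩ : ∃ ρ, ρ = sq g / N := ⟨_, rfl⟩
    have hρ1 : |ρ - 1| ≤ δ := hρ ▸ abs_div_sub_one_le hN hg
    have hρ0 : 0 ≤ ρ := hρ ▸ div_nonneg (sq_nonneg' _) hN.le
    rw [sub_vec_invariant sub_haar (w := Real.sqrt ρ • v)
      (fun i hi => absurd hi (Finset.notMem_empty i))
      (fun i hi => absurd hi (Finset.notMem_empty i))
      (by rw [sq_smul, Real.sq_sqrt hρ0, hvN, hρ, div_mul_cancel₀ _ hN.ne']) _
      (continuous_tilt q), ← integral_const_mul]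
    refine integral_mono (integrable_of_cont _ (by fun_prop))
      (integrable_of_cont _ (by fun_prop)) fun U => ?_
    have hQ : quad q (act U v) = (θ - 1) * N - ∑ i, c i * act U v i ^ 2 := by
      rw [hq']; exact quad_param c θ (by rw [sq_act, hvN])
    have hb := quad_scale_le hqK (x := act U v) (by rw [sq_act, hvN]) hρ1
    simp only [act_smul, tilt, quad_smul, Real.sq_sqrt hρ0, ← Real.exp_add]
    refine Real.exp_le_exp.2 ?_
    linarith [(abs_le.1 hb).1]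
  · simp only [Set.indicator_of_notMem fun h => hg ((hmem _ g).1 h), integral_zero]
    exact mul_nonneg (Real.exp_pos _).le (integral_nonneg fun U => (Real.exp_pos _).le)

theorem sph_lower (M η : ℝ) (hM : 0 < M) (hη : 0 < η) :
    ∃ η' > 0, ∃ N0 : ℕ, ∀ N ≥ N0, ∀ v : Fin N → ℝ, sq v = N →
      ∀ (c : Fin N → ℝ) (θ : ℝ), (∀ i, |c i| ≤ M) → |θ| ≤ M → (∀ i, 1 / M ≤ θ - c i) →
        |(∑ i, (θ - c i)⁻¹) / N - 1| ≤ η' →
        Real.exp (-(N * η) + ((θ - 1) * N - ∑ i, Real.log (θ - c i)) / 2)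
          ≤ ∫ U, Real.exp ((∑ i, c i * act U v i ^ 2) / 2) ∂haarO N := by
  obtain ⟨K, hK⟩ : ∃ K, K = 2 * |M| + 1 := ⟨_, rfl⟩
  have hK0 : 0 < K := hK ▸ (by positivity : (0 : ℝ) < 2 * |M| + 1)
  obtain ⟨δ, hδdef⟩ : ∃ δ, δ = min (min 1 M) (η / K) := ⟨_, rfl⟩
  have hδ : 0 < δ := hδdef ▸ lt_min (lt_min one_pos hM) (by positivity)
  have hδ1 : δ ≤ 1 := hδdef ▸ (min_le_left _ _).trans (min_le_left _ _)
  have hδM : δ ≤ M := hδdef ▸ (min_le_left _ _).trans (min_le_right _ _)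
  have hδK : δ * K ≤ η := (le_div_iff₀ hK0).1 (hδdef ▸ min_le_right _ _)
  obtain ⟨s, hs⟩ : ∃ s, s = δ / (8 * M ^ 2) := ⟨_, rfl⟩
  have hs0 : 0 < s := hs ▸ (by positivity : 0 < δ / (8 * M ^ 2))
  have hsM : s * M ^ 2 = δ / 8 := by rw [hs]; field_simp
  obtain ⟨k, hk⟩ : ∃ k, k = s * δ / 8 := ⟨_, rfl⟩
  have hk0 : 0 < k := hk ▸ (by positivity : 0 < s * δ / 8)
  refine ⟨δ / 2, by positivity, ⌈3 / k + 2 / η⌉₊ + 1, fun N hN v hvN c θ hc hθ hgap hav => ?_⟩
  have hN' := N_large hN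
  have hN0 : (0 : ℝ) < N := lt_trans (by positivity) hN'
  have hN1 : 3 ≤ k * N := by
    rw [← div_le_iff₀' hk0]; linarith [show (0 : ℝ) < 2 / η by positivity]
  have hN2 : 2 ≤ η * N := by
    rw [← div_le_iff₀' hη]; linarith [show (0 : ℝ) < 3 / k by positivity]
  rw [div_sub_one hN0.ne', abs_div, abs_of_pos hN0, div_le_iff₀ hN0] at hav
  have hgap0 : ∀ i, 0 < θ - c i := fun i => lt_of_lt_of_le (by positivity) (hgap i)
  obtain ⟨hFi, hFe⟩ := gauss_tilt (q := fun i => θ - c i - 1) fun i => by linarith [hgap0 i]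
  simp only [add_sub_cancel] at hFe
  obtain ⟨hi1, hb1⟩ := tilt_shift (σ := 1) hM hδM hs0 hsM abs_one hgap hav
  obtain ⟨hi2, hb2⟩ := tilt_shift (σ := -1) hM hδM hs0 hsM (by simp) hgap hav
  obtain ⟨e1, he1⟩ : ∃ e1, e1 = Real.exp (-(1 * s * ((1 + 1 * δ) * (N : ℝ))) / 2) := ⟨_, rfl⟩
  obtain ⟨e2, he2⟩ : ∃ e2, e2 = Real.exp (-(-1 * s * ((1 + -1 * δ) * (N : ℝ))) / 2) := ⟨_, rfl⟩
  rw [← he1, ← hk] at hb1
  rw [← he2, ← hk] at hb2
  obtain ⟨win, hwin⟩ : ∃ win : Set (Fin N → ℝ), win = {x | |sq x - (N : ℝ)| ≤ δ * N} := ⟨_, rfl⟩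
  have hwm : MeasurableSet win := hwin ▸ measurableSet_le
    ((continuous_sq.sub continuous_const).abs).measurable measurable_const
  have hin := lower_inside hN0 hvN hδ1 hK0.le c θ fun i => hK ▸ abs_tilt_param hθ (hc i)
  rw [← hwin] at hin
  obtain ⟨q, hq⟩ : ∃ q : Fin N → ℝ, q = fun i => θ - c i - 1 := ⟨_, rfl⟩
  rw [← hq] at hFi hFe hin
  have hpt : ∀ x, tilt q x ≤ win.indicator (tilt q) x + e1 * tilt (fun i => θ - c i - 1 - 1 * s) x
      + e2 * tilt (fun i => θ - c i - 1 - -1 * s) x := fun x => by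
    have h1 : 0 ≤ e1 * tilt (fun i => θ - c i - 1 - 1 * s) x :=
      he1 ▸ (mul_pos (Real.exp_pos _) (Real.exp_pos _)).le
    have h2 : 0 ≤ e2 * tilt (fun i => θ - c i - 1 - -1 * s) x :=
      he2 ▸ (mul_pos (Real.exp_pos _) (Real.exp_pos _)).le
    by_cases hx : x ∈ win
    · rw [Set.indicator_of_mem hx]; linarith
    rw [Set.indicator_of_notMem hx, zero_add]
    have hquad : ∀ r : ℝ, quad (fun i => θ - c i - 1 - r) x = quad q x - r * sq x := fun r => by
      simp only [quad, sq, hq, Finset.mul_sum, ← Finset.sum_sub_distrib]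
      exact Finset.sum_congr rfl fun i _ => by ring
    rw [hwin, Set.mem_ofPred_eq, not_le] at hx
    rcases lt_abs.1 hx with h | h
    · refine le_add_of_le_of_nonneg ?_ h2
      rw [he1, tilt, tilt, hquad, ← Real.exp_add]
      exact Real.exp_le_exp.2 (by linarith [mul_le_mul_of_nonneg_left h.le hs0.le])
    · refine le_add_of_nonneg_of_le h1 ?_
      rw [he2, tilt, tilt, hquad, ← Real.exp_add]
      exact Real.exp_le_exp.2 (by linarith [mul_le_mul_of_nonneg_left h.le hs0.le])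
  have hiA : Integrable (fun x => win.indicator (tilt q) x
      + e1 * tilt (fun i => θ - c i - 1 - 1 * s) x) (gauss (Fin N)) :=
    (hFi.indicator hwm).add (hi1.const_mul e1)
  have hsum := integral_mono hFi (hiA.add (hi2.const_mul e2)) hpt
  simp only [Pi.add_apply] at hsum
  rw [integral_add hiA (hi2.const_mul e2), integral_add (hFi.indicator hwm) (hi1.const_mul e1),
    integral_const_mul, integral_const_mul, hFe] at hsum
  obtain ⟨L, hL⟩ : ∃ L, L = ∑ i, Real.log (θ - c i) := ⟨_, rfl⟩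
  rw [← hL] at hb1 hb2 hsum
  rw [← hL]
  have hkN : Real.exp (-L / 2 - k * N) ≤ 1 / 4 * Real.exp (-L / 2) := by
    rw [sub_eq_add_neg, Real.exp_add, mul_comm]
    refine mul_le_mul_of_nonneg_right ?_ (Real.exp_pos _).le
    rw [Real.exp_neg, one_div]
    exact inv_anti₀ (by norm_num) (by linarith [Real.add_one_le_exp (k * N)])
  obtain ⟨I, hI⟩ : ∃ I, I = ∫ U, Real.exp ((∑ i, c i * act U v i ^ 2) / 2) ∂haarO N := ⟨_, rfl⟩
  rw [← hI] at hin ⊢
  obtain ⟨P, hP⟩ : ∃ P, P = δ * K * N / 2 - (θ - 1) * N / 2 := ⟨_, rfl⟩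
  rw [← hP] at hin
  have h2 : 1 / 2 * Real.exp (-L / 2) ≤ Real.exp P * I := by linarith
  have h3 : 1 / 2 * Real.exp (-L / 2 - P) ≤ I := by
    rw [Real.exp_sub, mul_div_assoc', div_le_iff₀ (Real.exp_pos _)]
    linarith
  refine le_trans ?_ h3
  rw [one_div_mul_eq_div, le_div_iff₀ two_pos, mul_comm]
  refine (mul_le_mul_of_nonneg_right (b := 2) (c := Real.exp (η * N / 2))
    ?_ (Real.exp_pos _).le).trans ?_
  · linarith [Real.add_one_le_exp (η * N / 2)]
  rw [← Real.exp_add, hP]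
  refine Real.exp_le_exp.2 ?_
  linarith [mul_le_mul_of_nonneg_right hδK hN0.le]

/-- The radial projection to the sphere of squared radius `N`. -/
def radial {N : ℕ} (g : Fin N → ℝ) : Fin N → ℝ := (Real.sqrt N / Real.sqrt (sq g)) • g

lemma radial_measurable {N : ℕ} : Measurable (radial (N := N)) := by
  unfold radial
  exact (measurable_const.div (continuous_sq.measurable.sqrt)).smul measurable_id

/-- The law of `act U v` is the law of the radial projection of a Gaussian vector. -/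
lemma dir_law {N : ℕ} {S : Set (Fin N → ℝ)} (hS : MeasurableSet S) {v : Fin N → ℝ}
    (hv : sq v = 1) :
    (gauss (Fin N)).real {g | 0 < sq g ∧ radial g ∈ S}
      = (haarO N).real ((fun U => act U (Real.sqrt N • v)) ⁻¹' S)
        * (gauss (Fin N)).real {g : Fin N → ℝ | 0 < sq g} := by
  obtain ⟨T, hT⟩ : ∃ T : Set (Fin N → ℝ), T = {g | 0 < sq g ∧ radial g ∈ S} := ⟨_, rfl⟩
  have hTm : MeasurableSet T :=
    hT ▸ (measurableSet_lt measurable_const continuous_sq.measurable).inter (radial_measurable hS)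
  obtain ⟨D, hD⟩ : ∃ D : Set (Fin N → ℝ), D = {g | 0 < sq g} := ⟨_, rfl⟩
  have hDm : MeasurableSet D := hD ▸ measurableSet_lt measurable_const continuous_sq.measurable
  rw [← hT, ← hD]
  obtain ⟨-, hae⟩ := avg_eq (gauss (Fin N)) (haarO N) act continuous_act.measurable gauss_act
    (G := T.indicator fun _ => (1 : ℝ)) (measurable_const.indicator hTm) (C := 1) fun x => by
      by_cases hx : x ∈ T <;> simp [hx]
  rw [integral_indicator_const _ hTm, smul_eq_mul, mul_one] at hae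
  rw [← hae, mul_comm, ← smul_eq_mul, ← integral_indicator_const _ hDm]
  refine integral_congr_ae (Filter.Eventually.of_forall fun g => ?_)
  dsimp only
  have e : ∀ U : OMat N, radial (act U g) = act U (radial g) := fun U => by
    simp only [radial, sq_act, act_smul]
  by_cases hg : g ∈ D
  · rw [Set.indicator_of_mem hg]
    rw [hD, Set.mem_ofPred_eq] at hg
    have h1 : ∀ U : OMat N, T.indicator (fun _ => (1 : ℝ)) (act U g)
        = S.indicator (fun _ => (1 : ℝ)) (act U (radial g)) := fun U => by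
      by_cases hU : act U (radial g) ∈ S
      · rw [Set.indicator_of_mem hU, Set.indicator_of_mem]
        rw [hT, Set.mem_ofPred_eq, sq_act, e]
        exact ⟨hg, hU⟩
      · rw [Set.indicator_of_notMem hU, Set.indicator_of_notMem]
        rw [hT, Set.mem_ofPred_eq, sq_act, e]
        exact fun h => hU h.2
    simp only [h1]
    have hlen : sq (radial g) = sq (Real.sqrt N • v) := by
      simp only [radial, sq_smul, div_pow, Real.sq_sqrt (Nat.cast_nonneg N),
        Real.sq_sqrt (sq_nonneg' g), hv, mul_one, div_mul_cancel₀ _ hg.ne']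
    rw [sub_vec_invariant' sub_haar (fun i hi => absurd hi (Finset.notMem_empty i))
      (fun i hi => absurd hi (Finset.notMem_empty i)) hlen _ (measurable_const.indicator hS),
      ← integral_indicator_one ((continuous_act_left _).measurable hS)]
    exact integral_congr_ae (Filter.Eventually.of_forall fun U => rfl)
  · rw [Set.indicator_of_notMem hg]
    have h1 : ∀ U : OMat N, act U g ∉ T := fun U hU => hg (by
      rw [hT, Set.mem_ofPred_eq, sq_act] at hU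
      rw [hD]; exact hU.1)
    simp [Set.indicator_of_notMem (h1 _)]

lemma radial_dist {N : ℕ} {g : Fin N → ℝ} (hg : 0 < sq g) {ε : ℝ}
    (h : |sq g - (N : ℝ)| ≤ ε * N) :
    Real.sqrt (sq (radial g - g)) * Real.sqrt N ≤ ε * N := by
  have h0 : 0 < Real.sqrt (sq g) := Real.sqrt_pos.2 hg
  have hd : sq (radial g - g) = (Real.sqrt N - Real.sqrt (sq g)) ^ 2 := by
    rw [show radial g - g = (Real.sqrt N / Real.sqrt (sq g) - 1) • g by
      rw [sub_smul, one_smul]; rfl, sq_smul,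
      div_sub_one h0.ne', div_pow, Real.sq_sqrt hg.le, div_mul_cancel₀ _ hg.ne']
  rw [hd, Real.sqrt_sq_eq_abs]
  refine le_trans ?_ h
  calc _ ≤ |Real.sqrt N - Real.sqrt (sq g)| * (Real.sqrt N + Real.sqrt (sq g)) :=
        mul_le_mul_of_nonneg_left (by linarith) (abs_nonneg _)
    _ = |sq g - (N : ℝ)| := by
        rw [← abs_of_nonneg (by positivity : 0 ≤ Real.sqrt N + Real.sqrt (sq g)), ← abs_mul,
          abs_sub_comm (sq g)]
        congr 1
        linear_combination Real.sq_sqrt (Nat.cast_nonneg (α := ℝ) N) - Real.sq_sqrt hg.le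

lemma avg_lip {N : ℕ} (hN : 0 < (N : ℝ)) {φ : ℝ → ℝ} {L : ℝ} (hL : 0 ≤ L)
    (hφ : ∀ x y, |φ x - φ y| ≤ L * |x - y|) (x y : Fin N → ℝ) :
    |(∑ j, φ (x j)) / N - (∑ j, φ (y j)) / N|
      ≤ L / Real.sqrt N * Real.sqrt (sq (x - y)) := by
  have hcs : ∑ j, |x j - y j| ≤ Real.sqrt N * Real.sqrt (sq (x - y)) := by
    have := Real.sum_mul_le_sqrt_mul_sqrt Finset.univ (fun _ : Fin N => (1 : ℝ))
      fun j => |x j - y j|
    simpa [sq, sq_abs] using this
  rw [div_sub_div_same, abs_div, abs_of_pos hN, ← Finset.sum_sub_distrib, div_le_iff₀ hN]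
  refine ((Finset.abs_sum_le_sum_abs _ _).trans (Finset.sum_le_sum fun j _ => hφ _ _)).trans ?_
  rw [← Finset.mul_sum]
  refine (mul_le_mul_of_nonneg_left hcs hL).trans (le_of_eq ?_)
  have : Real.sqrt N ≠ 0 := (Real.sqrt_pos.2 hN).ne'
  field_simp
  rw [Real.sq_sqrt hN.le]
  ring

lemma avg_mean {N : ℕ} (hN : 0 < (N : ℝ)) {φ : ℝ → ℝ} {L : ℝ} (hc : Continuous φ)
    (hφ : ∀ x y, |φ x - φ y| ≤ L * |x - y|) :
    ∫ x : Fin N → ℝ, (∑ j, φ (x j)) / N ∂gauss (Fin N) = ∫ g, φ g ∂gaussianReal 0 1 := by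
  have hφi : Integrable φ (gaussianReal 0 1) := by
    refine (((memLp_id_gaussianReal' 1 ENNReal.one_ne_top).integrable le_rfl).abs.const_mul L
      |>.add (integrable_const |φ 0|)).mono' hc.aestronglyMeasurable
      (Filter.Eventually.of_forall fun x => ?_)
    simp only [Real.norm_eq_abs, Pi.add_apply, id_eq]
    have := hφ x 0
    rw [sub_zero] at this
    linarith [abs_sub_abs_le_abs_sub (φ x) (φ 0)]
  rw [integral_div, integral_finsetSum _ fun j _ => integrable_comp_eval hφi,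
    Finset.sum_congr rfl fun j _ => integral_comp_eval hc.aestronglyMeasurable,
    Finset.sum_const, Finset.card_univ, Fintype.card_fin, nsmul_eq_mul,
    mul_div_cancel_left₀ _ hN.ne']

/-- Concentration of additive functions of a uniform direction. -/
theorem dir_tail (L δ : ℝ) (hL : 0 < L) (hδ : 0 < δ) :
    ∃ c > 0, ∃ N0 : ℕ, ∀ N ≥ N0, ∀ φ : ℝ → ℝ, (∀ x y, |φ x - φ y| ≤ L * |x - y|) →
      ∀ v : Fin N → ℝ, sq v = 1 →
        (haarO N).real {U | ∫ g, φ g ∂gaussianReal 0 1 + δ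
            ≤ (∑ j, φ (Real.sqrt N * act U v j)) / N}
          ≤ Real.exp (-(c * N)) := by
  obtain ⟨ε, hεdef⟩ : ∃ ε, ε = min 1 (δ / (2 * L)) := ⟨_, rfl⟩
  have hε : 0 < ε := hεdef ▸ lt_min one_pos (by positivity)
  have hε1 : ε ≤ 1 := hεdef ▸ min_le_left _ _
  have hεL : ε * (2 * L) ≤ δ := (le_div_iff₀ (by positivity)).1 (hεdef ▸ min_le_right _ _)
  obtain ⟨k, hk⟩ : ∃ k, k = min (ε ^ 2 / 16) (2 * (δ / 2) ^ 2 / (Real.pi ^ 2 * L ^ 2)) := ⟨_, rfl⟩
  have hk0 : 0 < k := hk ▸ lt_min (by positivity) (by positivity)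
  refine ⟨k / 2, by positivity, ⌈6 / k⌉₊ + 1, fun N hN φ hφ v hv => ?_⟩
  have hN' := N_large hN
  have hN0 : (0 : ℝ) < N := lt_trans (by positivity) hN'
  have hN1 : 6 ≤ k * N := by rw [← div_le_iff₀' hk0]; exact hN'.le
  have hφc : Continuous φ := (LipschitzWith.of_dist_le_mul (K := ⟨L, hL.le⟩) fun x y => by
    simp only [Real.dist_eq]; exact hφ x y).continuous
  obtain ⟨ψ, hψ⟩ : ∃ ψ : (Fin N → ℝ) → ℝ, ψ = fun x => (∑ j, φ (x j)) / N := ⟨_, rfl⟩
  have hψc : Continuous ψ := by rw [hψ]; fun_prop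
  have hψL : ∀ x y, |ψ x - ψ y| ≤ L / Real.sqrt N * Real.sqrt (sq (x - y)) :=
    hψ ▸ avg_lip hN0 hL.le hφ
  obtain ⟨m, hm⟩ : ∃ m, m = ∫ g, φ g ∂gaussianReal 0 1 := ⟨_, rfl⟩
  rw [← hm]
  have hmean : ∫ x, ψ x ∂gauss (Fin N) = m := hψ ▸ hm ▸ avg_mean hN0 hφc hφ
  obtain ⟨S, hS⟩ : ∃ S : Set (Fin N → ℝ), S = {x | m + δ ≤ ψ x} := ⟨_, rfl⟩
  have hSm : MeasurableSet S := hS ▸ measurableSet_le measurable_const hψc.measurable
  have hE : {U : OMat N | m + δ ≤ (∑ j, φ (Real.sqrt N * act U v j)) / N}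
      = (fun U => act U (Real.sqrt N • v)) ⁻¹' S := by
    ext U
    simp [hS, hψ, act_smul]
  rw [hE]
  have hlaw := dir_law hSm hv
  obtain ⟨A, hA⟩ : ∃ A : Set (Fin N → ℝ), A = {x | ε * N ≤ |sq x - (N : ℝ)|} := ⟨_, rfl⟩
  have hAb : (gauss (Fin N)).real A ≤ 2 * Real.exp (-(k * N)) := by
    have h := gauss_sq_tail (Finset.univ : Finset (Fin N)) (N := (N : ℝ)) (by simp) hε hε1
    have h' : (gauss (Fin N)).real A ≤ 2 * Real.exp (-(ε ^ 2 / 16 * N)) := by
      simpa [hA, sq] using h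
    refine h'.trans (mul_le_mul_of_nonneg_left (Real.exp_le_exp.2 ?_) zero_le_two)
    exact neg_le_neg (mul_le_mul_of_nonneg_right (hk ▸ min_le_left _ _) hN0.le)
  have hBb : (gauss (Fin N)).real {x | m + δ / 2 ≤ ψ x} ≤ Real.exp (-(k * N)) := by
    have h := gauss_upper (L := L / Real.sqrt N) (by positivity) hψL (δ / 2) (by positivity)
    rw [hmean] at h
    refine h.trans (Real.exp_le_exp.2 (neg_le_neg ?_))
    have e : 2 * (δ / 2) ^ 2 / (Real.pi ^ 2 * (L / Real.sqrt N) ^ 2)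
        = 2 * (δ / 2) ^ 2 / (Real.pi ^ 2 * L ^ 2) * N := by
      rw [div_pow L, Real.sq_sqrt hN0.le]
      field_simp
    rw [e]
    exact mul_le_mul_of_nonneg_right (hk ▸ min_le_right _ _) hN0.le
  have hsub : {g | 0 < sq g ∧ radial g ∈ S} ⊆ A ∪ {x | m + δ / 2 ≤ ψ x} := fun g hg => by
    rw [Set.mem_ofPred_eq, hS, Set.mem_ofPred_eq] at hg
    by_cases hgA : g ∈ A
    · exact Or.inl hgA
    right
    rw [hA, Set.mem_ofPred_eq, not_le] at hgA
    have hN3 : 0 < Real.sqrt N := Real.sqrt_pos.2 hN0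
    have h2 : |ψ (radial g) - ψ g| ≤ L * ε := by
      refine (hψL _ _).trans ?_
      rw [div_mul_eq_mul_div, div_le_iff₀ hN3, mul_assoc L ε]
      refine mul_le_mul_of_nonneg_left ?_ hL.le
      refine le_of_mul_le_mul_right ?_ hN3
      rw [mul_assoc, Real.mul_self_sqrt hN0.le]
      exact radial_dist hg.1 hgA.le
    show m + δ / 2 ≤ ψ g
    linarith [(abs_le.1 h2).2, hg.2]
  have hTb := ((measureReal_mono (μ := gauss (Fin N)) hsub).trans (measureReal_union_le _ _))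
  have hexp : Real.exp (-(k * N)) ≤ 1 / 6 * Real.exp (-(k / 2 * N)) := by
    rw [show -(k * N : ℝ) = -(k / 2 * N) + -(k / 2 * N) by ring, Real.exp_add]
    refine mul_le_mul_of_nonneg_right ?_ (Real.exp_pos _).le
    rw [Real.exp_neg, one_div]
    refine inv_anti₀ (by norm_num) ?_
    have h4 : (3 : ℝ) ≤ k / 2 * N := by linarith
    linarith [Real.quadratic_le_exp_of_nonneg (show (0 : ℝ) ≤ k / 2 * N by linarith),
      pow_le_pow_left₀ (by norm_num) h4 2]
  have hDb : 1 / 2 ≤ (gauss (Fin N)).real {g : Fin N → ℝ | 0 < sq g} := by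
    have h : {g : Fin N → ℝ | 0 < sq g}ᶜ ⊆ A := fun g hg => by
      rw [Set.mem_compl_iff, Set.mem_ofPred_eq, not_lt] at hg
      rw [hA, Set.mem_ofPred_eq, le_antisymm hg (sq_nonneg' g), zero_sub, abs_neg, abs_of_pos hN0]
      linarith [mul_le_mul_of_nonneg_right hε1 hN0.le]
    have := (measureReal_mono (μ := gauss (Fin N)) h).trans hAb
    rw [probReal_compl_eq_one_sub
      (measurableSet_lt measurable_const continuous_sq.measurable)] at this
    linarith [Real.exp_le_one_iff.2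
      (show -(k / 2 * (N : ℝ)) ≤ 0 by linarith)]
  have hPE : 0 ≤ (haarO N).real ((fun U => act U (Real.sqrt N • v)) ⁻¹' S) := measureReal_nonneg
  linarith [mul_le_mul_of_nonneg_left hDb hPE]

end

end Vale.Agent.P166.High
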