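import Vale.Agent.P166.High.Pot

/-!
# P166 high temperature: curvature bounds valid for every spectral law
-/

namespace Vale.Agent.P166.High

open MeasureTheory

noncomputable section

variable {μ : Measure ℝ} {a b : ℝ} {l : (N : ℕ) → Fin N → ℝ}

lemma univ_stieltjes_bounds (A : Admissible μ a b l) {z : ℝ} (hz : b < z) :
    (z - a)⁻¹ ≤ stieltjes μ z ∧ stieltjes μ z ≤ (z - b)⁻¹ ∧
      stieltjes2 μ z ≤ ((z - b)⁻¹ + (z - a)⁻¹) * stieltjes μ z - (z - b)⁻¹ * (z - a)⁻¹ := by
  have := A.prob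
  have hab := pot_le A
  have hi := pot_int_inv A hz
  have hi2 := pot_int_inv2 A hz
  have hb : ∀ᵐ x ∂μ, (z - a)⁻¹ ≤ (z - x)⁻¹ ∧ (z - x)⁻¹ ≤ (z - b)⁻¹ := by
    filter_upwards [pot_ae A] with x hx
    exact ⟨inv_anti₀ (by linarith [hx.2]) (by linarith [hx.1]),
      inv_anti₀ (by linarith) (by linarith [hx.2])⟩
  refine ⟨?_, ?_, ?_⟩
  · have h := integral_mono_ae (integrable_const ((z - a)⁻¹)) hi (hb.mono fun x hx => hx.1)
    simpa [stieltjes] using h
  · have h := integral_mono_ae hi (integrable_const ((z - b)⁻¹)) (hb.mono fun x hx => hx.2)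
    simpa [stieltjes] using h
  · have h := integral_mono_ae hi2
      ((hi.const_mul ((z - b)⁻¹ + (z - a)⁻¹)).sub (integrable_const ((z - b)⁻¹ * (z - a)⁻¹)))
      (hb.mono fun x hx => by
        simp only [Pi.sub_apply, ← inv_pow]
        nlinarith [mul_nonneg (sub_nonneg.2 hx.1) (sub_nonneg.2 hx.2)])
    simp only [Pi.sub_apply] at h
    rw [integral_sub (hi.const_mul _) (integrable_const _), integral_const_mul] at h
    simpa [stieltjes2, stieltjes] using h

theorem curvature_le (A : Admissible μ a b l) {z : ℝ} (hz : b < z) :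
    1 / stieltjes μ z ^ 2 - 1 / stieltjes2 μ z ≤ (b - a) ^ 2 := by
  obtain ⟨h1, h2, h3⟩ := univ_stieltjes_bounds A hz
  have hab := pot_le A
  have hG := pot_stieltjes_pos A hz
  have hG2 := pot_stieltjes2_pos A hz
  set u := z - b with hu
  set v := z - a with hv
  set G := stieltjes μ z
  set w := 1 / G with hw
  have hu0 : 0 < u := by linarith
  have hv0 : 0 < v := by linarith
  have hw0 : 0 < w := by positivity
  have hwu : u ≤ w := by rw [hw, one_div]; exact (le_inv_comm₀ hG hu0).1 h2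
  have hwv : w ≤ v := by rw [hw, one_div]; exact (inv_le_comm₀ hv0 hG).1 h1
  have hden : 0 < u + v - w := by linarith
  have hQ : (u⁻¹ + v⁻¹) * G - u⁻¹ * v⁻¹ = (u + v - w) / (u * v * w) := by
    rw [hw]; field_simp; ring
  rw [hQ] at h3
  have h4 : u * v * w / (u + v - w) ≤ 1 / stieltjes2 μ z := by
    rw [le_div_iff₀ hG2]
    calc u * v * w / (u + v - w) * stieltjes2 μ z
        ≤ u * v * w / (u + v - w) * ((u + v - w) / (u * v * w)) :=
          mul_le_mul_of_nonneg_left h3 (by positivity)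
      _ = 1 := by field_simp
  have h5 : 1 / G ^ 2 = w ^ 2 := by rw [hw]; ring
  have h6 : w * (w - u) * (v - w) / (u + v - w) ≤ (v - u) ^ 2 := by
    rw [div_le_iff₀ hden]
    have e1 : w * (v - w) ≤ (u + v - w) * (v - u) := by
      nlinarith [mul_nonneg (sub_nonneg.2 hwu) hu0.le, mul_nonneg (sub_nonneg.2 hwv) hu0.le,
        sq_nonneg (v - w)]
    nlinarith [mul_le_mul_of_nonneg_left e1 (sub_nonneg.2 hwu),
      mul_le_mul_of_nonneg_right (show w - u ≤ v - u by linarith)
        (mul_nonneg hden.le (show (0 : ℝ) ≤ v - u by linarith))]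
  have h7 : w ^ 2 - u * v * w / (u + v - w) = w * (w - u) * (v - w) / (u + v - w) := by
    field_simp; ring
  rw [h5, show (b - a) ^ 2 = (v - u) ^ 2 by rw [hu, hv]; ring]
  linarith

theorem edge_ge (A : Admissible μ a b l) :
    ∀ ε > 0, ∃ z, b < z ∧ 1 ≤ ((b - a) ^ 2 + ε) * stieltjes μ z ^ 2 := by
  intro ε hε
  have hab := pot_le A
  set η := min 1 (ε / (2 * (b - a) + 1)) with hη
  have hη0 : 0 < η := lt_min one_pos (div_pos hε (by linarith))
  refine ⟨b + η, by linarith, ?_⟩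
  obtain ⟨h1, -, -⟩ := univ_stieltjes_bounds A (show b < b + η by linarith)
  have hv0 : 0 < b + η - a := by linarith
  have h2 : (b + η - a) ^ 2 ≤ (b - a) ^ 2 + ε := by
    have e1 : η * (2 * (b - a) + η) ≤ η * (2 * (b - a) + 1) :=
      mul_le_mul_of_nonneg_left (by linarith [min_le_left 1 (ε / (2 * (b - a) + 1))]) hη0.le
    have e2 : η * (2 * (b - a) + 1) ≤ ε :=
      (le_div_iff₀ (by linarith)).1 (min_le_right _ _)
    nlinarith
  calc (1 : ℝ) = (b + η - a) ^ 2 * ((b + η - a)⁻¹) ^ 2 := by field_simp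
    _ ≤ ((b - a) ^ 2 + ε) * stieltjes μ (b + η) ^ 2 :=
        mul_le_mul h2 (pow_le_pow_left₀ (inv_nonneg.2 hv0.le) h1 2) (sq_nonneg _) (by positivity)

end

end Vale.Agent.P166.High
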